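import Vale.Agent.P144.H135.PLim
import Vale.Agent.P144.H170.Lim

/-!
Asymptotics of the fermion kernel of the plane.
-/

namespace Vale.Agent.P144.H135

open Finset Vale.Agent.P144 Filter Topology
open Vale.Agent.P144.H170 (Pt pt CConv nf cconv_iff ev_nf apos_nf tendsto_fst_nf tendsto_pt_nf
  phA phB phC phE phA_apply phB_apply phC_apply phE_apply)

/-- `Q x = φ (κ / x) + o(1 / |x|)`. -/
def Asy (Q : Pt → ℝ) (φ : ℂ →L[ℝ] ℝ) (κ : ℂ) : Prop :=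
  Tendsto (fun x : Pt => ‖pt 1 x‖ * (Q x - φ (κ / pt 1 x))) cofinite (𝓝 0)

theorem pt_smul (a : ℝ) (x : Pt) : pt a x = a * pt 1 x := by
  apply Complex.ext <;> simp [pt]

theorem pt_sub (a : ℝ) (x y : Pt) : pt a (x - y) = pt a x - pt a y := by
  apply Complex.ext <;> simp [pt] <;> ring

theorem pt_add (a : ℝ) (x y : Pt) : pt a (x + y) = pt a x + pt a y := by
  apply Complex.ext <;> simp [pt] <;> ring

theorem tendsto_norm_pt : Tendsto (fun x : Pt => ‖pt 1 x‖) cofinite atTop := by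
  rw [tendsto_atTop]
  intro b
  have : {x : Pt | ¬ b ≤ ‖pt 1 x‖}.Finite := by
    refine (Set.Finite.prod (Set.finite_Icc (-(⌈b⌉)) ⌈b⌉) (Set.finite_Icc (-(⌈b⌉)) ⌈b⌉)).subset ?_
    intro x hx
    simp only [Set.mem_ofPred_eq, not_le] at hx
    have h1 := (Complex.abs_re_le_norm (pt 1 x)).trans_lt hx
    have h2 := (Complex.abs_im_le_norm (pt 1 x)).trans_lt hx
    simp only [pt, one_mul] at h1 h2
    have h3 := h1.trans_le (Int.le_ceil b)
    have h4 := h2.trans_le (Int.le_ceil b)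
    rw [abs_lt] at h3 h4
    obtain ⟨a1, a2⟩ := h3
    obtain ⟨a3, a4⟩ := h4
    have b1 : -(⌈b⌉) < x.1 := by exact_mod_cast a1
    have b2 : x.1 < ⌈b⌉ := by exact_mod_cast a2
    have b3 : -(⌈b⌉) < x.2 := by exact_mod_cast a3
    have b4 : x.2 < ⌈b⌉ := by exact_mod_cast a4
    exact ⟨⟨b1.le, b2.le⟩, ⟨b3.le, b4.le⟩⟩
  exact this

theorem asy_of_lim {Q : Pt → ℝ} {φ : ℂ →L[ℝ] ℝ} {κ : ℂ}
    (h : ∀ {l : Ultrafilter Pt} {a : Pt → ℝ} (_ : Tendsto a l (𝓝[>] 0)),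
      CConv l a {0}ᶜ (fun k x => (a k)⁻¹ * Q x) (fun z => φ (κ / z))) : Asy Q φ κ := by
  rw [Asy, tendsto_iff_ultrafilter]
  intro u hu
  have hinf : Tendsto (fun x : Pt => ‖pt 1 x‖) u atTop := tendsto_norm_pt.mono_left hu
  set a : Pt → ℝ := fun x => ‖pt 1 x‖⁻¹ with ha
  have hpos : ∀ᶠ x in (u : Filter Pt), 0 < ‖pt 1 x‖ := hinf.eventually_gt_atTop 0
  have ha0 : Tendsto a u (𝓝[>] 0) := by
    rw [tendsto_nhdsWithin_iff]
    refine ⟨tendsto_inv_atTop_zero.comp hinf, ?_⟩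
    filter_upwards [hpos] with x hx
    exact inv_pos.2 hx
  -- the direction
  set w : Pt → ℂ := fun x => pt (a x) x with hw
  have hwn : ∀ᶠ x in (u : Filter Pt), w x ∈ Metric.sphere (0:ℂ) 1 := by
    filter_upwards [hpos] with x hx
    rw [mem_sphere_zero_iff_norm]
    show ‖pt (a x) x‖ = 1
    rw [pt_smul, norm_mul, Complex.norm_real, Real.norm_eq_abs]
    simp only [ha]
    rw [abs_of_pos (inv_pos.2 hx), inv_mul_cancel₀ hx.ne']
  have hle : (u.map w : Filter ℂ) ≤ 𝓟 (Metric.sphere (0:ℂ) 1) := by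
    rw [le_principal_iff]; exact hwn
  obtain ⟨z0, hz0, hz⟩ := (isCompact_sphere (0:ℂ) 1).ultrafilter_le_nhds (u.map w) hle
  have hwz : Tendsto w u (𝓝 z0) := hz
  have hz0' : z0 ≠ 0 := by
    rintro rfl
    rw [mem_sphere_zero_iff_norm, norm_zero] at hz0
    norm_num at hz0
  have hnf : Tendsto (fun x : Pt => (x, x)) u (nf u a z0) := by
    unfold nf
    refine tendsto_inf.2 ⟨?_, ?_⟩
    · exact tendsto_id.prodMk tendsto_top
    · rw [tendsto_comap_iff]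
      exact hwz
  have h1 := ((cconv_iff.1 (h ha0)) z0 hz0').comp hnf
  have h2 : Tendsto (fun x => φ (κ / w x)) u (𝓝 (φ (κ / z0))) :=
    (φ.continuous.tendsto _).comp (tendsto_const_nhds.div hwz hz0')
  have h3 := h1.sub h2
  rw [sub_self] at h3
  refine h3.congr' ?_
  filter_upwards [hpos] with x hx
  simp only [Function.comp_apply, ha, hw, inv_inv]
  rw [mul_sub]
  congr 1
  have : κ / pt (‖pt 1 x‖⁻¹) x = ‖pt 1 x‖ • (κ / pt 1 x) := by
    rw [pt_smul (‖pt 1 x‖⁻¹), Complex.real_smul]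
    have hne : pt 1 x ≠ 0 := norm_pos_iff.1 hx
    have hc : ((‖pt 1 x‖ : ℝ) : ℂ) ≠ 0 := by exact_mod_cast hx.ne'
    push_cast
    field_simp
  rw [this, map_smul, smul_eq_mul]

theorem asyA : Asy (fun x => PA x.1 x.2) phA kap :=
  asy_of_lim fun ha => (P_lim ha).1

theorem asyE : Asy (fun x => PD x.1 x.2) phE kap :=
  asy_of_lim fun ha => (P_lim ha).2

theorem Asy.add {Q Q' : Pt → ℝ} {φ φ' : ℂ →L[ℝ] ℝ} {κ : ℂ} (h : Asy Q φ κ) (h' : Asy Q' φ' κ) :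
    Asy (fun x => Q x + Q' x) (φ + φ') κ := by
  have := Tendsto.add h h'
  rw [add_zero] at this
  refine this.congr fun x => ?_
  rw [ContinuousLinearMap.add_apply]; ring

theorem Asy.mul {Q : Pt → ℝ} {φ : ℂ →L[ℝ] ℝ} {κ : ℂ} (h : Asy Q φ κ) (c : ℝ) :
    Asy (fun x => c * Q x) (c • φ) κ := by
  have := Tendsto.const_mul c h
  rw [mul_zero] at this
  refine this.congr fun x => ?_
  rw [ContinuousLinearMap.smul_apply, smul_eq_mul]; ring

/-- A change of `φ` and `κ`. -/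
theorem Asy.change {Q : Pt → ℝ} {φ φ' : ℂ →L[ℝ] ℝ} {κ κ' : ℂ} (h : Asy Q φ κ)
    (e : ∀ z, φ (κ / z) = φ' (κ' / z)) : Asy Q φ' κ' := by
  refine Tendsto.congr (fun x => ?_) h
  rw [e]

/-- Composition with a reflection. -/
theorem Asy.refl {Q : Pt → ℝ} {φ φ' : ℂ →L[ℝ] ℝ} {κ κ' : ℂ} (h : Asy Q φ κ) (σ : Pt ≃ Pt)
    (hσ : ∀ x, ‖pt 1 (σ x)‖ = ‖pt 1 x‖) (e : ∀ x, φ (κ / pt 1 (σ x)) = φ' (κ' / pt 1 x)) :
    Asy (fun x => Q (σ x)) φ' κ' := by
  have h1 : Tendsto σ cofinite cofinite := σ.injective.tendsto_cofinite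
  have := Tendsto.comp h h1
  refine Tendsto.congr (fun x => ?_) this
  simp only [Function.comp_apply]
  rw [hσ, e]

/-- A function that differs from `Q` only at finitely many points. -/
theorem Asy.congr {Q Q' : Pt → ℝ} {φ : ℂ →L[ℝ] ℝ} {κ : ℂ} (h : Asy Q φ κ)
    (e : ∀ᶠ x in cofinite, Q x = Q' x) : Asy Q' φ κ := by
  refine Tendsto.congr' ?_ h
  filter_upwards [e] with x hx
  rw [hx]

theorem Asy.shift {Q : Pt → ℝ} {φ : ℂ →L[ℝ] ℝ} {κ : ℂ} (h : Asy Q φ κ) (e : Pt) :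
    Asy (fun x => Q (x + e)) φ κ := by
  have h1 : Tendsto (fun x : Pt => x + e) cofinite cofinite :=
    (add_left_injective e).tendsto_cofinite
  have h2 := Tendsto.comp h h1
  -- `‖x‖ / ‖x + e‖` is bounded
  have hinf := tendsto_norm_pt
  have hinf' := tendsto_norm_pt.comp h1
  have hpos : ∀ᶠ x : Pt in cofinite, 2 * ‖pt 1 e‖ + 1 < ‖pt 1 x‖ := hinf.eventually_gt_atTop _
  have key : ∀ᶠ x : Pt in cofinite, ‖pt 1 x‖ ≤ 2 * ‖pt 1 (x + e)‖ ∧ 0 < ‖pt 1 (x + e)‖ ∧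
      0 < ‖pt 1 x‖ := by
    filter_upwards [hpos] with x hx
    have h3 : ‖pt 1 x‖ ≤ ‖pt 1 (x + e)‖ + ‖pt 1 e‖ := by
      have := norm_sub_le (pt 1 (x + e)) (pt 1 e)
      rwa [pt_add, add_sub_cancel_right, ← pt_add] at this
    have h4 := norm_nonneg (pt 1 e)
    exact ⟨by linarith, by linarith, by linarith⟩
  rw [Asy, tendsto_zero_iff_norm_tendsto_zero]
  have h3 : Tendsto (fun x : Pt => 2 * ‖‖pt 1 (x + e)‖ * (Q (x + e) - φ (κ / pt 1 (x + e)))‖ +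
      ‖φ‖ * (‖κ‖ * ‖pt 1 e‖) * ‖pt 1 (x + e)‖⁻¹) cofinite (𝓝 0) := by
    have a1 := (tendsto_zero_iff_norm_tendsto_zero.1 h2).const_mul 2
    have a2 : Tendsto (fun x : Pt => ‖φ‖ * (‖κ‖ * ‖pt 1 e‖) * ‖pt 1 (x + e)‖⁻¹) cofinite (𝓝 0) := by
      have := (tendsto_inv_atTop_zero.comp hinf').const_mul (‖φ‖ * (‖κ‖ * ‖pt 1 e‖))
      rw [mul_zero] at this
      exact this
    have := a1.add a2
    rw [mul_zero, add_zero] at this
    exact this
  refine squeeze_zero' (Eventually.of_forall fun _ => norm_nonneg _) ?_ h3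
  filter_upwards [key] with x ⟨k1, k2, k3⟩
  have n1 : pt 1 x ≠ 0 := norm_pos_iff.1 k3
  have n2 : pt 1 (x + e) ≠ 0 := norm_pos_iff.1 k2
  have h5 : κ / pt 1 x - κ / pt 1 (x + e) = κ * pt 1 e / (pt 1 x * pt 1 (x + e)) := by
    have : pt 1 e = pt 1 (x + e) - pt 1 x := by rw [pt_add]; ring
    rw [this]; field_simp
  have h6 : ‖φ (κ / pt 1 x) - φ (κ / pt 1 (x + e))‖ ≤
      ‖φ‖ * (‖κ‖ * ‖pt 1 e‖ / (‖pt 1 x‖ * ‖pt 1 (x + e)‖)) := by
    rw [← map_sub, h5]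
    refine (φ.le_opNorm _).trans (le_of_eq ?_)
    rw [norm_div, norm_mul, norm_mul]
  have h7 : ‖pt 1 x‖ * (Q (x + e) - φ (κ / pt 1 x)) = ‖pt 1 x‖ * (Q (x + e) - φ (κ / pt 1 (x + e))) -
      ‖pt 1 x‖ * (φ (κ / pt 1 x) - φ (κ / pt 1 (x + e))) := by ring
  rw [h7]
  refine (norm_sub_le _ _).trans (add_le_add ?_ ?_)
  · rw [norm_mul, norm_mul, norm_norm, norm_norm, ← mul_assoc]
    exact mul_le_mul_of_nonneg_right k1 (norm_nonneg _)
  · rw [norm_mul, norm_norm]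
    calc ‖pt 1 x‖ * ‖φ (κ / pt 1 x) - φ (κ / pt 1 (x + e))‖ ≤ ‖pt 1 x‖ *
          (‖φ‖ * (‖κ‖ * ‖pt 1 e‖ / (‖pt 1 x‖ * ‖pt 1 (x + e)‖))) :=
          mul_le_mul_of_nonneg_left h6 (norm_nonneg _)
      _ = _ := by field_simp

/-- The scaling limit of a function with asymptotics. -/
theorem Asy.lim {ι : Type*} {l : Filter ι} {a : ι → ℝ} (ha : Tendsto a l (𝓝[>] 0)) {g : ι → Pt}
    {z' : ℂ} (hg : Tendsto (fun k => pt (a k) (g k)) l (𝓝 z')) {Q : Pt → ℝ} {φ : ℂ →L[ℝ] ℝ} {κ : ℂ}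
    (h : Asy Q φ κ) {z : ℂ} (hz : z ≠ z') :
    Tendsto (fun kx : ι × Pt => (a kx.1)⁻¹ * Q (kx.2 - g kx.1)) (nf l a z)
      (𝓝 (φ (κ / (z - z')))) := by
  have hw : Tendsto (fun kx : ι × Pt => pt (a kx.1) (kx.2 - g kx.1)) (nf l a z) (𝓝 (z - z')) := by
    refine ((tendsto_pt_nf z).sub (hg.comp (tendsto_fst_nf z))).congr fun kx => ?_
    rw [pt_sub]; rfl
  have hzz : z - z' ≠ 0 := sub_ne_zero.2 hz
  have hainv : Tendsto (fun kx : ι × Pt => (a kx.1)⁻¹) (nf l a z) atTop :=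
    (tendsto_inv_nhdsGT_zero.comp ha).comp (tendsto_fst_nf z)
  have hco : Tendsto (fun kx : ι × Pt => kx.2 - g kx.1) (nf l a z) cofinite := by
    have hn : Tendsto (fun kx : ι × Pt => ‖pt 1 (kx.2 - g kx.1)‖) (nf l a z) atTop := by
      have h1 := hainv.atTop_mul_pos (norm_pos_iff.2 hzz) hw.norm
      refine h1.congr' ?_
      filter_upwards [apos_nf ha z] with kx h0
      rw [pt_smul (a kx.1), norm_mul, Complex.norm_real, Real.norm_eq_abs, abs_of_pos h0,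
        ← mul_assoc, inv_mul_cancel₀ h0.ne', one_mul]
    intro s hs
    rw [mem_cofinite] at hs
    have hb : BddAbove ((fun x : Pt => ‖pt 1 x‖) '' sᶜ) := (hs.image _).bddAbove
    obtain ⟨M, hM⟩ := hb
    have := hn.eventually_gt_atTop M
    rw [Filter.mem_map]
    filter_upwards [this] with kx hkx
    by_contra hc
    exact absurd (hM ⟨_, hc, rfl⟩) (not_le.2 hkx)
  have h1 := Tendsto.comp h hco
  have h2 := (hw.norm.inv₀ (norm_ne_zero_iff.2 hzz)).mul h1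
  rw [mul_zero] at h2
  have h3 : Tendsto (fun kx : ι × Pt => φ (κ / pt (a kx.1) (kx.2 - g kx.1))) (nf l a z)
      (𝓝 (φ (κ / (z - z')))) :=
    (φ.continuous.tendsto _).comp (tendsto_const_nhds.div hw hzz)
  have h4 := h2.add h3
  rw [zero_add] at h4
  refine h4.congr' ?_
  filter_upwards [apos_nf ha z, hw.eventually_ne hzz] with kx h0 hne
  simp only [Function.comp_apply]
  have e1 : pt (a kx.1) (kx.2 - g kx.1) = a kx.1 * pt 1 (kx.2 - g kx.1) := pt_smul _ _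
  have hne1 : pt 1 (kx.2 - g kx.1) ≠ 0 := by
    intro h0'; rw [e1, h0', mul_zero] at hne; exact hne rfl
  have hn1 : 0 < ‖pt 1 (kx.2 - g kx.1)‖ := norm_pos_iff.2 hne1
  have e2 : ‖pt (a kx.1) (kx.2 - g kx.1)‖ = a kx.1 * ‖pt 1 (kx.2 - g kx.1)‖ := by
    rw [e1, norm_mul, Complex.norm_real, Real.norm_eq_abs, abs_of_pos h0]
  have e3 : κ / pt (a kx.1) (kx.2 - g kx.1) = (a kx.1)⁻¹ • (κ / pt 1 (kx.2 - g kx.1)) := by
    rw [e1, Complex.real_smul]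
    have hc : ((a kx.1 : ℝ) : ℂ) ≠ 0 := by exact_mod_cast h0.ne'
    push_cast
    field_simp
  rw [e2, e3, map_smul, smul_eq_mul]
  field_simp
  ring

end Vale.Agent.P144.H135
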