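import Vale.Agent.P144.H135.Kern

/-!
The difference between a spinor with a source and the kernel of the plane satisfies the relations
without signs.
-/

namespace Vale.Agent.P144.H135

open Finset Vale.Agent.P144 Filter Topology
open Vale.Agent.P144.H170 (Pt pt CR4 Rel)

/-- The fields with the sign of the side of the broken line through the source. -/
noncomputable def eA (c' : AL.Cn) (A : Pt → ℝ) (x : Pt) : ℝ := AL.ep (x, x) c' * A x
noncomputable def eB (c' : AL.Cn) (B : Pt → ℝ) (x : Pt) : ℝ := AL.ep ((x.1 + 1, x.2), x) c' * B x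
noncomputable def eC (c' : AL.Cn) (C : Pt → ℝ) (x : Pt) : ℝ := AL.ep ((x.1, x.2 + 1), x) c' * C x
noncomputable def eE (c' : AL.Cn) (E : Pt → ℝ) (x : Pt) : ℝ :=
  AL.ep ((x.1 + 1, x.2 + 1), x) c' * E x

/-- The value at the source is the sign `σ` of the gauge. -/
structure Src (c' : AL.Cn) (σ : ℝ) (gA gB A B C E : Pt → ℝ) : Prop where
  A : ((c'.2, c'.2) : AL.Cn) = c' → σ * (gA c'.2 * A c'.2) = 1
  B : (((c'.2.1 + 1, c'.2.2), c'.2) : AL.Cn) = c' → σ * (gB c'.2 * B c'.2) = 1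
  C : (((c'.2.1, c'.2.2 + 1), c'.2) : AL.Cn) = c' → σ * (gA c'.2 * C c'.2) = 1
  E : (((c'.2.1 + 1, c'.2.2 + 1), c'.2) : AL.Cn) = c' → σ * (gB c'.2 * E c'.2) = 1

theorem et_eq (c c' : AL.Cn) : AL.et c c' = AL.ep c c' * sn c' c := rfl

theorem sn_shift (c' c : AL.Cn) : sn (c'.1 - c'.2, 0) (c.1 - c'.2, c.2 - c'.2) = sn c' c := by
  unfold sn
  congr 1
  simp only [Prod.ext_iff, Prod.fst_sub, Prod.snd_sub, Prod.fst_zero, Prod.snd_zero, eq_iff_iff]
  lia

section

variable {c' : AL.Cn} {QA QB QC QE : Pt → ℝ} {κ : ℂ} (K : PKr (c'.1 - c'.2) QA QB QC QE κ)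
  {A B C E : Pt → ℝ} {σ : ℝ} {gA gB : Pt → ℝ} (hs : Src c' σ gA gB A B C E)

include K hs

theorem yA (y : Pt) : sn c' (y, y) * (σ * (gA y * eA c' A y) - QA (y - c'.2)) =
    σ * (gA y * eA c' A y) - QA (y - c'.2) := by
  by_cases h : ((y, y) : AL.Cn) = c'
  · obtain ⟨v, g⟩ := c'
    simp only [Prod.mk.injEq] at h
    obtain ⟨rfl, rfl⟩ := h
    have h1 := hs.A rfl
    have h2 := K.sA (by ext <;> simp)
    have h3 : AL.ep (y, y) (y, y) = 1 := by
      unfold AL.ep; rw [if_neg]; simp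
    simp only at h1 h2 ⊢
    have : σ * (gA y * eA (y, y) A y) - QA (y - y) = 0 := by
      rw [sub_self]
      unfold eA
      rw [h3, one_mul, h1]
      have : (0 : Pt) = (0, 0) := rfl
      rw [this, h2, sub_self]
    rw [this, mul_zero]
  · rw [sn_ne h, one_mul]

theorem yB (y : Pt) : sn c' ((y.1 + 1, y.2), y) * (σ * (gB y * eB c' B y) - QB (y - c'.2)) =
    σ * (gB y * eB c' B y) - QB (y - c'.2) := by
  by_cases h : (((y.1 + 1, y.2), y) : AL.Cn) = c'
  · obtain ⟨v, g⟩ := c'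
    simp only [Prod.mk.injEq] at h
    obtain ⟨rfl, rfl⟩ := h
    have h1 := hs.B rfl
    have h2 := K.sB (by ext <;> simp)
    have h3 : AL.ep ((y.1 + 1, y.2), y) ((y.1 + 1, y.2), y) = -1 := by
      unfold AL.ep; rw [if_pos]; simp
    simp only at h1 h2 ⊢
    have : σ * (gB y * eB ((y.1 + 1, y.2), y) B y) - QB (y - y) = 0 := by
      rw [sub_self]
      unfold eB
      rw [h3]
      have : (0 : Pt) = (0, 0) := rfl
      rw [this, h2]
      linear_combination -h1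
    rw [this, mul_zero]
  · rw [sn_ne h, one_mul]

theorem yC (y : Pt) : sn c' ((y.1, y.2 + 1), y) * (σ * (gA y * eC c' C y) - QC (y - c'.2)) =
    σ * (gA y * eC c' C y) - QC (y - c'.2) := by
  by_cases h : (((y.1, y.2 + 1), y) : AL.Cn) = c'
  · obtain ⟨v, g⟩ := c'
    simp only [Prod.mk.injEq] at h
    obtain ⟨rfl, rfl⟩ := h
    have h1 := hs.C rfl
    have h2 := K.sC (by ext <;> simp)
    have h3 : AL.ep ((y.1, y.2 + 1), y) ((y.1, y.2 + 1), y) = -1 := by
      unfold AL.ep; rw [if_pos]; simp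
    simp only at h1 h2 ⊢
    have : σ * (gA y * eC ((y.1, y.2 + 1), y) C y) - QC (y - y) = 0 := by
      rw [sub_self]
      unfold eC
      rw [h3]
      have : (0 : Pt) = (0, 0) := rfl
      rw [this, h2]
      linear_combination -h1
    rw [this, mul_zero]
  · rw [sn_ne h, one_mul]

theorem yE (y : Pt) : sn c' ((y.1 + 1, y.2 + 1), y) * (σ * (gB y * eE c' E y) - QE (y - c'.2)) =
    σ * (gB y * eE c' E y) - QE (y - c'.2) := by
  by_cases h : (((y.1 + 1, y.2 + 1), y) : AL.Cn) = c'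
  · obtain ⟨v, g⟩ := c'
    simp only [Prod.mk.injEq] at h
    obtain ⟨rfl, rfl⟩ := h
    have h1 := hs.E rfl
    have h2 := K.sE (by ext <;> simp)
    have h3 : AL.ep ((y.1 + 1, y.2 + 1), y) ((y.1 + 1, y.2 + 1), y) = 1 := by
      unfold AL.ep; rw [if_neg]; simp
    simp only at h1 h2 ⊢
    have : σ * (gB y * eE ((y.1 + 1, y.2 + 1), y) E y) - QE (y - y) = 0 := by
      rw [sub_self]
      unfold eE
      rw [h3]
      have : (0 : Pt) = (0, 0) := rfl
      rw [this, h2]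
      linear_combination h1
    rw [this, mul_zero]
  · rw [sn_ne h, one_mul]

/-- The difference between a spinor with a source and the kernel of the plane. -/
theorem diff_clean (hc' : c'.1 ∈ AL.cnr c'.2) {t th : Pt → ℝ} {x : Pt}
    (h : Rel (fun x => AL.cut1 c'.2 (x.1, x.2 + 1) * t x)
      (fun x => chi (AL.sw x.1 x.2) c'.1 * th x) A B C E x)
    (ht : t x = gA x * gB x) (hth : th x = gB x * gA (x + (1, 0)))
    (gA2 : ∀ y, gA y * gA y = 1) (gB2 : ∀ y, gB y * gB y = 1)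
    (gAy : gA (x + (0, 1)) = gA x) (gBy : gB (x + (0, 1)) = gB x) :
    CR4 (fun y => σ * (gA y * eA c' A y) - QA (y - c'.2))
      (fun y => σ * (gB y * eB c' B y) - QB (y - c'.2))
      (fun y => σ * (gA y * eC c' C y) - QC (y - c'.2))
      (fun y => σ * (gB y * eE c' E y) - QE (y - c'.2)) x := by
  obtain ⟨i, j⟩ := x
  obtain ⟨k1, k2, k3, k4⟩ := h
  obtain ⟨v1, v2, v3⟩ := AL.ep_V i j hc'
  obtain ⟨w1, w2, w3⟩ := AL.ep_H i j hc'
  have K1 := K.V1 (i - c'.2.1) (j - c'.2.2)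
  have K2 := K.V2 (i - c'.2.1) (j - c'.2.2)
  have K3 := K.H1 (i - c'.2.1) (j - c'.2.2)
  have K4 := K.H2 (i - c'.2.1) (j - c'.2.2)
  have g1 := gA2 (i, j)
  have g2 := gB2 (i, j)
  have g3 := gA2 (i + 1, j)
  have cc := AL.cut1_sq c'.2 (i, j + 1)
  have YA := yA K hs (i, j + 1)
  have YB := yB K hs (i, j + 1)
  have YC := yC K hs (i, j)
  have YE := yE K hs (i, j)
  have s1 := sn_shift c' ((i, j + 1), (i, j))
  have s2 := sn_shift c' ((i, j + 1), (i, j + 1))
  have s3 := sn_shift c' ((i + 1, j + 1), (i, j + 1))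
  have s4 := sn_shift c' ((i + 1, j + 1), (i, j))
  have p0 : ((i, j) : Pt) - c'.2 = (i - c'.2.1, j - c'.2.2) := rfl
  have p1 : ((i, j + 1) : Pt) - c'.2 = (i - c'.2.1, j - c'.2.2 + 1) := by
    ext <;> simp <;> ring
  have p2 : ((i + 1, j) : Pt) - c'.2 = (i - c'.2.1 + 1, j - c'.2.2) := by
    ext <;> simp <;> ring
  have p3 : ((i + 1, j + 1) : Pt) - c'.2 = (i - c'.2.1 + 1, j - c'.2.2 + 1) := by
    ext <;> simp <;> ring
  have p4 : ((i, j) : Pt) + (0, 1) = (i, j + 1) := by simp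
  have p5 : ((i, j) : Pt) + (1, 0) = (i + 1, j) := by simp
  simp only [p0, p1, p3] at s1 s2 s3 s4
  rw [s1, s2, s3] at K1
  rw [s4, s3, s2] at K2
  rw [p4] at k1 k2 gAy gBy
  rw [p5] at k3 k4 hth
  simp only at k1 k2 k3 k4 YA YB YC YE
  rw [et_eq, et_eq] at v1 v2
  rw [et_eq, et_eq] at v3
  unfold CR4
  simp only [p4, p5]
  rw [ht] at k1 k2
  rw [hth] at k3 k4
  have v4 : AL.cut1 c'.2 (i, j + 1) * (AL.ep ((i, j + 1), (i, j + 1)) c' * sn c' ((i, j + 1), (i, j + 1))) =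
      AL.ep ((i + 1, j + 1), (i, j + 1)) c' * sn c' ((i + 1, j + 1), (i, j + 1)) := by
    rw [v3]
    linear_combination (AL.ep ((i + 1, j + 1), (i, j + 1)) c' *
      sn c' ((i + 1, j + 1), (i, j + 1))) * cc
  refine ⟨?_, ?_, ?_, ?_⟩
  · rw [← YC, ← YA, ← YB, p0, p1]
    unfold eA eB eC
    simp only
    rw [gAy, gBy]
    -- `C`
    have e1 : sn c' ((i, j + 1), (i, j)) * (AL.ep ((i, j + 1), (i, j)) c' * C (i, j)) =
        √2 * (AL.ep ((i, j + 1), (i, j + 1)) c' * sn c' ((i, j + 1), (i, j + 1)) * A (i, j + 1)) -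
        gA (i, j) * gB (i, j) * (AL.ep ((i + 1, j + 1), (i, j + 1)) c' *
          sn c' ((i + 1, j + 1), (i, j + 1)) * B (i, j + 1)) := by
      rw [k1, ← v4]
      linear_combination (√2 * A (i, j + 1) - AL.cut1 c'.2 (i, j + 1) * (gA (i, j) * gB (i, j)) *
        B (i, j + 1)) * v1
    linear_combination (σ * gA (i, j)) * e1 - K1 -
      (σ * (gB (i, j) * (AL.ep ((i + 1, j + 1), (i, j + 1)) c' *
          sn c' ((i + 1, j + 1), (i, j + 1)) * B (i, j + 1)))) * g1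
  · rw [← YE, ← YA, ← YB, p0, p1]
    unfold eA eB eE
    simp only
    rw [gAy, gBy]
    have e1 : sn c' ((i + 1, j + 1), (i, j)) * (AL.ep ((i + 1, j + 1), (i, j)) c' * E (i, j)) =
        √2 * (AL.ep ((i + 1, j + 1), (i, j + 1)) c' * sn c' ((i + 1, j + 1), (i, j + 1)) *
          B (i, j + 1)) -
        gA (i, j) * gB (i, j) * (AL.ep ((i, j + 1), (i, j + 1)) c' *
          sn c' ((i, j + 1), (i, j + 1)) * A (i, j + 1)) := by
      rw [k2]
      linear_combination (√2 * B (i, j + 1) - AL.cut1 c'.2 (i, j + 1) * (gA (i, j) * gB (i, j)) *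
        A (i, j + 1)) * v2 + (gA (i, j) * gB (i, j) * A (i, j + 1)) * v3
    linear_combination (σ * gB (i, j)) * e1 - K2 -
      (σ * (gA (i, j) * (AL.ep ((i, j + 1), (i, j + 1)) c' *
          sn c' ((i, j + 1), (i, j + 1)) * A (i, j + 1)))) * g2
  · rw [p0, p2]
    unfold eA eB eC
    simp only
    rw [w2, w1, k3]
    have ch := chi_sq (AL.sw i j) c'.1
    linear_combination (-K3) + (σ * gA (i + 1, j) * AL.ep ((i + 1, j), (i + 1, j)) c' *
      (√2 * A (i + 1, j) - C (i + 1, j))) * (gB (i, j) * gB (i, j) * ch + g2)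
  · rw [p0, p2]
    unfold eA eC eE
    simp only
    rw [w3, w1, k4]
    have ch := chi_sq (AL.sw i j) c'.1
    linear_combination (-K4) - (σ * gA (i + 1, j) * AL.ep ((i + 1, j), (i + 1, j)) c' *
      (√2 * C (i + 1, j) - A (i + 1, j))) * (gB (i, j) * gB (i, j) * ch + g2)

end

end Vale.Agent.P144.H135
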