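import Vale.Agent.P144.H135.Out
import Vale.Agent.P144.H135.Diff
import Vale.Agent.P144.H170.Main

/-!
Spinors with a source in the bulk: finite data, masses and `ℓ²` bounds.
-/

namespace Vale.Agent.P144.H135

open Finset Vale.Agent.P144 Filter Topology
open Vale.Agent.P144.H170 (Pt pt bx mem_bx bx_mono tauF theF tauF_step n1 L2ball lap D
  pt_fl_norm pt_sub_norm pt_sub_norm' near_dia nf ev_nf apos_nf)

/-- A spinor with the source `c'` and the disorders `r`. -/
structure BD {κ : Type*} [Fintype κ] (N : ℕ) (r : κ → Site) (c' : AL.Cn)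
    (A B C E Hs Hf : Site → ℝ) : Prop where
  cnr : c'.1 ∈ AL.cnr c'.2
  spr : AL.Spr (dia N) (fun x => AL.cut1 c'.2 (x.1, x.2 + 1) * tauF r x)
    (fun x => chi (AL.sw x.1 x.2) c'.1) A B C E
  isH : AL.IsH (dia N) A B C E Hs Hf
  sA : ((c'.2, c'.2) : AL.Cn) = c' → A c'.2 = 1
  sB : (((c'.2.1 + 1, c'.2.2), c'.2) : AL.Cn) = c' → B c'.2 = 1
  sC : (((c'.2.1, c'.2.2 + 1), c'.2) : AL.Cn) = c' → C c'.2 = 1
  sE : (((c'.2.1 + 1, c'.2.2 + 1), c'.2) : AL.Cn) = c' → E c'.2 = 1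

theorem norm_of_bx {a : ℝ} (ha : 0 < a) {x y : Pt} {m : ℕ} (h : x ∈ bx y m) :
    ‖pt a x - pt a y‖ ≤ 2 * (a * m) := by
  rw [mem_bx] at h
  have h1 := pt_sub_norm ha x y
  have h2 : |((x.1 - y.1 : ℤ) : ℝ)| ≤ m := by
    rw [← Int.cast_abs]
    have : |x.1 - y.1| ≤ (m:ℤ) := by rw [abs_le]; lia
    exact_mod_cast this
  have h3 : |((x.2 - y.2 : ℤ) : ℝ)| ≤ m := by
    rw [← Int.cast_abs]
    have : |x.2 - y.2| ≤ (m:ℤ) := by rw [abs_le]; lia
    exact_mod_cast this
  push_cast at h2 h3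
  refine h1.trans ?_
  nlinarith

theorem norm_of_not_bx {a : ℝ} (ha : 0 < a) {x y : Pt} {m : ℕ} (h : x ∉ bx y m) :
    a * (m + 1) ≤ ‖pt a x - pt a y‖ := by
  have h1 := Complex.abs_re_le_norm (pt a x - pt a y)
  have h2 := Complex.abs_im_le_norm (pt a x - pt a y)
  simp only [pt, Complex.sub_re, Complex.sub_im] at h1 h2
  rw [← mul_sub, abs_mul, abs_of_pos ha] at h1 h2
  rw [mem_bx] at h
  have h3 : (m:ℤ) + 1 ≤ |x.1 - y.1| ∨ (m:ℤ) + 1 ≤ |x.2 - y.2| := by
    by_contra hc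
    push Not at hc
    have c1 := abs_lt.1 hc.1
    have c2 := abs_lt.1 hc.2
    exact h (by lia)
  rcases h3 with h3 | h3
  · have : ((m:ℝ) + 1) ≤ |(x.1:ℝ) - y.1| := by
      have : (((m:ℤ) + 1 : ℤ) : ℝ) ≤ ((|x.1 - y.1| : ℤ) : ℝ) := by exact_mod_cast h3
      push_cast at this
      exact this
    exact (mul_le_mul_of_nonneg_left this ha.le).trans h1
  · have : ((m:ℝ) + 1) ≤ |(x.2:ℝ) - y.2| := by
      have : (((m:ℤ) + 1 : ℤ) : ℝ) ≤ ((|x.2 - y.2| : ℤ) : ℝ) := by exact_mod_cast h3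
      push_cast at this
      exact this
    exact (mul_le_mul_of_nonneg_left this ha.le).trans h2

theorem cut1_step {g : Site} {i j : ℤ} (h : (i, j) ≠ g) :
    AL.cut1 g (i, j + 1) = AL.cut1 g (i, j) := by
  unfold AL.cut1
  congr 1
  refine propext ⟨fun h1 => ⟨h1.1, ?_⟩, fun h1 => ⟨h1.1, by simp only at h1 ⊢; lia⟩⟩
  by_contra hc
  exact h (Prod.ext h1.1 (by simp only at h1 hc ⊢; lia))

theorem tauF_branch {κ : Type*} [Fintype κ] {r : κ → Site} (hr : Function.Injective r) (p : κ) :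
    tauF r (r p) = -tauF r ((r p).1, (r p).2 - 1) := by
  classical
  unfold tauF
  have key : ∀ F : κ → ℝ, ∏ q, F q = F p * ∏ q ∈ univ.erase p, F q := fun F =>
    (Finset.mul_prod_erase univ F (mem_univ p)).symm
  rw [key, key]
  simp only [sub_add_cancel]
  have e : ∏ x ∈ univ.erase p, AL.cut1 (r x) ((r p).1, (r p).2 + 1) =
      ∏ x ∈ univ.erase p, AL.cut1 (r x) ((r p).1, (r p).2) := by
    refine prod_congr rfl fun x hx => ?_
    have hne : ((r p).1, (r p).2) ≠ r x := fun h => (mem_erase.1 hx).1 (hr (by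
      rw [← h])).symm
    exact cut1_step hne
  rw [e]
  have c1 : AL.cut1 (r p) ((r p).1, (r p).2 + 1) = -1 := by unfold AL.cut1; rw [if_pos (by simp)]
  have c2 : AL.cut1 (r p) ((r p).1, (r p).2) = 1 := by
    unfold AL.cut1; rw [if_neg (by simp)]
  rw [c1, c2]; ring

section ev

variable {ι κ : Type*} [Fintype κ] {l : Filter ι} {a : ι → ℝ} {N : ι → ℕ} {r : κ → ι → Site}
  {ζ : κ → ℂ} {c : ι → AL.Cn} {z' : ℂ} {δ : ℝ}

/-- The assumptions on the positions. -/
structure Pos (l : Filter ι) (a : ι → ℝ) (N : ι → ℕ) (r : κ → ι → Site) (ζ : κ → ℂ)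
    (c : ι → AL.Cn) (z' : ℂ) (δ : ℝ) : Prop where
  a0 : Tendsto a l (𝓝[>] 0)
  hN : Tendsto (fun k => a k * ((N k : ℝ) + 1)) l (𝓝 1)
  hr : ∀ p, Tendsto (fun k => pt (a k) (r p k)) l (𝓝 (ζ p))
  hg : Tendsto (fun k => pt (a k) (c k).2) l (𝓝 z')
  inj : Function.Injective ζ
  dia : ∀ p, ζ p ∈ Dia
  δ0 : 0 < δ
  ball : ∀ w, ‖w - z'‖ ≤ 24 * δ → w ∈ Dia
  far : ∀ p, 48 * δ < ‖ζ p - z'‖

theorem Pos.apos (h : Pos l a N r ζ c z' δ) : ∀ᶠ k in l, 0 < a k := h.a0.eventually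
  self_mem_nhdsWithin

theorem Pos.asmall (h : Pos l a N r ζ c z' δ) {ε : ℝ} (hε : 0 < ε) : ∀ᶠ k in l, a k < ε :=
  (h.a0.mono_right nhdsWithin_le_nhds).eventually (gt_mem_nhds hε)

theorem Pos.gclose (h : Pos l a N r ζ c z' δ) {ε : ℝ} (hε : 0 < ε) :
    ∀ᶠ k in l, ‖pt (a k) (c k).2 - z'‖ < ε := by
  have := (Metric.tendsto_nhds.1 h.hg) ε hε
  simpa only [dist_eq_norm] using this

/-- The lattice points of the ball are in the diamond. -/
theorem Pos.inDia (h : Pos l a N r ζ c z' δ) :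
    ∀ᶠ k in l, ∀ x, ‖pt (a k) x - z'‖ ≤ 24 * δ → x ∈ Vale.Agent.P144.dia (N k) := by
  have h1 := H170.compact_ev (l := l) (a := a) (K := Metric.closedBall z' (24 * δ))
    (isCompact_closedBall _ _) (P := fun k x => x ∈ Vale.Agent.P144.dia (N k)) (fun z hz => by
      rw [Metric.mem_closedBall, dist_eq_norm] at hz
      filter_upwards [near_dia h.a0 h.hN (h.ball z hz) 0] with kx hkx
      exact hkx kx.2 (by simp) (by simp))
  filter_upwards [h1] with k hk x hx
  exact hk x (by rw [Metric.mem_closedBall, dist_eq_norm]; exact hx)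

/-- The disorders are far from the source. -/
theorem Pos.rfar (h : Pos l a N r ζ c z' δ) :
    ∀ᶠ k in l, ∀ p, 48 * δ < ‖pt (a k) (r p k) - pt (a k) (c k).2‖ := by
  rw [eventually_all]
  intro p
  exact ((h.hr p).sub h.hg).norm.eventually (lt_mem_nhds (h.far p))

theorem Pos.rinj (h : Pos l a N r ζ c z' δ) : ∀ᶠ k in l, Function.Injective fun p => r p k := by
  have h1 : ∀ᶠ k in l, ∀ p p', p ≠ p' → r p k ≠ r p' k := by
    rw [eventually_all]; intro p
    rw [eventually_all]; intro p'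
    by_cases hp : p = p'
    · exact Eventually.of_forall fun _ h' => absurd hp h'
    · have h2 : ζ p - ζ p' ≠ 0 := sub_ne_zero.2 fun h' => hp (h.inj h')
      filter_upwards [((h.hr p).sub (h.hr p')).eventually_ne h2] with k hk _ h'
      rw [h', sub_self] at hk
      exact hk rfl
  filter_upwards [h1] with k hk p p' hpp
  by_contra hne
  exact hk p p' hne hpp

theorem Pos.inN (h : Pos l a N r ζ c z' δ) {w : ι → Site} {z : ℂ} (hz : z ∈ Dia)
    (hw : Tendsto (fun k => pt (a k) (w k)) l (𝓝 z)) (m : ℕ) :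
    ∀ᶠ k in l, |(w k).1| + |(w k).2| + m ≤ (N k : ℤ) := by
  have t1 := ((Complex.continuous_re.tendsto z).comp hw).abs
  have t2 := ((Complex.continuous_im.tendsto z).comp hw).abs
  have t0 := (h.a0.mono_right nhdsWithin_le_nhds).mul_const ((m:ℝ) + 1)
  rw [zero_mul] at t0
  have t3 := (t1.add t2).add t0
  rw [add_zero] at t3
  have hz' : |z.re| + |z.im| < 1 := hz
  filter_upwards [t3.eventually_lt h.hN hz', h.apos] with k g1 g2
  simp only [Function.comp_apply, pt] at g1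
  rw [abs_mul, abs_mul, abs_of_pos g2, ← mul_add, ← mul_add] at g1
  have g3 := lt_of_mul_lt_mul_left g1 g2.le
  have g4 : ((|(w k).1| + |(w k).2| + (m + 1) : ℤ) : ℝ) < ((N k + 1 : ℤ) : ℝ) := by
    push_cast; exact g3
  have g5 : |(w k).1| + |(w k).2| + (m + 1) < (N k : ℤ) + 1 := by exact_mod_cast g4
  lia

open Classical in
/-- The exceptional spins and faces. -/
theorem Pos.exc (h : Pos l a N r ζ c z' δ) (hc : ∀ᶠ k in l, (c k).1 ∈ AL.cnr (c k).2) :
    ∀ᶠ k in l, AL.Exc (N k)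
      (fun x => AL.cut1 (c k).2 (x.1, x.2 + 1) * tauF (fun p => r p k) x)
      (fun x => chi (AL.sw x.1 x.2) (c k).1) {(c k).1}
      (insert (c k).2 (univ.image fun p => r p k)) (univ.image fun p => r p k) := by
  have hz' : z' ∈ Dia := h.ball z' (by rw [sub_self, norm_zero]; linarith [h.δ0])
  have hrN : ∀ᶠ k in l, ∀ p, |(r p k).1| + |(r p k).2| + 4 ≤ (N k : ℤ) := by
    rw [eventually_all]; intro p
    exact h.inN (h.dia p) (h.hr p) 4
  filter_upwards [hc, h.rinj, h.rfar, h.inN hz' h.hg 4, hrN, h.apos, h.asmall h.δ0]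
    with k k1 k2 k3 k4 k5 k6 k7
  have hcc := AL.mem_cnr.1 k1
  have far : ∀ p, ∀ v : Site, |v.1 - (r p k).1| ≤ 1 → |v.2 - (r p k).2| ≤ 1 → v ≠ (c k).1 := by
    intro p v h1 h2 h3
    have h4 := k3 p
    have h5 : r p k ∈ bx (c k).2 2 := by
      rw [mem_bx]
      rw [abs_le] at h1 h2
      rcases hcc with h6 | h6 | h6 | h6 <;> rw [h3, h6] at h1 h2 <;> push_cast <;> lia
    have h6 := norm_of_bx k6 h5
    push_cast at h6
    linarith
  have hne : ∀ p, r p k ≠ (c k).2 := by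
    intro p h'
    have h4 := k3 p
    rw [h', sub_self, norm_zero] at h4
    linarith [h.δ0]
  refine ⟨fun i j hij => ?_, fun i j hij => ?_, fun w hw => ?_, fun w hw => ?_,
    subset_insert _ _, fun f hf => ?_, fun f hf w hw hw' => ?_⟩
  · rw [mem_singleton] at hij
    unfold chi AL.sw
    simp only [sub_add_cancel]
    congr 1
    refine propext ⟨fun h1 => ⟨h1.1, by lia⟩, fun h1 => ⟨h1.1, ?_⟩⟩
    by_contra hc'
    exact hij (Prod.ext h1.1.symm (by simp only; lia))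
  · rw [mem_insert, mem_image] at hij
    push Not at hij
    simp only [sub_add_cancel]
    rw [cut1_step hij.1, tauF_step (fun p h' => hij.2 p (mem_univ p) h'.symm)]
  · rw [mem_singleton] at hw
    subst hw
    have h1 : |(c k).1.1| ≤ |(c k).2.1| + 1 := by
      rcases hcc with h6 | h6 | h6 | h6 <;> rw [h6] <;>
        rw [abs_le] <;> constructor <;>
        have := neg_abs_le (c k).2.1 <;> have := le_abs_self (c k).2.1 <;> lia
    have h2 : |(c k).1.2| ≤ |(c k).2.2| + 1 := by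
      rcases hcc with h6 | h6 | h6 | h6 <;> rw [h6] <;>
        rw [abs_le] <;> constructor <;>
        have := neg_abs_le (c k).2.2 <;> have := le_abs_self (c k).2.2 <;> lia
    push_cast at k4
    lia
  · rw [mem_insert, mem_image] at hw
    rcases hw with rfl | ⟨p, -, rfl⟩
    · push_cast at k4; exact k4
    · exact k5 p
  · rw [mem_image] at hf
    obtain ⟨p, -, rfl⟩ := hf
    have h1 := tauF_branch k2 p
    simp only [sub_add_cancel, Prod.mk.eta]
    rw [h1, cut1_step (hne p)]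
    simp only [Prod.mk.eta]
    ring
  · rw [mem_image] at hf
    obtain ⟨p, -, rfl⟩ := hf
    rw [mem_singleton] at hw'
    refine far p w ?_ ?_ hw'
    · rcases AL.mem_cnr.1 hw with h6 | h6 | h6 | h6 <;> rw [h6] <;> simp
    · rcases AL.mem_cnr.1 hw with h6 | h6 | h6 | h6 <;> rw [h6] <;> simp

end ev

end Vale.Agent.P144.H135
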