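import Vale.Agent.P144.H135.Bulk9

/-!
Spinors with a source in the bulk: the boundary conditions and the residues of the limit.
-/

namespace Vale.Agent.P144.H135

open Finset Vale.Agent.P144 Filter Topology
open Vale.Agent.P144.H170 (Pt pt bx mem_bx bx_mono tauF theF n1 n1_sub L2ball lap D L2on
  nf ev_nf apos_nf a_nf tendsto_fst_nf tendsto_pt_nf ev_nf_of Mk Mk_closed SLim XLim RS RS_ne RS_diff VS
  gs gs_sq of_xlim xlim_of phA phB phC phE phA_apply phB_apply phC_apply phE_apply slim_ext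
  nf_neBot Dia_open' Clean VS_open VS_ne notMem_Mk HOn HD gq CConv gb green_near green_bd
  mem_dia_ev exists_pos_le F2 PP PZ PP_eqZ PZ_diff U3_of U1_of)
open Vale.Agent.P144.H365 (BdC ResNN)

variable {ι κ : Type*} [Fintype κ] {a : ι → ℝ} {N : ι → ℕ} {r : κ → ι → Site}
  {ζ : κ → ℂ} {c : ι → AL.Cn} {z' : ℂ} {δ : ℝ} {A B C E Hs Hf : ι → Pt → ℝ} {L : ι → ℝ}
  {l : Ultrafilter ι} (h : Pos (l : Filter ι) a N r ζ c z' δ)
  (hB : ∀ᶠ k in (l : Filter ι), BD (N k) (fun p => r p k) (c k) (A k) (B k) (C k) (E k) (Hs k)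
    (Hf k))
  (hL0 : ∀ᶠ k in (l : Filter ι), 0 < L k)
  (hL : ∀ᶠ k in (l : Filter ι), Ann δ (a k) (c k) (Hs k) (Hf k) (L k))

include h hB hL0 hL

theorem bdc_of {q : ℂ → ℂ} {H : ℂ → ℝ} (hq : DifferentiableOn ℂ q (Dia \ {z'}))
    (hs : SLim l a ((Dia \ {z'}) \ Mk ζ w0) r v0 (fA a L c A) (fB a L c B) (fC a L c C)
      (fE a L c E) q) (hH : HL (l : Filter ι) a L ζ z' δ Hs Hf q H) : BdC (F2 ζ w0 q) := by
  classical
  have hδ := h.δ0
  have hrel := relB_ep h hB fun k => (sc a L k)⁻¹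
  have hsub : ({z'}ᶜ ∩ Dia) \ Mk ζ w0 = (Dia \ {z'}) \ Mk ζ w0 := by
    ext z; simp only [Set.mem_sdiff, Set.mem_inter_iff, Set.mem_compl_iff, Set.mem_singleton_iff]
    tauto
  have hs' : SLim l a (({z'}ᶜ ∩ Dia) \ Mk ζ w0) r v0 (fA a L c A) (fB a L c B) (fC a L c C)
      (fE a L c E) q := by rw [hsub]; exact hs
  have hopen : IsOpen ({z'}ᶜ : Set ℂ) := isOpen_compl_singleton
  have hout : ∀ p : ℂ, 1 ≤ |p.re| + |p.im| → p ∈ ({z'}ᶜ : Set ℂ) ∧ p ∉ Mk ζ w0 ∧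
      ∀ w, ‖w - p‖ ≤ δ → 9 * δ < ‖w - z'‖ := by
    intro p hp
    have hpD : p ∉ Dia := fun h' => absurd h' (not_lt.2 hp)
    have hp1 : 24 * δ < ‖p - z'‖ := by
      by_contra hc
      exact hpD (h.ball p (not_lt.1 hc))
    refine ⟨?_, ?_, ?_⟩
    · rintro (rfl : p = z')
      rw [sub_self, norm_zero] at hp1
      linarith
    · rintro (⟨q, rfl⟩ | ⟨q, rfl⟩)
      · exact hpD (h.dia q)
      · exact q.elim
    · intro w hw
      have := norm_sub_le_norm_sub_add_norm_sub p w z'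
      rw [norm_sub_rev p w] at this
      linarith
  have hv : ∀ q : Empty, Tendsto (fun k => pt (a k) (v0 q k)) (l : Filter ι) (𝓝 (w0 q)) :=
    fun q => q.elim
  obtain ⟨ε, hε, K, hK, hbd⟩ := hH.bd
  refine ⟨⟨ε / 2, by positivity, 128 * K, fun z hz hz1 => ?_⟩, ?_, ?_, ?_, ?_⟩
  · refine U1_of (h := H) hK hz fun w hw => ?_
    have hz' : n1 z < 1 := hz
    have hz1' : 1 - ε / 2 < n1 z := hz1
    rw [Metric.mem_ball, dist_eq_norm] at hw
    have h1 := n1_sub w z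
    have h2 := n1_sub z w
    rw [norm_sub_rev] at h1
    have hwD : w ∈ Dia := by
      show n1 w < 1
      linarith
    have h3 := hbd w hwD (by linarith)
    have h4 := Uh_sub hδ h3.1
    exact ⟨h4.2, hq.differentiableAt ((Dia_open'.sdiff isClosed_singleton).mem_nhds h4.1),
      hH.hd w h3.1, h3.2⟩
  · intro p h1 h2 h3
    obtain ⟨g1, g2, g3⟩ := hout p (by rw [abs_of_pos h1, abs_of_pos h2]; linarith)
    exact H170.bdNE h.a0 h.hN h.hr hv hopen hrel hs' g1 g2 h1 h2 h3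
      ⟨δ, hδ, _, (l2_f h hB hL0 hL hδ g3).2.2.2⟩
  · intro p h1 h2 h3
    obtain ⟨g1, g2, g3⟩ := hout p (by rw [abs_of_neg h1, abs_of_pos h2]; linarith)
    exact H170.bdNW h.a0 h.hN h.hr hv hopen hrel hs' g1 g2 h1 h2 h3
      ⟨δ, hδ, _, (l2_f h hB hL0 hL hδ g3).2.2.1⟩
  · intro p h1 h2 h3
    obtain ⟨g1, g2, g3⟩ := hout p (by rw [abs_of_neg h1, abs_of_neg h2]; linarith)
    exact H170.bdSW h.a0 h.hN h.hr hv hopen hrel hs' g1 g2 h1 h2 h3
      ⟨δ, hδ, _, (l2_f h hB hL0 hL hδ g3).1⟩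
  · intro p h1 h2 h3
    obtain ⟨g1, g2, g3⟩ := hout p (by rw [abs_of_pos h1, abs_of_neg h2]; linarith)
    exact H170.bdSE h.a0 h.hN h.hr hv hopen hrel hs' g1 g2 h1 h2 h3
      ⟨δ, hδ, _, (l2_f h hB hL0 hL hδ g3).2.1⟩

omit hB hL0 hL in
theorem res_of {q : ℂ → ℂ} {H : ℂ → ℝ} (hq : DifferentiableOn ℂ q (Dia \ {z'}))
    (hH : HL (l : Filter ι) a L ζ z' δ Hs Hf q H) (p : κ) : ResNN ζ w0 q (ζ p) := by
  classical
  have hδ := h.δ0
  obtain ⟨K, hK⟩ := hH.up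
  have hζz : 48 * δ < ‖ζ p - z'‖ := h.far p
  -- a ball around the point
  have hWo : IsOpen (Dia \ Metric.closedBall z' (3 * δ)) := Dia_open'.sdiff Metric.isClosed_closedBall
  have hpW : ζ p ∈ Dia \ Metric.closedBall z' (3 * δ) := ⟨h.dia p, fun h' => by
    rw [Metric.mem_closedBall, dist_eq_norm] at h'; linarith⟩
  obtain ⟨R, hR, hRD, hRM⟩ := H170.exists_isolated (ζ := ζ) (ω := w0) hWo hpW
  have hin : ∀ z ∈ Metric.ball (ζ p) R, z ∈ Dia \ Metric.closedBall z' (3 * δ) := fun z hz =>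
    hRD (by rw [Metric.mem_ball] at hz; rw [Metric.mem_closedBall]; linarith)
  have hout : ∀ z ∈ Metric.ball (ζ p) R, z ≠ ζ p → z ∉ Mk ζ w0 := by
    intro z hz hzp hzM
    have := hRM z hzM hzp
    rw [Metric.mem_ball, dist_eq_norm, norm_sub_rev] at hz
    linarith
  have hU : ∀ z ∈ Metric.ball (ζ p) R, z ≠ ζ p → z ∈ Uh ζ z' δ := by
    intro z hz hzp
    have h1 := hin z hz
    refine ⟨⟨h1.1, hout z hz hzp⟩, ?_⟩
    by_contra hc
    simp only [Set.mem_setOf_eq, not_or, not_lt] at hc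
    refine h1.2 ?_
    rw [Metric.mem_closedBall, dist_eq_norm]
    have := Complex.norm_le_abs_re_add_abs_im (z - z')
    linarith [hc.1, hc.2]
  have hz1 : ∀ z ∈ Metric.ball (ζ p) R, z ∈ Dia \ {z'} := by
    intro z hz
    have h1 := hin z hz
    refine ⟨h1.1, ?_⟩
    rintro (rfl : z = z')
    exact h1.2 (Metric.mem_closedBall_self (by positivity))
  have hPn : ∀ z ∈ Metric.ball (ζ p) R, PZ ζ w0 p z ≠ 0 := by
    intro z hz
    unfold PZ
    refine mul_ne_zero (Finset.prod_ne_zero_iff.2 fun p' hp' => sub_ne_zero.2 ?_)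
      (Finset.prod_ne_zero_iff.2 fun p' _ => p'.elim)
    rintro rfl
    have hne : ζ p' ≠ ζ p := fun h' => (Finset.mem_erase.1 hp').1 (h.inj h')
    exact hout _ hz hne (Or.inl ⟨p', rfl⟩)
  have key := U3_of (ζ := ζ) (ω := w0) (q := q) (h := H) (P := PZ ζ w0 p) (c := ζ p) hR
    (PP_eqZ p) (PZ_diff p) hPn (hq.mono fun z hz => hz1 z hz)
    (fun z hz hzp => hH.hd z (hU z hz hzp))
  have k2 := key.2.1 ⟨K, fun z hz hzp => hK z (hU z hz hzp)⟩
  refine ⟨_, k2, ?_⟩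
  have e : ((((⟨-1 / 2, 1 / 2⟩ : ℂ) * (q (ζ p) ^ 2 / PZ ζ w0 p (ζ p))).re : ℝ) : ℂ) =
      (⟨-1 / 2, 1 / 2⟩ : ℂ) * (q (ζ p) ^ 2 / PZ ζ w0 p (ζ p)) := by
    apply Complex.ext
    · rw [Complex.ofReal_re]
    · rw [Complex.ofReal_im, key.1]
  rw [e]
  have hpb := Metric.mem_ball_self (x := ζ p) hR
  have hqc : ContinuousAt q (ζ p) := (hq.differentiableAt
    ((Dia_open'.sdiff isClosed_singleton).mem_nhds (hz1 _ hpb))).continuousAt
  have h1 : ContinuousAt (fun z => (⟨-1 / 2, 1 / 2⟩ : ℂ) * (q z ^ 2 / PZ ζ w0 p z)) (ζ p) :=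
    continuousAt_const.mul ((hqc.pow 2).div (PZ_diff p (ζ p)).continuousAt (hPn _ hpb))
  refine (h1.tendsto.mono_left nhdsWithin_le_nhds).congr' ?_
  filter_upwards [self_mem_nhdsWithin, nhdsWithin_le_nhds (Metric.ball_mem_nhds (ζ p) hR)]
    with z hz hzb
  have hz' : z - ζ p ≠ 0 := sub_ne_zero.2 hz
  have hP := hPn z hzb
  unfold gq
  rw [PP_eqZ p]
  field_simp

omit h hB hL0 hL in
/-- Scaling of the boundary conditions. -/
theorem bdc_smul {q q' : ℂ → ℂ} {t : ℝ} (ht : ∀ z ∈ Dia, z ≠ z' → q' z = t * q z)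
    (hz' : z' ∈ Dia) (hb : BdC (F2 ζ w0 q)) : BdC (F2 ζ w0 q') := by
  obtain ⟨δ1, hδ1, hT⟩ := H365.fin_away (T := {z'}) (Set.finite_singleton _)
    (Set.singleton_subset_iff.2 hz')
  have hT' := hT z' rfl
  have hF : ∀ z ∈ Dia, 1 - δ1 < |z.re| + |z.im| → F2 ζ w0 q' z = ((t ^ 2 : ℝ) : ℂ) * F2 ζ w0 q z := by
    intro z hz hz1
    have hne : z ≠ z' := by rintro rfl; linarith
    unfold F2
    rw [ht z hz hne]
    push_cast
    ring
  have near : ∀ p : ℂ, |p.re| + |p.im| = 1 → ∀ z ∈ Dia, ‖z - p‖ < δ1 / 2 →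
      1 - δ1 < |z.re| + |z.im| := by
    intro p hp z hz hzp
    have := (abs_le.1 (H365.l1_lip z p)).1
    linarith
  have e0 : 0 ≤ t ^ 2 := sq_nonneg t
  have en : ∀ w : ℂ, ‖((t ^ 2 : ℝ) : ℂ) * w‖ = t ^ 2 * ‖w‖ := fun w => by
    rw [norm_mul, Complex.norm_real, Real.norm_eq_abs, abs_of_nonneg e0]
  have er : ∀ w : ℂ, (((t ^ 2 : ℝ) : ℂ) * w).re = t ^ 2 * w.re := fun w => Complex.re_ofReal_mul _ _
  have ei : ∀ w : ℂ, (((t ^ 2 : ℝ) : ℂ) * w).im = t ^ 2 * w.im := fun w => Complex.im_ofReal_mul _ _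
  refine ⟨?_, ?_, ?_, ?_, ?_⟩
  · obtain ⟨d, hd, K, hK⟩ := hb.bdd
    refine ⟨min d δ1, by positivity, t ^ 2 * K, fun z hz hzp => ?_⟩
    have m1 := min_le_left d δ1
    have m2 := min_le_right d δ1
    rw [hF z hz (by linarith), en]
    exact mul_le_mul_of_nonneg_left (hK z hz (by linarith)) e0
  · intro p h1 h2 h3
    obtain ⟨ρ, hρ, M, hM⟩ := hb.NE p h1 h2 h3
    refine ⟨min ρ (δ1 / 2), by positivity, t ^ 2 * M, fun z hz hzp => ?_⟩
    rw [hF z hz (near p (by rw [abs_of_pos h1, abs_of_pos h2]; exact h3) z hz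
      (hzp.trans_le (min_le_right _ _))), en, er]
    have := mul_le_mul_of_nonneg_left (hM z hz (hzp.trans_le (min_le_left _ _))) e0
    linarith
  · intro p h1 h2 h3
    obtain ⟨ρ, hρ, M, hM⟩ := hb.NW p h1 h2 h3
    refine ⟨min ρ (δ1 / 2), by positivity, t ^ 2 * M, fun z hz hzp => ?_⟩
    rw [hF z hz (near p (by rw [abs_of_neg h1, abs_of_pos h2]; exact h3) z hz
      (hzp.trans_le (min_le_right _ _))), en, ei]
    have := mul_le_mul_of_nonneg_left (hM z hz (hzp.trans_le (min_le_left _ _))) e0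
    linarith
  · intro p h1 h2 h3
    obtain ⟨ρ, hρ, M, hM⟩ := hb.SW p h1 h2 h3
    refine ⟨min ρ (δ1 / 2), by positivity, t ^ 2 * M, fun z hz hzp => ?_⟩
    rw [hF z hz (near p (by rw [abs_of_neg h1, abs_of_neg h2]; linarith) z hz
      (hzp.trans_le (min_le_right _ _))), en, er]
    have := mul_le_mul_of_nonneg_left (hM z hz (hzp.trans_le (min_le_left _ _))) e0
    linarith
  · intro p h1 h2 h3
    obtain ⟨ρ, hρ, M, hM⟩ := hb.SE p h1 h2 h3
    refine ⟨min ρ (δ1 / 2), by positivity, t ^ 2 * M, fun z hz hzp => ?_⟩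
    rw [hF z hz (near p (by rw [abs_of_pos h1, abs_of_neg h2]; linarith) z hz
      (hzp.trans_le (min_le_right _ _))), en, ei]
    have := mul_le_mul_of_nonneg_left (hM z hz (hzp.trans_le (min_le_left _ _))) e0
    linarith

omit h hB hL0 hL in
/-- Scaling of the residues. -/
theorem res_smul {q q' : ℂ → ℂ} {t : ℝ} {m : ℂ} (hm : m ∈ Dia) (hmz : m ≠ z')
    (ht : ∀ z ∈ Dia, z ≠ z' → q' z = t * q z) (hr : ResNN ζ w0 q m) : ResNN ζ w0 q' m := by
  obtain ⟨c0, hc0, hl⟩ := hr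
  refine ⟨t ^ 2 * c0, by positivity, ?_⟩
  have h1 := hl.const_mul ((t ^ 2 : ℝ) : ℂ)
  rw [← Complex.ofReal_mul] at h1
  refine h1.congr' ?_
  filter_upwards [nhdsWithin_le_nhds ((Dia_open'.sdiff (isClosed_singleton (x := z'))).mem_nhds
    ⟨hm, hmz⟩)] with z hz
  unfold gq
  rw [ht z hz.1 hz.2]
  push_cast
  ring

omit h hB hL0 hL in
theorem bdc_zero : BdC (F2 ζ w0 fun _ => 0) := by
  have e : ∀ z, F2 ζ w0 (fun _ => 0) z = 0 := fun z => by unfold F2; simp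
  refine ⟨⟨1, one_pos, 0, fun z _ _ => by rw [e]; simp⟩, ?_, ?_, ?_, ?_⟩
  all_goals
    intro p _ _ _
    refine ⟨1, one_pos, 0, fun z _ _ => ?_⟩
    rw [e]; simp

omit h hB hL0 hL in
theorem res_zero (m : ℂ) : ResNN ζ w0 (fun _ => 0) m := by
  refine ⟨0, le_rfl, ?_⟩
  have e : ∀ z, (z - m) * gq ζ w0 (fun _ => 0) z = 0 := fun z => by unfold gq; simp
  simp only [e, Complex.ofReal_zero]
  exact tendsto_const_nhds

end Vale.Agent.P144.H135
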