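import Vale.Agent.P144.H135.Bulk13
import Vale.Agent.P144.H170.XjLim
import Vale.Agent.P144.U.AL.KP

/-!
The kernel of the fermions with a source in the bulk.
-/

namespace Vale.Agent.P144.H135

open Finset Vale.Agent.P144 Filter Topology
open Vale.Agent.P144.H170 (Pt pt tauF theF rM mem_rM rM_nodup tauR_rM)

section

variable {κ : Type*} [Fintype κ] (N : ℕ) (r : κ → Site) (c' : AL.Cn)

/-- The fields of the kernel. -/
noncomputable def bA : Site → ℝ :=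
  AL.xA (dia N) (c'.2 ::ₘ rM r) {c'.1} (AL.QQ (dia N) (rM r) 0)
noncomputable def bB : Site → ℝ :=
  AL.xB (dia N) (c'.2 ::ₘ rM r) {c'.1} (AL.QQ (dia N) (rM r) 0)
noncomputable def bC : Site → ℝ :=
  AL.xC (dia N) (c'.2 ::ₘ rM r) {c'.1} (AL.QQ (dia N) (rM r) 0)
noncomputable def bE : Site → ℝ :=
  AL.xD (dia N) (c'.2 ::ₘ rM r) {c'.1} (AL.QQ (dia N) (rM r) 0)

theorem src_one {Λ : Finset Site} (R : Multiset Site) (g v : Site) :
    AL.QQ Λ (g ::ₘ g ::ₘ R) (v ::ₘ {v}) / AL.QQ Λ R 0 = 1 := by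
  have : (v ::ₘ ({v} : Multiset Site)) = v ::ₘ v ::ₘ 0 := rfl
  rw [this, AL.QQ_spin_pair, AL.QQ_dis_pair]
  exact div_self (AL.QQ_pos _ _).ne'

/-- The spinor data of the kernel. -/
theorem exists_BD (hc : c'.1 ∈ AL.cnr c'.2) (hN : c'.1 ∈ dia N) :
    ∃ Hs Hf, BD N r c' (bA N r c') (bB N r c') (bC N r c') (bE N r c') Hs Hf := by
  have h := AL.spr_QQ (Λ := dia N) (c'.2 ::ₘ rM r) (A := {c'.1})
    (by simpa using hN) (AL.QQ (dia N) (rM r) 0)
  obtain ⟨Hs, Hf, hH⟩ := h.exists_H (AL.colConvex_dia N)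
  have e1 : AL.tauR (c'.2 ::ₘ rM r) = fun x => AL.cut1 c'.2 (x.1, x.2 + 1) * tauF r x := by
    funext x
    unfold AL.tauR
    rw [AL.cutS_cons, ← tauR_rM]
    rfl
  have e2 : AL.theA {c'.1} = fun x => chi (AL.sw x.1 x.2) c'.1 := by
    funext x
    unfold AL.theA AL.chiM
    simp
  rw [e1, e2] at h
  refine ⟨Hs, Hf, hc, h, hH, fun he => ?_, fun he => ?_, fun he => ?_, fun he => ?_⟩
  · have h1 : c'.1 = c'.2 := by rw [← he]
    unfold bA AL.xA
    rw [if_pos (by rw [← h1]; exact hN), h1]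
    exact src_one _ _ _
  · have h1 : c'.1 = (c'.2.1 + 1, c'.2.2) := by rw [← he]
    unfold bB AL.xB
    rw [if_pos (by rw [← h1]; exact hN), h1]
    exact src_one _ _ _
  · have h1 : c'.1 = (c'.2.1, c'.2.2 + 1) := by rw [← he]
    unfold bC AL.xC
    rw [if_pos (by rw [← h1]; exact hN), h1]
    exact src_one _ _ _
  · have h1 : c'.1 = (c'.2.1 + 1, c'.2.2 + 1) := by rw [← he]
    unfold bE AL.xD
    rw [if_pos (by rw [← h1]; exact hN), h1]
    exact src_one _ _ _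

theorem Wf_two (Λ : Finset Site) (R : Multiset Site) (c c' : AL.Cn) :
    AL.Wf Λ R [c, c'] = AL.ep c c' * (AL.QQ Λ (c.2 ::ₘ c'.2 ::ₘ R) (c.1 ::ₘ {c'.1}) /
      AL.QQ Λ R 0) := by
  have e1 : AL.el [c, c'] = AL.ep c c' := by simp [AL.el]
  have e2 : AL.fcs [c, c'] + R = c.2 ::ₘ c'.2 ::ₘ R := by
    rw [AL.fcs_cons, AL.fcs_cons, Multiset.cons_add, Multiset.cons_add]
    have : AL.fcs [] = 0 := rfl
    rw [this, zero_add]
  have e3 : AL.sps [c, c'] = c.1 ::ₘ {c'.1} := rfl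
  unfold AL.Wf
  rw [e1, e2, e3, mul_div_assoc]

theorem eA_Wf {x : Site} (hx : x ∈ dia N) :
    eA c' (bA N r c') x = AL.Wf (dia N) (rM r) [(x, x), c'] := by
  rw [Wf_two]
  unfold eA bA AL.xA
  rw [if_pos hx]

theorem eB_Wf {x : Site} (hx : ((x.1 + 1, x.2) : Site) ∈ dia N) :
    eB c' (bB N r c') x = AL.Wf (dia N) (rM r) [((x.1 + 1, x.2), x), c'] := by
  rw [Wf_two]
  unfold eB bB AL.xB
  rw [if_pos hx]

theorem eC_Wf {x : Site} (hx : ((x.1, x.2 + 1) : Site) ∈ dia N) :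
    eC c' (bC N r c') x = AL.Wf (dia N) (rM r) [((x.1, x.2 + 1), x), c'] := by
  rw [Wf_two]
  unfold eC bC AL.xC
  rw [if_pos hx]

end

end Vale.Agent.P144.H135
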