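import Vale.Agent.P144.H135.Bulk14
import Vale.Agent.P144.U.AL.Tl

/-!
The limits of the kernel of the fermions between energies.
-/

namespace Vale.Agent.P144.H135

open Finset Vale.Agent.P144 Filter Topology
open Vale.Agent.P144.H436 (nn)
open Vale.Agent.P144.H170 (Pt pt tauF theF rM mem_rM rM_nodup tauR_rM nf ev_nf ev_nf_of pos cF RR RS
  RS_ne RS_cont RR_eq gs gs_sq gs_bdd VS phA phB phC phE Mk notMem_Mk pos_eq cF_lim)

/-- Limits along a filter from limits along ultrafilters. -/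
theorem lim_of_ultra {α β : Type*} [TopologicalSpace β] [T2Space β] {l : Filter α} [NeBot l]
    {f : α → β} (h : ∀ U V : Ultrafilter α, (U : Filter α) ≤ l → (V : Filter α) ≤ l →
      ∃ c, Tendsto f U (𝓝 c) ∧ Tendsto f V (𝓝 c)) : ∃ c, Tendsto f l (𝓝 c) := by
  obtain ⟨c, hc, -⟩ := h (Ultrafilter.of l) (Ultrafilter.of l) (Ultrafilter.of_le l)
    (Ultrafilter.of_le l)
  refine ⟨c, (tendsto_iff_ultrafilter _ _ _).2 fun V hV => ?_⟩
  obtain ⟨c', h1, h2⟩ := h (Ultrafilter.of l) V (Ultrafilter.of_le l) hV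
  rwa [tendsto_nhds_unique hc h1]

theorem seq_nf {ι : Type*} {l : Filter ι} {a : ι → ℝ} {w : ι → Site} {z : ℂ}
    (hw : Tendsto (fun k => pt (a k) (w k)) l (𝓝 z)) :
    Tendsto (fun k => (k, w k)) l (nf l a z) := by
  unfold nf
  rw [tendsto_inf]
  refine ⟨?_, tendsto_comap_iff.2 hw⟩
  rw [tendsto_prod_iff']
  exact ⟨tendsto_id, tendsto_top⟩

section

variable {κ : Type*} [Fintype κ]

/-- Limits of the product of the roots at a sequence. -/
theorem rs_seq {ι : Type*} {l : Filter ι} {a : ι → ℝ} (ha : Tendsto a l (𝓝[>] 0))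
    {r : κ → ι → Site} {ζ : κ → ℂ} (hr : ∀ p, Tendsto (fun k => pt (a k) (r p k)) l (𝓝 (ζ p)))
    {w : ι → Site} {z : ℂ} (hw : Tendsto (fun k => pt (a k) (w k)) l (𝓝 z)) {S : κ → Prop}
    (hz : z ∈ VS S F0 ζ w0) (s t : ℝ) :
    Tendsto (fun k => RS S F0 (fun p => cF (a k) (r p k)) (fun q => pt (a k) (v0 q k))
      (pos (a k) (w k) s t)) l (𝓝 (RS S F0 ζ w0 z)) := by
  have hv : ∀ q, Tendsto (fun k => pt (a k) (v0 q k)) l (𝓝 (w0 q)) := fun q => q.elim
  have h1 := H170.RS_lim (S := S) (S' := F0) (r := r) (v := v0) (ζ := ζ) (ω := w0) ha hr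
    hv hz s t
  have h2 := h1.comp (seq_nf hw)
  exact h2

/-- The product of the roots times the limit. -/
theorem rr_mul {ι : Type*} {l : Filter ι} {a : ι → ℝ} (ha : Tendsto a l (𝓝[>] 0))
    {r : κ → ι → Site} {ζ : κ → ℂ} (hr : ∀ p, Tendsto (fun k => pt (a k) (r p k)) l (𝓝 (ζ p)))
    {w : ι → Site} {z : ℂ} (hw : Tendsto (fun k => pt (a k) (w k)) l (𝓝 z)) {S : κ → Prop}
    (hz : z ∈ VS S F0 ζ w0) {s t : ℝ} (hs : s = 1 / 4 ∨ s = 3 / 4) {φ : ℂ →L[ℝ] ℝ} {Q : ℂ}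
    {F : ι → ℝ}
    (hF : Tendsto (fun k => F k - φ (Q / RR (a k) (fun p => r p k) (fun q => v0 q k)
      (pos (a k) (w k) s t))) l (𝓝 0)) :
    Tendsto (fun k => RR (a k) (fun p => r p k) (fun q => v0 q k) (pos (a k) (w k) s t) *
      (F k : ℂ)) l (𝓝 (RS S F0 ζ w0 z * (φ (Q / RS S F0 ζ w0 z) : ℂ))) := by
  have hR := rs_seq ha hr hw hz s t
  have hne := RS_ne hz
  have h1 : Tendsto (fun k => RS S F0 (fun p => cF (a k) (r p k)) (fun q => pt (a k) (v0 q k))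
      (pos (a k) (w k) s t) * (φ (Q / RS S F0 (fun p => cF (a k) (r p k))
      (fun q => pt (a k) (v0 q k)) (pos (a k) (w k) s t)) : ℂ)) l
      (𝓝 (RS S F0 ζ w0 z * (φ (Q / RS S F0 ζ w0 z) : ℂ))) := by
    refine hR.mul ?_
    exact (Complex.continuous_ofReal.tendsto _).comp
      ((φ.continuous.tendsto _).comp ((tendsto_const_nhds (x := Q)).div hR hne))
  have h2 : Tendsto (fun k => RS S F0 (fun p => cF (a k) (r p k)) (fun q => pt (a k) (v0 q k))
      (pos (a k) (w k) s t) * ((F k - φ (Q / RR (a k) (fun p => r p k) (fun q => v0 q k)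
      (pos (a k) (w k) s t)) : ℝ) : ℂ)) l (𝓝 0) := by
    have h3 := hR.mul ((Complex.continuous_ofReal.tendsto _).comp hF)
    rw [Complex.ofReal_zero, mul_zero] at h3
    exact h3
  have h3 : Tendsto (fun k => (gs S F0 (fun p => r p k) (fun q => v0 q k) ((w k).1 + s) : ℂ) *
      (RS S F0 (fun p => cF (a k) (r p k)) (fun q => pt (a k) (v0 q k))
      (pos (a k) (w k) s t) * ((F k - φ (Q / RR (a k) (fun p => r p k) (fun q => v0 q k)
      (pos (a k) (w k) s t)) : ℝ) : ℂ))) l (𝓝 0) := by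
    rw [tendsto_zero_iff_norm_tendsto_zero] at h2 ⊢
    refine h2.congr fun k => ?_
    rw [norm_mul (gs _ _ _ _ _ : ℂ), Complex.norm_real, Real.norm_eq_abs, gs_bdd, one_mul]
  have h4 := h3.add h1
  rw [zero_add] at h4
  refine h4.congr' ?_
  filter_upwards [ha.eventually self_mem_nhdsWithin] with k hk
  have hk : 0 < a k := hk
  set g := gs S F0 (fun p => r p k) (fun q => v0 q k) ((w k).1 + s) with hg
  have h5 : g * g = 1 := gs_sq _ _ _ _ _
  have e := RR_eq S F0 hk (fun p => r p k) (fun q => v0 q k) (w k) hs t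
  rw [← hg] at e
  set R0 := RS S F0 (fun p => cF (a k) (r p k)) (fun q => pt (a k) (v0 q k))
      (pos (a k) (w k) s t) with hR0
  rw [e]
  have hg0 : (g:ℂ) ≠ 0 := by
    intro h; rw [Complex.ofReal_eq_zero] at h; rw [h] at h5; norm_num at h5
  have h6 : (φ (Q / ((g:ℂ) * R0)) : ℝ) = g * φ (Q / R0) := by
    have : Q / ((g:ℂ) * R0) = g • (Q / R0) := by
      rw [Complex.real_smul]
      have h7 : (g:ℂ)⁻¹ = g := by
        have h8 : (g:ℂ) * g = 1 := by rw [← Complex.ofReal_mul, h5]; simp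
        field_simp
        rw [pow_two]; exact h8.symm
      rw [div_mul_eq_div_div, div_eq_mul_inv Q, mul_comm Q, h7]
      ring
    rw [this, map_smul, smul_eq_mul]
  rw [h6]
  push_cast
  have h8 : (g:ℂ) * g = 1 := by rw [← Complex.ofReal_mul, h5]; simp
  linear_combination (-(R0 * (φ (Q / R0) : ℂ))) * h8

end

section geo

variable {κ : Type*} [Fintype κ]

/-- The positions. -/
structure Geo (ζ : κ → ℂ) (z' : ℂ) (δ : ℝ) : Prop where
  inj : Function.Injective ζ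
  dia : ∀ p, ζ p ∈ Dia
  δ0 : 0 < δ
  ball : ∀ w, ‖w - z'‖ ≤ 24 * δ → w ∈ Dia
  far : ∀ p, 48 * δ < ‖ζ p - z'‖

theorem exists_geo {ζ : κ → ℂ} (hinj : Function.Injective ζ) (hζ : ∀ p, ζ p ∈ Dia) {z' : ℂ}
    (hz' : z' ∈ Dia) (hne : ∀ p, ζ p ≠ z') : ∃ δ, Geo ζ z' δ := by
  obtain ⟨R, hR, hRs⟩ := Metric.mem_nhds_iff.1 (H170.Dia_open'.mem_nhds hz')
  obtain ⟨e, he, he'⟩ := H170.exists_pos_le (ε := fun p => ‖ζ p - z'‖) fun p =>
    norm_pos_iff.2 (sub_ne_zero.2 (hne p))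
  refine ⟨min (R / 48) (e / 96), hinj, hζ, by positivity, fun w hw => hRs ?_, fun p => ?_⟩
  · rw [Metric.mem_ball, dist_eq_norm]
    have := min_le_left (R / 48) (e / 96)
    linarith
  · have h1 := min_le_right (R / 48) (e / 96)
    have h2 := he' p
    linarith

/-- The corner of type `u0` at `z'`. -/
noncomputable def cz (z' : ℂ) (u0 : Site) (a : ℝ) : AL.Cn := (fl a z' + u0, fl a z')

/-- The disorders. -/
noncomputable def rz (ζ : κ → ℂ) (p : κ) (a : ℝ) : Site := fl a (ζ p)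

theorem cz_cnr {u0 : Site} (hu0 : u0 ∈ AL.cnr 0) (z' : ℂ) (a : ℝ) :
    (cz z' u0 a).1 ∈ AL.cnr (cz z' u0 a).2 := by
  rw [AL.mem_cnr] at hu0 ⊢
  unfold cz
  simp only [Prod.fst_zero, Prod.snd_zero, zero_add] at hu0
  rcases hu0 with rfl | rfl | rfl | rfl
  · left; ext <;> simp
  · right; left; ext <;> simp
  · right; right; left; ext <;> simp
  · right; right; right; ext <;> simp

variable {ζ : κ → ℂ} {z' : ℂ} {δ : ℝ} (G : Geo ζ z' δ)

include G

theorem Geo.pos {U : Filter ℝ} (hU : U ≤ 𝓝[>] 0) (u0 : Site) :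
    Pos U (fun a => a) nn (rz ζ) ζ (cz z' u0) z' δ where
  a0 := hU
  hN := AL.nn_lim.mono_left hU
  hr := fun p => (AL.flt (ζ p)).mono_left hU
  hg := (AL.flt z').mono_left hU
  inj := G.inj
  dia := G.dia
  δ0 := G.δ0
  ball := G.ball
  far := G.far

theorem Geo.blim {U : Ultrafilter ℝ} (hU : (U : Filter ℝ) ≤ 𝓝[>] 0) {u0 : Site}
    (hu0 : u0 ∈ AL.cnr 0) {QA QB QC QE : Pt → ℝ} {κ0 : ℂ} (K : PKr u0 QA QB QC QE κ0)
    {S : κ → Prop} (hS : Metric.closedBall z' (24 * δ) ⊆ VS S F0 ζ w0) :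
    ∃ q y, BLim (U : Filter ℝ) (fun a => a) (rz ζ) ζ (cz z' u0) z' δ
      (fun a => bA (nn a) (fun p => rz ζ p a) (cz z' u0 a))
      (fun a => bB (nn a) (fun p => rz ζ p a) (cz z' u0 a))
      (fun a => bC (nn a) (fun p => rz ζ p a) (cz z' u0 a))
      (fun a => bE (nn a) (fun p => rz ζ p a) (cz z' u0 a)) S QA QB QC QE κ0 q y := by
  have hP := G.pos hU u0
  have hmem : ∀ᶠ a in (U : Filter ℝ), (cz z' u0 a).1 ∈ Vale.Agent.P144.dia (nn a) := by
    filter_upwards [hP.inN hP.zD hP.hg 2] with a ha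
    have h1 := cz_cnr hu0 z' a
    rw [AL.mem_cnr] at h1
    rw [AL.mem_dia]
    have := neg_abs_le (cz z' u0 a).2.1
    have := le_abs_self (cz z' u0 a).2.1
    have := neg_abs_le (cz z' u0 a).2.2
    have := le_abs_self (cz z' u0 a).2.2
    push_cast at ha
    have a1 : |(cz z' u0 a).1.1| ≤ |(cz z' u0 a).2.1| + 1 := by
      rcases h1 with h6 | h6 | h6 | h6 <;> rw [h6] <;> rw [abs_le] <;> constructor <;> lia
    have a2 : |(cz z' u0 a).1.2| ≤ |(cz z' u0 a).2.2| + 1 := by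
      rcases h1 with h6 | h6 | h6 | h6 <;> rw [h6] <;> rw [abs_le] <;> constructor <;> lia
    lia
  have hex : ∀ a, ∃ Hs Hf : Site → ℝ, (cz z' u0 a).1 ∈ Vale.Agent.P144.dia (nn a) →
      BD (nn a) (fun p => rz ζ p a) (cz z' u0 a)
      (bA (nn a) (fun p => rz ζ p a) (cz z' u0 a)) (bB (nn a) (fun p => rz ζ p a) (cz z' u0 a))
      (bC (nn a) (fun p => rz ζ p a) (cz z' u0 a)) (bE (nn a) (fun p => rz ζ p a) (cz z' u0 a))
      Hs Hf := by
    intro a
    by_cases h : (cz z' u0 a).1 ∈ Vale.Agent.P144.dia (nn a)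
    · obtain ⟨Hs, Hf, hB⟩ := exists_BD (nn a) (fun p => rz ζ p a) (cz z' u0 a)
        (cz_cnr hu0 z' a) h
      exact ⟨Hs, Hf, fun _ => hB⟩
    · exact ⟨0, 0, fun h' => absurd h' h⟩
  choose Hs Hf hB using hex
  exact blim_exists hP (hmem.mono fun a ha => hB a ha) K
    (Eventually.of_forall fun a => rfl) hS

end geo

end Vale.Agent.P144.H135
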