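import Vale.Agent.P144.H135.Bulk15
import Vale.Agent.P144.H436.K5

/-!
The limits of the kernel of the fermions between energies.
-/

namespace Vale.Agent.P144.H135

open Finset Vale.Agent.P144 Filter Topology
open Vale.Agent.P144.H436 (nn Good0 Rp_rM)
open Vale.Agent.P144.H170 (Pt pt tauF theF rM mem_rM rM_nodup tauR_rM nf ev_nf ev_nf_of pos cF RR RS
  RS_ne RS_cont RR_eq gs gs_sq gs_bdd VS phA phB phC phE Mk notMem_Mk pos_eq cF_lim)

variable (p : Pts)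

/-- The type of the corner of a label at an energy. -/
structure Ctp (x : AL.Lb p.n p.m) (k : Fin p.m) (u0 : Site) (s t : ℝ) : Prop where
  c : ∀ a, AL.cnp p a x = cz (p.y k) u0 a
  w : ∀ a, AL.wpos p a x = pos a (fl a (p.y k)) s t
  h : (u0 = (0, 0) ∧ s = 1 / 4 ∧ t = 1 / 4) ∨ (u0 = (1, 0) ∧ s = 3 / 4 ∧ t = 1 / 4) ∨
    (u0 = (0, 1) ∧ s = 1 / 4 ∧ t = 3 / 4)

variable {p}

theorem ct_lo (k : Fin p.m) : Ctp p (.lo k) k (0, 0) (1 / 4) (1 / 4) where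
  c := fun a => by
    show ((fl a (p.y k), fl a (p.y k)) : AL.Cn) = (fl a (p.y k) + (0, 0), fl a (p.y k))
    congr 1
    ext <;> simp
  w := fun a => rfl
  h := Or.inl ⟨rfl, rfl, rfl⟩

theorem ct_hi0 {k : Fin p.m} (hj : p.j k = 0) : Ctp p (.hi k) k (1, 0) (3 / 4) (1 / 4) where
  c := fun a => by
    show ((fl a (p.y k) + dir (p.j k), fl a (p.y k)) : AL.Cn) = (fl a (p.y k) + (1, 0), fl a (p.y k))
    unfold dir; rw [if_pos hj]
  w := fun a => by simp only [AL.wpos, if_pos hj]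
  h := Or.inr (Or.inl ⟨rfl, rfl, rfl⟩)

theorem ct_hi1 {k : Fin p.m} (hj : p.j k ≠ 0) : Ctp p (.hi k) k (0, 1) (1 / 4) (3 / 4) where
  c := fun a => by
    show ((fl a (p.y k) + dir (p.j k), fl a (p.y k)) : AL.Cn) = (fl a (p.y k) + (0, 1), fl a (p.y k))
    unfold dir; rw [if_neg hj]
  w := fun a => by simp only [AL.wpos, if_neg hj]
  h := Or.inr (Or.inr ⟨rfl, rfl, rfl⟩)

theorem exists_Ctp {x : AL.Lb p.n p.m} {k : Fin p.m} (h : x = .lo k ∨ x = .hi k) :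
    ∃ u0 s t, Ctp p x k u0 s t := by
  rcases h with rfl | rfl
  · exact ⟨_, _, _, ct_lo k⟩
  · by_cases hj : p.j k = 0
    · exact ⟨_, _, _, ct_hi0 hj⟩
    · exact ⟨_, _, _, ct_hi1 hj⟩

variable {x : AL.Lb p.n p.m} {k : Fin p.m} {u0 : Site} {s t : ℝ}

theorem Ctp.cnr (h : Ctp p x k u0 s t) : u0 ∈ AL.cnr 0 := by
  rw [AL.mem_cnr]
  rcases h.h with ⟨rfl, -⟩ | ⟨rfl, -⟩ | ⟨rfl, -⟩ <;> simp

theorem Ctp.hs (h : Ctp p x k u0 s t) : s = 1 / 4 ∨ s = 3 / 4 := by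
  rcases h.h with ⟨-, h, -⟩ | ⟨-, h, -⟩ | ⟨-, h, -⟩ <;> simp [h]

theorem rho_RR (a : ℝ) (h : Ctp p x k u0 s t) : AL.rho p a x =
    RR a (fun i => rz p.x i a) (fun q => v0 q a) (pos a (fl a (p.y k)) s t) := by
  unfold AL.rho RR
  rw [h.w]
  simp [rz]

/-- The sign of the source. -/
theorem Ctp.sg0 (h : Ctp p x k u0 s t) (S : Fin p.n → Prop) (a : ℝ) :
    sg0 S (fun i => rz p.x i a) (cz (p.y k) u0 a) =
      gs S F0 (fun i => rz p.x i a) (fun q => v0 q a) ((fl a (p.y k)).1 + s) := by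
  unfold H135.sg0
  have e : (fun q : Empty => (q.elim : Site)) = fun q => v0 q a := by
    funext q; exact q.elim
  rcases h.h with ⟨rfl, rfl, -⟩ | ⟨rfl, rfl, -⟩ | ⟨rfl, rfl, -⟩
  · rw [if_pos (by simp [cz]), e]; rfl
  · rw [if_neg (by simp [cz]), e]; rfl
  · rw [if_pos (by simp [cz]), e]; rfl

/-- The limit of the roots at the source. -/
theorem src_rho (h : Ctp p x k u0 s t) {S : Fin p.n → Prop} (hz : p.y k ∈ VS S F0 p.x w0)
    {U : Filter ℝ} (hU : U ≤ 𝓝[>] 0) :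
    Tendsto (fun a : ℝ => (sg0 S (fun i => rz p.x i a) (cz (p.y k) u0 a) : ℂ) * AL.rho p a x) U
      (𝓝 (RS S F0 p.x w0 (p.y k))) := by
  have h1 := rs_seq (a := fun a : ℝ => a) hU (r := rz p.x) (ζ := p.x)
    (fun i => (AL.flt (p.x i)).mono_left hU) (w := fun a => fl a (p.y k))
    ((AL.flt (p.y k)).mono_left hU) hz s t
  refine h1.congr' ?_
  filter_upwards [hU self_mem_nhdsWithin] with a ha
  have ha : 0 < a := ha
  rw [h.sg0, rho_RR a h, RR_eq S F0 ha _ _ _ h.hs t]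
  have h5 : gs S F0 (fun i => rz p.x i a) (fun q => v0 q a) ((fl a (p.y k)).1 + s) *
      gs S F0 (fun i => rz p.x i a) (fun q => v0 q a) ((fl a (p.y k)).1 + s) = 1 := gs_sq _ _ _ _ _
  have h8 : (gs S F0 (fun i => rz p.x i a) (fun q => v0 q a) ((fl a (p.y k)).1 + s) : ℂ) *
      gs S F0 (fun i => rz p.x i a) (fun q => v0 q a) ((fl a (p.y k)).1 + s) = 1 := by
    rw [← Complex.ofReal_mul, h5]; simp
  rw [← mul_assoc, h8, one_mul]

/-- The corners near `z` are in the diamond. -/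
theorem dia_ev {z : ℂ} (hz : z ∈ Dia) (e : Site) (he : e = (0, 0) ∨ e = (1, 0) ∨ e = (0, 1)) :
    ∀ᶠ a in 𝓝[>] (0:ℝ), fl a z + e ∈ dia (nn a) := by
  filter_upwards [AL.in_ev AL.idt AL.nn_lim (AL.flt z) hz 1] with a ha
  rw [AL.mem_dia]
  have := abs_add_le (fl a z).1 e.1
  have := abs_add_le (fl a z).2 e.2
  simp only [Prod.fst_add, Prod.snd_add]
  push_cast at ha
  rcases he with rfl | rfl | rfl <;> simp only [abs_zero, abs_one] at * <;> lia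

/-- The limit of the kernel at the target. -/
theorem tgt (hp : Good0 p) (hx : Ctp p x k u0 s t) : ∃ φ : ℂ →L[ℝ] ℝ,
    ∀ {y : AL.Lb p.n p.m} {l : Fin p.m} {u1 : Site} {s1 t1 : ℝ} (_ : Ctp p y l u1 s1 t1)
      (_ : p.y k ∈ (Dia \ {p.y l}) \ Mk p.x w0)
      {U : Filter ℝ} (_ : U ≤ 𝓝[>] 0) {δ : ℝ} {S : Fin p.n → Prop} {QA QB QC QE : Pt → ℝ}
      {κ0 : ℂ} {q Y : ℂ → ℂ} (_ : BLim U (fun a => a) (rz p.x) p.x (cz (p.y l) u1) (p.y l) δ
      (fun a => bA (nn a) (fun i => rz p.x i a) (cz (p.y l) u1 a))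
      (fun a => bB (nn a) (fun i => rz p.x i a) (cz (p.y l) u1 a))
      (fun a => bC (nn a) (fun i => rz p.x i a) (cz (p.y l) u1 a))
      (fun a => bE (nn a) (fun i => rz p.x i a) (cz (p.y l) u1 a)) S QA QB QC QE κ0 q Y),
      Tendsto (fun a : ℝ => a⁻¹ * (sg0 S (fun i => rz p.x i a) (cz (p.y l) u1 a) *
        AL.Kn p a x y) - φ (q (p.y k) / RR a (fun i => rz p.x i a) (fun q => v0 q a)
        (pos a (fl a (p.y k)) s t))) U (𝓝 0) := by
  have hKn : ∀ (a : ℝ) (y : AL.Lb p.n p.m) (l : Fin p.m) (u1 : Site) (s1 t1 : ℝ),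
      Ctp p y l u1 s1 t1 → AL.Kn p a x y = AL.Wf (dia (nn a)) (rM fun i => rz p.x i a)
        [cz (p.y k) u0 a, cz (p.y l) u1 a] := by
    intro a y l u1 s1 t1 hy
    unfold AL.Kn
    rw [Rp_rM, hx.c, hy.c]
    rfl
  rcases hx.h with ⟨rfl, rfl, rfl⟩ | ⟨rfl, rfl, rfl⟩ | ⟨rfl, rfl, rfl⟩
  · refine ⟨phA, fun {y l u1 s1 t1} hy hz {U} hU {δ S QA QB QC QE κ0 q Y} hB => ?_⟩
    have h1 := (hB.slim.A _ hz).comp (seq_nf ((AL.flt (p.y k)).mono_left hU))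
    refine h1.congr' ?_
    filter_upwards [(dia_ev (hp.2.1 k) (0, 0) (Or.inl rfl)).filter_mono hU] with a ha
    have e0 : fl a (p.y k) + (0, 0) = fl a (p.y k) := by ext <;> simp
    rw [e0] at ha
    simp only [Function.comp_apply]
    rw [eA_Wf _ _ _ ha, hKn a y l u1 s1 t1 hy]
    unfold cz
    rw [e0]
  · refine ⟨phB, fun {y l u1 s1 t1} hy hz {U} hU {δ S QA QB QC QE κ0 q Y} hB => ?_⟩
    have h1 := (hB.slim.B _ hz).comp (seq_nf ((AL.flt (p.y k)).mono_left hU))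
    refine h1.congr' ?_
    filter_upwards [(dia_ev (hp.2.1 k) (1, 0) (Or.inr (Or.inl rfl))).filter_mono hU] with a ha
    have e0 : fl a (p.y k) + (1, 0) = ((fl a (p.y k)).1 + 1, (fl a (p.y k)).2) := by ext <;> simp
    rw [e0] at ha
    simp only [Function.comp_apply]
    rw [eB_Wf _ _ _ ha, hKn a y l u1 s1 t1 hy]
    unfold cz
    rw [e0]
  · refine ⟨phC, fun {y l u1 s1 t1} hy hz {U} hU {δ S QA QB QC QE κ0 q Y} hB => ?_⟩
    have h1 := (hB.slim.C _ hz).comp (seq_nf ((AL.flt (p.y k)).mono_left hU))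
    refine h1.congr' ?_
    filter_upwards [(dia_ev (hp.2.1 k) (0, 1) (Or.inr (Or.inr rfl))).filter_mono hU] with a ha
    have e0 : fl a (p.y k) + (0, 1) = ((fl a (p.y k)).1, (fl a (p.y k)).2 + 1) := by ext <;> simp
    rw [e0] at ha
    simp only [Function.comp_apply]
    rw [eC_Wf _ _ _ ha, hKn a y l u1 s1 t1 hy]
    unfold cz
    rw [e0]

end Vale.Agent.P144.H135
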