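import Vale.Agent.P144.H135.Bulk16

/-!
The limits of the kernel of the fermions between energies: the fields `k3` and `k4` of `AL.KP`.
-/

namespace Vale.Agent.P144.H135

open Finset Vale.Agent.P144 Filter Topology
open Vale.Agent.P144.H436 (nn Good0 Rp_rM)
open Vale.Agent.P144.H170 (Pt pt tauF theF rM mem_rM rM_nodup tauR_rM nf ev_nf ev_nf_of pos cF RR RS
  RS_ne RS_cont RR_eq gs gs_sq gs_bdd VS phA phB phC phE Mk notMem_Mk pos_eq cF_lim)

variable {p : Pts}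

theorem Good0.geo (hp : Good0 p) (l : Fin p.m) : ∃ δ, Geo p.x (p.y l) δ :=
  exists_geo (H436.Good0.x_inj hp) hp.1 (hp.2.1 l) fun i h =>
    H436.Good0.xy_ne hp i l h.symm

theorem Geo.pat {κ : Type*} [Fintype κ] {ζ : κ → ℂ} {z' : ℂ} {δ : ℝ} (G : Geo ζ z' δ) :
    ∃ S, Metric.closedBall z' (24 * δ) ⊆ VS S F0 ζ w0 :=
  (G.pos (U := 𝓝[>] 0) le_rfl (0, 0)).pat

theorem Good0.nM (hp : Good0 p) (k : Fin p.m) : p.y k ∉ Mk p.x w0 := by
  rintro (⟨i, hi⟩ | ⟨q, -⟩)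
  · exact H436.Good0.xy_ne hp i k hi.symm
  · exact q.elim

theorem Good0.y_inj (hp : Good0 p) : Function.Injective p.y := fun i i' h =>
  Sum.inr_injective (hp.2.2 (by simpa using h))

/-- **Two energies.** -/
theorem k3 (hp : Good0 p) (k l : Fin p.m) (hkl : k ≠ l) (x y : AL.Lb p.n p.m)
    (hx : x = .lo k ∨ x = .hi k) (hy : y = .lo l ∨ y = .hi l) : ∃ c : ℂ, Tendsto (fun a : ℝ =>
      AL.rho p a x * AL.rho p a y * (AL.Kn p a x y : ℂ) / a) (𝓝[>] 0) (𝓝 c) := by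
  obtain ⟨u0, s, t, cx⟩ := exists_Ctp hx
  obtain ⟨u1, s1, t1, cy⟩ := exists_Ctp hy
  obtain ⟨δ, G⟩ := Good0.geo hp l
  obtain ⟨S, hS⟩ := G.pat
  obtain ⟨QA, QB, QC, QE, κ0, K⟩ := exists_ker u1 cy.cnr
  obtain ⟨φ, hφ⟩ := tgt hp cx
  have hzM := Good0.nM hp k
  have hz : p.y k ∈ (Dia \ {p.y l}) \ Mk p.x w0 :=
    ⟨⟨hp.2.1 k, fun h => hkl (Good0.y_inj hp h)⟩, hzM⟩
  obtain ⟨S', S'', hS'⟩ := H170.exists_pattern (ζ := p.x) (ω := w0) (z := p.y k)
    (notMem_Mk.1 hzM).1 (fun q => q.elim)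
  have e'' : S'' = F0 := funext fun q => q.elim
  rw [e''] at hS'
  have hzl : p.y l ∈ VS S F0 p.x w0 := hS (Metric.mem_closedBall_self (by
    have := G.δ0; positivity))
  -- the limit along an ultrafilter
  have key : ∀ (U : Ultrafilter ℝ) (_ : (U : Filter ℝ) ≤ 𝓝[>] 0) (q Y : ℂ → ℂ),
      BLim (U : Filter ℝ) (fun a => a) (rz p.x) p.x (cz (p.y l) u1) (p.y l) δ
      (fun a => bA (nn a) (fun i => rz p.x i a) (cz (p.y l) u1 a))
      (fun a => bB (nn a) (fun i => rz p.x i a) (cz (p.y l) u1 a))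
      (fun a => bC (nn a) (fun i => rz p.x i a) (cz (p.y l) u1 a))
      (fun a => bE (nn a) (fun i => rz p.x i a) (cz (p.y l) u1 a)) S QA QB QC QE κ0 q Y →
      Tendsto (fun a : ℝ => AL.rho p a x * AL.rho p a y * (AL.Kn p a x y : ℂ) / a) U
        (𝓝 (RS S F0 p.x w0 (p.y l) * (RS S' F0 p.x w0 (p.y k) *
          (φ (q (p.y k) / RS S' F0 p.x w0 (p.y k)) : ℂ)))) := by
    intro U hU q Y hB
    have h1 := hφ cy hz hU hB
    have h2 := rr_mul (a := fun a : ℝ => a) hU (r := rz p.x) (ζ := p.x)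
      (fun i => (AL.flt (p.x i)).mono_left hU) (w := fun a => fl a (p.y k))
      ((AL.flt (p.y k)).mono_left hU) hS' cx.hs h1
    have h3 := (src_rho cy hzl hU).mul h2
    refine h3.congr' (Eventually.of_forall fun a => ?_)
    rw [← rho_RR a cx]
    have h5 : (sg0 S (fun i => rz p.x i a) (cz (p.y l) u1 a) : ℂ) *
        sg0 S (fun i => rz p.x i a) (cz (p.y l) u1 a) = 1 := by
      rw [← Complex.ofReal_mul, sg0_sq]; simp
    push_cast
    rw [div_eq_mul_inv]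
    linear_combination (AL.rho p a y * AL.rho p a x * (a:ℂ)⁻¹ * (AL.Kn p a x y : ℂ)) * h5
  refine lim_of_ultra fun U V hU hV => ?_
  obtain ⟨q, Y, hB⟩ := G.blim hU cy.cnr K hS
  obtain ⟨q', Y', hB'⟩ := G.blim hV cy.cnr K hS
  obtain ⟨hq, -⟩ := blim_unique (G.pos hU u1) hS hB hB'
  refine ⟨_, key U hU q Y hB, ?_⟩
  rw [hq _ hz.1.1 hz.1.2]
  exact key V hV q' Y' hB'

/-- The positions without disorders. -/
theorem Geo.empty {κ : Type*} {ζ : κ → ℂ} {z' : ℂ} {δ : ℝ} (G : Geo ζ z' δ) : Geo w0 z' δ where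
  inj := fun q => q.elim
  dia := fun q => q.elim
  δ0 := G.δ0
  ball := G.ball
  far := fun q => q.elim

/-- The sign of the energy. -/
theorem sgn_ev {k : Fin p.m} {u1 : Site} {s1 t1 : ℝ} (cy : Ctp p (.hi k) k u1 s1 t1)
    {S : Fin p.n → Prop} (hz : p.y k ∈ VS S F0 p.x w0) :
    ∀ᶠ a in 𝓝[>] (0:ℝ), AL.sgn p a k = sg0 S (fun i => rz p.x i a) (cz (p.y k) u1 a) *
      gr S (fun i => rz p.x i a) ((fl a (p.y k)).1 + 1 / 4) := by
  classical
  have hT1 : ∀ a : ℝ, AL.Typ (fl a (p.y k)) (fl a (p.y k)) (1 / 4) := fun a => Or.inl ⟨rfl, rfl⟩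
  have hT2 : ∀ a : ℝ, AL.Typ (cz (p.y k) u1 a).1 (fl a (p.y k)) s1 := by
    intro a
    rcases cy.h with ⟨rfl, rfl, -⟩ | ⟨rfl, rfl, -⟩ | ⟨rfl, rfl, -⟩
    · exact Or.inl ⟨by simp [cz], rfl⟩
    · exact Or.inr ⟨by simp [cz], rfl⟩
    · exact Or.inl ⟨by simp [cz], rfl⟩
  have key : ∀ i, ∀ᶠ a in 𝓝[>] (0:ℝ),
      AL.ep (fl a (p.y k), fl a (p.y k)) (fl a (p.x i), fl a (p.x i)) *
        AL.ep ((cz (p.y k) u1 a).1, fl a (p.y k)) (fl a (p.x i), fl a (p.x i)) =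
      (if S i then H170.sg ((fl a (p.y k)).1 + s1 - (fl a (p.x i)).1 - 1 / 2) else 1) *
      (if S i then H170.sg ((fl a (p.y k)).1 + 1 / 4 - (fl a (p.x i)).1 - 1 / 2) else 1) := by
    intro i
    by_cases hi : S i
    · have h1 := (hz.1 i).1 hi
      have h2 : (p.y k - p.x i).re ≠ 0 ∨ 0 < (p.y k - p.x i).im := Or.inr h1
      filter_upwards [AL.ep_up AL.idt (AL.flt (p.y k)) (AL.flt (p.x i)) hT1 h2,
        AL.ep_up AL.idt (AL.flt (p.y k)) (AL.flt (p.x i)) hT2 h2] with a g1 g2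
      rw [g1, g2, if_pos hi, if_pos hi]
      ring
    · have h2 := (hz.1 i).2 hi
      filter_upwards [AL.ep_dn AL.idt (AL.flt (p.y k)) (AL.flt (p.x i)) hT1 h2,
        AL.ep_dn AL.idt (AL.flt (p.y k)) (AL.flt (p.x i)) hT2 h2] with a g1 g2
      have e : H170.sg (((fl a (p.y k)).1:ℝ) + 1 / 4 - (fl a (p.x i)).1) =
          H170.sg (((fl a (p.y k)).1:ℝ) + s1 - (fl a (p.x i)).1) := by
        have hs' := cy.hs
        rcases lt_or_ge (fl a (p.y k)).1 (fl a (p.x i)).1 with h1 | h1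
        · have h' : ((fl a (p.y k)).1 : ℝ) + 1 ≤ (fl a (p.x i)).1 := by exact_mod_cast h1
          rw [H170.sg_neg (by linarith),
            H170.sg_neg (by rcases hs' with hs | hs <;> rw [hs] <;> linarith)]
        · have h' : ((fl a (p.x i)).1 : ℝ) ≤ (fl a (p.y k)).1 := by exact_mod_cast h1
          rw [H170.sg_pos (by linarith),
            H170.sg_pos (by rcases hs' with hs | hs <;> rw [hs] <;> linarith)]
      rw [g1, g2, e, neg_mul_neg, H170.sg_sq, if_neg hi, if_neg hi, one_mul]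
  filter_upwards [eventually_all.2 key] with a ha
  have e1 : AL.sgn p a k = ∏ i, AL.ep (AL.cnp p a (.lo k)) (fl a (p.x i), fl a (p.x i)) *
      AL.ep (AL.cnp p a (.hi k)) (fl a (p.x i), fl a (p.x i)) := by
    unfold AL.sgn AL.srcs
    rw [List.map_map]
    exact (Fin.prod_univ_def fun i : Fin p.n =>
      AL.ep (AL.cnp p a (.lo k)) (fl a (p.x i), fl a (p.x i)) *
      AL.ep (AL.cnp p a (.hi k)) (fl a (p.x i), fl a (p.x i))).symm
  rw [e1, cy.sg0]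
  unfold gr gs
  simp only [Finset.univ_eq_empty, Finset.prod_empty, mul_one]
  rw [← prod_mul_distrib]
  refine prod_congr rfl fun i _ => ?_
  rw [cy.c]
  exact ha i

theorem rM_empty (r : Empty → Site) : rM r = 0 := by
  unfold rM
  simp

/-- **The two corners of an energy.** -/
theorem k4 (hp : Good0 p) (k : Fin p.m) : ∃ c : ℂ, Tendsto (fun a : ℝ =>
    AL.rho p a (.lo k) * AL.rho p a (.hi k) * ((AL.Kn p a (.lo k) (.hi k) -
      AL.sgn p a k * AL.Wf (dia (nn a)) 0 [AL.cnp p a (.lo k), AL.cnp p a (.hi k)] : ℝ) : ℂ) / a)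
      (𝓝[>] 0) (𝓝 c) := by
  obtain ⟨u1, s1, t1, cy⟩ := exists_Ctp (p := p) (x := .hi k) (k := k) (Or.inr rfl)
  have cx := ct_lo (p := p) k
  obtain ⟨δ, G⟩ := Good0.geo hp k
  obtain ⟨S, hS⟩ := G.pat
  obtain ⟨QA, QB, QC, QE, κ0, K⟩ := exists_ker u1 cy.cnr
  have G0 := G.empty
  have hδ := G.δ0
  have hS0 : Metric.closedBall (p.y k) (24 * δ) ⊆ VS F0 F0 w0 w0 := fun z _ =>
    ⟨fun q => q.elim, fun q => q.elim⟩
  have hzb : p.y k ∈ Metric.closedBall (p.y k) (24 * δ) := Metric.mem_closedBall_self (by positivity)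
  have hzo : p.y k ∈ Metric.ball (p.y k) (24 * δ) := Metric.mem_ball_self (by positivity)
  have hz : p.y k ∈ VS S F0 p.x w0 := hS hzb
  have hKn : ∀ a : ℝ, AL.Kn p a (.lo k) (.hi k) = AL.Wf (dia (nn a)) (rM fun i => rz p.x i a)
      [(fl a (p.y k), fl a (p.y k)), cz (p.y k) u1 a] := by
    intro a
    unfold AL.Kn
    rw [Rp_rM, cy.c]
    rfl
  have hK0 : ∀ a : ℝ, AL.Wf (dia (nn a)) 0 [AL.cnp p a (.lo k), AL.cnp p a (.hi k)] =
      AL.Wf (dia (nn a)) (rM fun q => rz w0 q a)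
      [(fl a (p.y k), fl a (p.y k)), cz (p.y k) u1 a] := by
    intro a
    rw [rM_empty, cy.c]
    rfl
  -- the limit along an ultrafilter
  have key : ∀ (U : Ultrafilter ℝ) (_ : (U : Filter ℝ) ≤ 𝓝[>] 0) (q Y q0 Y0 : ℂ → ℂ),
      BLim (U : Filter ℝ) (fun a => a) (rz p.x) p.x (cz (p.y k) u1) (p.y k) δ
      (fun a => bA (nn a) (fun i => rz p.x i a) (cz (p.y k) u1 a))
      (fun a => bB (nn a) (fun i => rz p.x i a) (cz (p.y k) u1 a))
      (fun a => bC (nn a) (fun i => rz p.x i a) (cz (p.y k) u1 a))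
      (fun a => bE (nn a) (fun i => rz p.x i a) (cz (p.y k) u1 a)) S QA QB QC QE κ0 q Y →
      BLim (U : Filter ℝ) (fun a => a) (rz w0) w0 (cz (p.y k) u1) (p.y k) δ
      (fun a => bA (nn a) (fun i => rz w0 i a) (cz (p.y k) u1 a))
      (fun a => bB (nn a) (fun i => rz w0 i a) (cz (p.y k) u1 a))
      (fun a => bC (nn a) (fun i => rz w0 i a) (cz (p.y k) u1 a))
      (fun a => bE (nn a) (fun i => rz w0 i a) (cz (p.y k) u1 a)) F0 QA QB QC QE κ0 q0 Y0 →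
      Tendsto (fun a : ℝ => AL.rho p a (.lo k) * AL.rho p a (.hi k) *
        ((AL.Kn p a (.lo k) (.hi k) -
        AL.sgn p a k * AL.Wf (dia (nn a)) 0 [AL.cnp p a (.lo k), AL.cnp p a (.hi k)] : ℝ) : ℂ) / a)
        U (𝓝 (RS S F0 p.x w0 (p.y k) * (RS S F0 p.x w0 (p.y k)) *
          ((phA (Y (p.y k)) - phA (Y0 (p.y k)) : ℝ) : ℂ))) := by
    intro U hU q Y q0 Y0 hB hB0
    have h1 := (hB.A _ hzo).comp (seq_nf ((AL.flt (p.y k)).mono_left hU))
    have h2 := (hB0.A _ hzo).comp (seq_nf ((AL.flt (p.y k)).mono_left hU))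
    have h3 := h1.sub h2
    have r1 := src_rho cx hz hU
    have r2 := src_rho cy hz hU
    have h4 := (r1.mul r2).mul ((Complex.continuous_ofReal.tendsto _).comp h3)
    refine h4.congr' ?_
    filter_upwards [(sgn_ev cy hz).filter_mono hU,
      (dia_ev (hp.2.1 k) (0, 0) (Or.inl rfl)).filter_mono hU] with a g1 g2
    have e0 : fl a (p.y k) + (0, 0) = fl a (p.y k) := by ext <;> simp
    rw [e0] at g2
    simp only [Function.comp_apply]
    rw [eA_Wf _ _ _ g2, eA_Wf _ _ _ g2, hKn, hK0, g1]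
    have e1 : sg0 F0 (fun q => rz w0 q a) (cz (p.y k) u1 a) = 1 := by
      unfold sg0 gs
      simp
    have e2 : gr F0 (fun q => rz w0 q a) ((fl a (p.y k)).1 + 1 / 4) = 1 := by
      unfold gr gs
      simp
    have e3 : sg0 S (fun i => rz p.x i a) (cz (p.y k) (0, 0) a) =
        gr S (fun i => rz p.x i a) ((fl a (p.y k)).1 + 1 / 4) := by
      rw [cx.sg0]
      unfold gr
      have e : (fun q : Empty => (q.elim : Site)) = fun q => v0 q a := by
        funext q; exact q.elim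
      rw [e]
      rfl
    rw [e1, e2, e3]
    have s1 : (sg0 S (fun i => rz p.x i a) (cz (p.y k) u1 a) : ℂ) *
        sg0 S (fun i => rz p.x i a) (cz (p.y k) u1 a) = 1 := by
      rw [← Complex.ofReal_mul, sg0_sq]; simp
    have s2 : (gr S (fun i => rz p.x i a) ((fl a (p.y k)).1 + 1 / 4) : ℂ) *
        gr S (fun i => rz p.x i a) ((fl a (p.y k)).1 + 1 / 4) = 1 := by
      rw [← Complex.ofReal_mul, gr_sq]; simp
    generalize AL.Wf (dia (nn a)) (rM fun i => rz p.x i a)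
      [(fl a (p.y k), fl a (p.y k)), cz (p.y k) u1 a] = W1
    generalize AL.Wf (dia (nn a)) (rM fun i => rz w0 i a)
      [(fl a (p.y k), fl a (p.y k)), cz (p.y k) u1 a] = W2
    generalize sg0 S (fun i => rz p.x i a) (cz (p.y k) u1 a) = σ at s1 ⊢
    generalize gr S (fun i => rz p.x i a) ((fl a (p.y k)).1 + 1 / 4) = g at s2 ⊢
    generalize AL.rho p a (.lo k) = ρ1
    generalize AL.rho p a (.hi k) = ρ2
    push_cast
    rw [div_eq_mul_inv]
    linear_combination (ρ1 * ρ2 * (a:ℂ)⁻¹ * W1 * (g:ℂ) * g) * s1 + (ρ1 * ρ2 * (a:ℂ)⁻¹ * W1) * s2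
  refine lim_of_ultra fun U V hU hV => ?_
  obtain ⟨q, Y, hB⟩ := G.blim hU cy.cnr K hS
  obtain ⟨q', Y', hB'⟩ := G.blim hV cy.cnr K hS
  obtain ⟨q0, Y0, hB0⟩ := G0.blim hU cy.cnr K hS0
  obtain ⟨q0', Y0', hB0'⟩ := G0.blim hV cy.cnr K hS0
  obtain ⟨-, hY⟩ := blim_unique (G.pos hU u1) hS hB hB'
  obtain ⟨-, hY0⟩ := blim_unique (G0.pos hU u1) hS0 hB0 hB0'
  refine ⟨_, key U hU q Y q0 Y0 hB hB0, ?_⟩
  rw [hY _ hzo, hY0 _ hzo]
  exact key V hV q' Y' q0' Y0' hB' hB0'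

end Vale.Agent.P144.H135
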