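import Vale.Agent.P144.H135.Bulk1

/-!
Spinors with a source in the bulk: masses and `ℓ²` bounds outside a ball.
-/

namespace Vale.Agent.P144.H135

open Finset Vale.Agent.P144 Filter Topology
open Vale.Agent.P144.H170 (Pt pt bx mem_bx bx_mono tauF theF tauF_step n1 L2ball lap D
  pt_fl_norm pt_sub_norm pt_sub_norm' near_dia nf ev_nf apos_nf)

variable {ι κ : Type*} [Fintype κ] {l : Filter ι} {a : ι → ℝ} {N : ι → ℕ} {r : κ → ι → Site}
  {ζ : κ → ℂ} {c : ι → AL.Cn} {z' : ℂ} {δ : ℝ} {A B C E Hs Hf : ι → Pt → ℝ} {L : ι → ℝ}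

/-- The size of the boxes. -/
noncomputable def nb (δ a : ℝ) : ℕ := ⌊δ / a⌋₊

/-- The bound on the annulus. -/
def Ann (δ : ℝ) (a : ℝ) (c : AL.Cn) (Hs Hf : Pt → ℝ) (L : ℝ) : Prop :=
  ∀ x ∈ bx c.2 (8 * nb δ a), x ∉ bx c.2 (nb δ a - 1) → |Hs x| ≤ L ∧ |Hf x| ≤ L

theorem nb_le {δ a : ℝ} (hδ : 0 < δ) (ha : 0 < a) : a * nb δ a ≤ δ := by
  have := Nat.floor_le (a := δ / a) (by positivity)
  calc a * nb δ a ≤ a * (δ / a) := mul_le_mul_of_nonneg_left this ha.le
    _ = δ := by field_simp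

theorem nb_gt {δ a : ℝ} (ha : 0 < a) : δ < a * (nb δ a + 1) := by
  have := Nat.lt_floor_add_one (δ / a)
  calc δ = a * (δ / a) := by field_simp
    _ < a * (nb δ a + 1) := mul_lt_mul_of_pos_left this ha

theorem nb_pos {δ a : ℝ} (ha : 0 < a) (h : a < δ) : 0 < nb δ a := by
  refine Nat.floor_pos.2 ?_
  rw [le_div_iff₀ ha]; linarith

variable (h : Pos l a N r ζ c z' δ)
  (hB : ∀ᶠ k in l, BD (N k) (fun p => r p k) (c k) (A k) (B k) (C k) (E k) (Hs k) (Hf k))
  (hL0 : ∀ᶠ k in l, 0 < L k) (hL : ∀ᶠ k in l, Ann δ (a k) (c k) (Hs k) (Hf k) (L k))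

include h hB hL0 hL

/-- The masses outside a box. -/
theorem masses : ∀ᶠ k in l, ∀ T : Finset Site,
    ∑ w ∈ T, |lap (fun x => (1 - CT (c k).2 (2 * nb δ (a k)) x) * Hs k x) w| ≤ 80000 * L k ∧
    ∑ w ∈ T, |lap (fun x => (1 - CT (c k).2 (2 * nb δ (a k)) x) * Hf k x) w| ≤ 80000 * L k := by
  classical
  have hc : ∀ᶠ k in l, (c k).1 ∈ AL.cnr (c k).2 := by
    filter_upwards [hB] with k hk
    exact hk.cnr
  filter_upwards [h.exc hc, hB, hL0, hL, h.apos, h.asmall (show 0 < δ / 100 from by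
    have := h.δ0; positivity), h.inDia, h.rfar, h.gclose (show 0 < δ from h.δ0)]
    with k k1 k2 k3 k4 k5 k6 k7 k8 k9 T
  have hδ := h.δ0
  have n0 : 0 < nb δ (a k) := nb_pos k5 (by linarith)
  have n1 := nb_le hδ k5
  have key := mass_cut k2.spr k2.isH k1 n0 k3.le (c := (c k).2) ?_ ?_ ?_ ?_
    (fun x h1 h2 => (k4 x h1 h2).1) (fun x h1 h2 => (k4 x h1 h2).2) T
  · have p1 : 0 ≤ ∑ w ∈ T, |lap (fun x => (1 - CT (c k).2 (2 * nb δ (a k)) x) * Hs k x) w| :=
      sum_nonneg fun _ _ => abs_nonneg _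
    have p2 : 0 ≤ ∑ w ∈ T, |lap (fun x => (1 - CT (c k).2 (2 * nb δ (a k)) x) * Hf k x) w| :=
      sum_nonneg fun _ _ => abs_nonneg _
    constructor <;> linarith
  · intro v hv
    rw [mem_singleton] at hv
    rw [hv, mem_bx]
    rcases AL.mem_cnr.1 k2.cnr with h6 | h6 | h6 | h6 <;> rw [h6] <;> simp <;> lia
  · intro f hf
    rw [Finset.mem_sdiff, Finset.mem_insert] at hf
    rcases hf.1 with h1 | h1
    · rw [h1]; exact H170.self_mem_bx _ _
    · exact absurd h1 hf.2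
  · intro f hf hbx
    rw [mem_image] at hf
    obtain ⟨p, -, rfl⟩ := hf
    have h1 := norm_of_bx k5 hbx
    have h2 := k8 p
    push_cast at h1
    linarith
  · intro x hx
    refine k7 x ?_
    have h1 := norm_of_bx k5 hx
    have h2 := norm_sub_le_norm_sub_add_norm_sub (pt (a k) x) (pt (a k) (c k).2) z'
    push_cast at h1
    linarith

/-- `ℓ²` bounds outside the ball. -/
theorem l2_out {z : ℂ} {ρ : ℝ} (hρ : 0 < ρ) (hz : ∀ w, ‖w - z‖ ≤ ρ → 9 * δ < ‖w - z'‖)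
    {X : ι → Pt → ℝ} (hX : ∀ k x, X k x ^ 2 ≤ A k x ^ 2 + B k x ^ 2 + C k x ^ 2 + E k x ^ 2) :
    L2ball l a z ρ (8 * 92160000 * ρ) (fun k x => (√(a k * L k))⁻¹ * X k x) := by
  classical
  have hδ := h.δ0
  set X' : ι → Pt → ℝ := fun k x => if x ∉ bx (c k).2 (4 * nb δ (a k) + 2) then
    (√(L k))⁻¹ * X k x else 0 with hX'
  have hbox : ∀ᶠ k in l, ∀ c' n, ∑ x ∈ bx c' n, X' k x ^ 2 ≤ 92160000 * (n + 2) := by
    filter_upwards [masses h hB hL0 hL, hB, hL0, h.apos, h.asmall (show 0 < δ / 100 from by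
      positivity)] with k k1 k2 k3 k5 k6 c' n
    have n0 : 0 < nb δ (a k) := nb_pos k5 (by linarith)
    have hf0 : ∀ x ∉ Vale.Agent.P144.dia (N k), Hf k x = 0 := fun x hx =>
      k2.spr.Hf_zero k2.isH (v := x) (by simp [AL.mem_cnr]) hx
    have e0 : ∀ x ∉ bx (c k).2 (4 * nb δ (a k)), 1 - CT (c k).2 (2 * nb δ (a k)) x = 1 := by
      intro x hx
      rw [CT_zero (by lia) fun h' => hx (bx_mono (by lia) h'), sub_zero]
    have key := sum_sq_out k2.spr k2.isH (c := (c k).2) (m := 4 * nb δ (a k))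
      (U := fun x => (1 - CT (c k).2 (2 * nb δ (a k)) x) * Hs k x)
      (W := fun x => (1 - CT (c k).2 (2 * nb δ (a k)) x) * Hf k x)
      (fun x hx => by simp only [k2.isH.out x hx, mul_zero])
      (fun x hx => by simp only [hf0 x hx, mul_zero])
      (fun x hx => by simp only [e0 x hx, one_mul]) (fun x hx => by simp only [e0 x hx, one_mul])
      (M := 80000 * L k) (fun T => (k1 T).1) (fun T => (k1 T).2) c' n
      ((bx c' n).filter fun x => x ∉ bx (c k).2 (4 * nb δ (a k) + 2))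
      (fun x hx => ⟨(mem_filter.1 hx).1, (mem_filter.1 hx).2⟩)
    have e1 : ∑ x ∈ bx c' n, X' k x ^ 2 = (L k)⁻¹ *
        ∑ x ∈ (bx c' n).filter (fun x => x ∉ bx (c k).2 (4 * nb δ (a k) + 2)), X k x ^ 2 := by
      rw [mul_sum, sum_filter]
      refine sum_congr rfl fun x _ => ?_
      simp only [hX']
      split_ifs
      · norm_num
      · rw [mul_pow, inv_pow, Real.sq_sqrt k3.le]
    rw [e1]
    have h2 := (sum_le_sum fun x (_ : x ∈ (bx c' n).filter
      (fun x => x ∉ bx (c k).2 (4 * nb δ (a k) + 2))) => hX k x).trans key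
    calc (L k)⁻¹ * ∑ x ∈ (bx c' n).filter (fun x => x ∉ bx (c k).2 (4 * nb δ (a k) + 2)),
          X k x ^ 2 ≤ (L k)⁻¹ * (1152 * (80000 * L k) * (n + 2)) :=
          mul_le_mul_of_nonneg_left h2 (by positivity)
      _ = 92160000 * (n + 2) := by field_simp; norm_num
  have h1 := H170.l2_of_box h.a0 (by norm_num) hbox z hρ
  filter_upwards [h1, h.apos, h.asmall (show 0 < δ / 100 from by positivity),
    h.gclose (show 0 < δ / 100 from by positivity), hL0] with k k1 k5 k6 k7 k8 S hS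
  refine le_trans (le_of_eq ?_) (k1 S hS)
  congr 1
  refine sum_congr rfl fun x hx => ?_
  have h2 := hz _ (hS x hx)
  have h3 : x ∉ bx (c k).2 (4 * nb δ (a k) + 2) := by
    intro hbx
    have h4 := norm_of_bx k5 hbx
    have h5 := norm_sub_le_norm_sub_add_norm_sub (pt (a k) x) (pt (a k) (c k).2) z'
    have n1 := nb_le hδ k5
    push_cast at h4
    linarith
  simp only [hX', if_pos h3]
  rw [Real.sqrt_mul k5.le, mul_inv]
  ring

end Vale.Agent.P144.H135
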