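import Vale.Agent.P144.H135.Bulk2

/-!
Spinors with a source in the bulk: the relations away from the source, and the clean relations of
the difference to the kernel of the plane.
-/

namespace Vale.Agent.P144.H135

open Finset Vale.Agent.P144 Filter Topology
open Vale.Agent.P144.H170 (Pt pt bx mem_bx bx_mono tauF theF tauF_step n1 L2ball lap D
  pt_fl_norm pt_sub_norm pt_sub_norm' near_dia nf ev_nf apos_nf SRel RelB gs gs_sq VS Clean
  gauge_signs exists_pattern_ball Rel CR4 tendsto_fst_nf)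

/-- No spins. -/
def v0 {ι : Type*} : Empty → ι → Site := fun q => q.elim
def w0 : Empty → ℂ := fun q => q.elim

theorem theF_v0 {ι : Type*} (k : ι) (x : Pt) : theF (fun q => v0 q k) x = 1 := by
  unfold theF; simp

/-- The relations of the fields with the sign of the side of the broken line. -/
theorem srel_ep {m : ℤ → ℤ → Prop} {c' : AL.Cn} (hc' : c'.1 ∈ AL.cnr c'.2) {t th A B C E : Pt → ℝ}
    {i j : ℤ} (h : SRel m (fun x => AL.cut1 c'.2 (x.1, x.2 + 1) * t x)
      (fun x => chi (AL.sw x.1 x.2) c'.1) A B C E i j) (hth : th (i, j) = 1) (h1 : c'.2 ≠ (i, j))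
    (h2 : c'.2 ≠ (i, j + 1)) : SRel m t th (eA c' A) (eB c' B) (eC c' C) (eE c' E) i j := by
  obtain ⟨v1, v2, v3⟩ := AL.ep_V i j hc'
  obtain ⟨w1, w2, w3⟩ := AL.ep_H i j hc'
  have n1 : ∀ v : Site, sn c' (v, (i, j)) = 1 := fun v => sn_ne fun h => h1 (by rw [← h])
  have n2 : ∀ v : Site, sn c' (v, (i, j + 1)) = 1 := fun v => sn_ne fun h => h2 (by rw [← h])
  rw [et_eq, et_eq, n1, n2, mul_one, mul_one] at v1 v2
  rw [et_eq, et_eq, n2, n2, mul_one, mul_one] at v3
  have cc := AL.cut1_sq c'.2 (i, j + 1)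
  have v4 : AL.cut1 c'.2 (i, j + 1) * AL.ep ((i, j + 1), (i, j + 1)) c' =
      AL.ep ((i + 1, j + 1), (i, j + 1)) c' := by
    rw [v3]; linear_combination (AL.ep ((i + 1, j + 1), (i, j + 1)) c') * cc
  have ch := chi_sq (AL.sw i j) c'.1
  refine ⟨fun a b => ?_, fun a => ?_, fun a b => ?_, fun a => ?_, fun a => ?_, fun a => ?_,
    fun a => ?_, fun a => ?_⟩
  · obtain ⟨k1, k2⟩ := h.V a b
    unfold eA eB eC eE
    simp only
    rw [k1, k2]
    constructor
    · rw [v1]
      linear_combination (-(t (i, j) * B (i, j + 1))) * v4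
    · rw [v2]
      linear_combination (t (i, j) * A (i, j + 1)) * v3
  · obtain ⟨k1, k2⟩ := h.V0 a
    unfold eA eB eC eE
    simp only
    rw [k1, k2, v1, v2]
    exact ⟨rfl, rfl⟩
  · obtain ⟨k1, k2⟩ := h.H a b
    simp only at k1 k2
    unfold eA eB eC eE
    simp only
    rw [k1, k2, w1, w2, w3, hth]
    constructor
    · linear_combination (AL.ep ((i + 1, j), (i + 1, j)) c' * (√2 * A (i + 1, j) -
        C (i + 1, j))) * ch
    · linear_combination (-AL.ep ((i + 1, j), (i + 1, j)) c' * (√2 * C (i + 1, j) -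
        A (i + 1, j))) * ch
  · obtain ⟨k1, k2⟩ := h.H0 a
    simp only at k1 k2
    unfold eA eB eC eE
    simp only
    rw [k1, k2, w1, w2, w3, hth]
    constructor
    · linear_combination (AL.ep ((i + 1, j), (i + 1, j)) c' * A (i + 1, j)) * ch
    · linear_combination (-AL.ep ((i + 1, j), (i + 1, j)) c' * C (i + 1, j)) * ch
  · unfold eA; rw [h.zA a, mul_zero]
  · unfold eB; rw [h.zB a, mul_zero]
  · unfold eC; rw [h.zC a, mul_zero]
  · unfold eE; rw [h.zE a, mul_zero]

section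

variable {ι κ : Type*} [Fintype κ] {l : Filter ι} {a : ι → ℝ} {N : ι → ℕ} {r : κ → ι → Site}
  {ζ : κ → ℂ} {c : ι → AL.Cn} {z' : ℂ} {δ : ℝ} {A B C E Hs Hf : ι → Pt → ℝ}

variable (h : Pos l a N r ζ c z' δ)
  (hB : ∀ᶠ k in l, BD (N k) (fun p => r p k) (c k) (A k) (B k) (C k) (E k) (Hs k) (Hf k))

include h hB

/-- The relations hold away from the source, up to the boundary of the diamond. -/
theorem relB_ep (s : ι → ℝ) : RelB l a N {z'}ᶜ r v0 (fun k x => s k * eA (c k) (A k) x)
    (fun k x => s k * eB (c k) (B k) x) (fun k x => s k * eC (c k) (C k) x)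
    (fun k x => s k * eE (c k) (E k) x) := by
  intro z hz
  have hne : ∀ e : Pt, ∀ᶠ kx in nf l a z, (c kx.1).2 ≠ kx.2 + e := by
    intro e
    have hw : Tendsto (fun kx : ι × Pt => pt (a kx.1) (kx.2 + e) - pt (a kx.1) (c kx.1).2)
        (nf l a z) (𝓝 (z - z')) := by
      have h1 := (H170.tendsto_pt_nf (l := l) (a := a) z).sub (h.hg.comp (tendsto_fst_nf z))
      have h2 : Tendsto (fun kx : ι × Pt => pt (a kx.1) e) (nf l a z) (𝓝 0) := by
        have : Tendsto (fun kx : ι × Pt => ((a kx.1 : ℝ) : ℂ) * pt 1 e) (nf l a z) (𝓝 (0 * pt 1 e)) :=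
          ((Complex.continuous_ofReal.tendsto _).comp (H170.a_nf h.a0 z)).mul_const _
        rw [zero_mul] at this
        exact this.congr fun kx => (pt_smul _ _).symm
      have h3 := h1.add h2
      rw [add_zero] at h3
      refine h3.congr fun kx => ?_
      rw [pt_add]
      simp only [Function.comp_apply]
      ring
    filter_upwards [hw.eventually_ne (sub_ne_zero.2 hz)] with kx h1 h2
    rw [h2, sub_self] at h1
    exact h1 rfl
  filter_upwards [H170.ev_nf_of (l := l) (a := a) (z := z) hB, hne 0, hne (0, 1)] with kx k1 k2 k3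
  obtain ⟨k, i, j⟩ := kx
  simp only at k1 k2 k3 ⊢
  rw [add_zero] at k2
  have h1 := SRel.of_spr k1.spr i j
  refine (srel_ep k1.cnr h1 (theF_v0 k _) k2 ?_).smul (s k)
  simpa using k3

/-- The sign of the gauge at the source. -/
noncomputable def sg0 (S : κ → Prop) (r : κ → Site) (c : AL.Cn) : ℝ :=
  if c.1.1 = c.2.1 then gs S (fun _ : Empty => False) r (fun q : Empty => q.elim) ((c.2.1:ℝ) + 1 / 4)
  else gs S (fun _ : Empty => False) r (fun q : Empty => q.elim) ((c.2.1:ℝ) + 3 / 4)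

omit h hB in
theorem sg0_sq (S : κ → Prop) (r : κ → Site) (c : AL.Cn) : sg0 S r c * sg0 S r c = 1 := by
  unfold sg0; split_ifs <;> exact gs_sq _ _ _ _ _

/-- The gauge function of the disorders. -/
noncomputable def gr (S : κ → Prop) (r : κ → Site) (t : ℝ) : ℝ :=
  gs S (fun _ : Empty => False) r (fun q : Empty => q.elim) t

omit h hB in
theorem gr_sq (S : κ → Prop) (r : κ → Site) (t : ℝ) : gr S r t * gr S r t = 1 := gs_sq _ _ _ _ _

/-- The difference to the kernel of the plane satisfies the clean relations. -/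
theorem Y_clean {u0 : Site} {QA QB QC QE : Pt → ℝ} {κ0 : ℂ} (K : PKr u0 QA QB QC QE κ0)
    (hu : ∀ᶠ k in l, (c k).1 = (c k).2 + u0) {S : κ → Prop}
    (hS : Metric.closedBall z' (24 * δ) ⊆ VS S (fun _ : Empty => False) ζ w0) :
    Clean l a (Metric.ball z' (24 * δ))
      (fun k y => sg0 S (fun p => r p k) (c k) * (gr S (fun p => r p k) ((y.1:ℝ) + 1 / 4) *
        eA (c k) (A k) y) - QA (y - (c k).2))
      (fun k y => sg0 S (fun p => r p k) (c k) * (gr S (fun p => r p k) ((y.1:ℝ) + 3 / 4) *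
        eB (c k) (B k) y) - QB (y - (c k).2))
      (fun k y => sg0 S (fun p => r p k) (c k) * (gr S (fun p => r p k) ((y.1:ℝ) + 1 / 4) *
        eC (c k) (C k) y) - QC (y - (c k).2))
      (fun k y => sg0 S (fun p => r p k) (c k) * (gr S (fun p => r p k) ((y.1:ℝ) + 3 / 4) *
        eE (c k) (E k) y) - QE (y - (c k).2)) := by
  intro z hz
  have hz1 : z ∈ Metric.closedBall z' (24 * δ) := Metric.ball_subset_closedBall hz
  have hzD : z ∈ Dia := h.ball z (by
    rw [Metric.mem_closedBall, dist_eq_norm] at hz1; exact hz1)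
  have g1 := gauge_signs h.a0 h.hr (v := v0) (ω := w0) (fun q => q.elim) (hS hz1)
  refine (ev_nf (P := fun k x => CR4 _ _ _ _ x)).1 ?_
  filter_upwards [g1, near_dia h.a0 h.hN hzD 1, H170.ev_nf_of (l := l) (a := a) (z := z) hB,
    H170.ev_nf_of (l := l) (a := a) (z := z) hu] with kx k1 k2 k3 k4
  obtain ⟨k, i, j⟩ := kx
  simp only at k1 k2 k3 k4 ⊢
  rw [theF_v0] at k1
  have m1 := k2 (i, j + 1) (by simp) (by simp)
  have m2 := k2 (i + 1, j + 1) (by simp) (by simp)
  have m3 := k2 (i + 1, j) (by simp) (by simp)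
  have e1 := k3.spr.V i j (mem_hor.2 ⟨m1, m2⟩)
  have e2 := k3.spr.H i j (mem_ver.2 ⟨m3, m2⟩)
  have hu0 : (c k).1 - (c k).2 = u0 := by rw [k4]; simp
  refine diff_clean (gA := fun y => gr S (fun p => r p k) ((y.1:ℝ) + 1 / 4))
    (gB := fun y => gr S (fun p => r p k) ((y.1:ℝ) + 3 / 4)) (t := tauF fun p => r p k)
    (th := fun _ => 1) (κ := κ0) (by rw [hu0]; exact K) ?_ k3.cnr ?_ k1.1 ?_
    (fun y => gr_sq _ _ _) (fun y => gr_sq _ _ _) ?_ ?_
  · refine ⟨fun hh => ?_, fun hh => ?_, fun hh => ?_, fun hh => ?_⟩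
    · have hc1 : (c k).1.1 = (c k).2.1 := by rw [← hh]
      rw [k3.sA hh, mul_one]
      simp only [sg0, if_pos hc1]
      exact gs_sq _ _ _ _ _
    · have hc1 : ¬ (c k).1.1 = (c k).2.1 := by
        have : (c k).1.1 = (c k).2.1 + 1 := by rw [← hh]
        rw [this]; simp
      rw [k3.sB hh, mul_one]
      simp only [sg0, if_neg hc1]
      exact gs_sq _ _ _ _ _
    · have hc1 : (c k).1.1 = (c k).2.1 := by rw [← hh]
      rw [k3.sC hh, mul_one]
      simp only [sg0, if_pos hc1]
      exact gs_sq _ _ _ _ _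
    · have hc1 : ¬ (c k).1.1 = (c k).2.1 := by
        have : (c k).1.1 = (c k).2.1 + 1 := by rw [← hh]
        rw [this]; simp
      rw [k3.sE hh, mul_one]
      simp only [sg0, if_neg hc1]
      exact gs_sq _ _ _ _ _
  · unfold H170.Rel
    simp only [mul_one, Prod.mk_add_mk, add_zero]
    exact ⟨e1.1, e1.2, e2.1, e2.2⟩
  · have := k1.2
    simp only [Prod.mk_add_mk, add_zero]
    push_cast
    rw [show (i:ℝ) + 1 + 1 / 4 = (i:ℝ) + 5 / 4 by ring]
    exact this
  · simp
  · simp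

end

end Vale.Agent.P144.H135
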