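import Vale.Agent.P144.H135.Bulk3

/-!
The limit of a spinor near its source.
-/

namespace Vale.Agent.P144.H135

open Finset Vale.Agent.P144 Filter Topology
open Vale.Agent.P144.H170 (Pt pt bx mem_bx bx_mono L2ball lap D L2on LocB LocL2 CConv cconv_iff
  pt_fl_norm pt_sub_norm pt_sub_norm' nf ev_nf apos_nf Clean CR4 CR9 clean_lim tendsto_fst_nf
  phA phB phC phE phA_apply phB_apply phC_apply phE_apply a_nf ev_nf_of)

variable {ι : Type*} {a : ι → ℝ} {l : Filter ι}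

/-- Locally bounded functions are locally bounded in `ℓ²`. -/
theorem L2on.of_bdd (ha : Tendsto a l (𝓝[>] 0)) {U : Set ℂ} {h : ι → Pt → ℝ}
    (hh : ∀ z ∈ U, ∃ r > 0, ∃ M, ∀ᶠ k in l, ∀ x, ‖pt (a k) x - z‖ ≤ r → |h k x| ≤ M) :
    L2on l a U h := by
  intro z hz
  obtain ⟨r, hr, M, hM⟩ := hh z hz
  refine ⟨r, hr, 225 * r ^ 2 * M ^ 2, ?_⟩
  have ha0 : ∀ᶠ k in l, 0 < a k := ha.eventually self_mem_nhdsWithin
  have ha1 : ∀ᶠ k in l, a k < r / 2 :=
    (ha.mono_right nhdsWithin_le_nhds).eventually (gt_mem_nhds (by positivity))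
  filter_upwards [hM, ha0, ha1] with k hk h0 h1 S hS
  set n : ℕ := ⌈2 * r / a k⌉₊ + 4 with hn
  have hn1 : (n:ℝ) ≤ 2 * r / a k + 5 := by
    have := (Nat.ceil_lt_add_one (show 0 ≤ 2 * r / a k by positivity)).le
    rw [hn]; push_cast; linarith
  have hn2 : 2 * r / a k + 4 ≤ (n:ℝ) := by
    have := Nat.le_ceil (2 * r / a k)
    rw [hn]; push_cast; linarith
  have hsub : S ⊆ bx (fl (a k) z) n := by
    intro x hx
    have k1 := hS x hx
    have k2 := pt_fl_norm h0 z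
    have k3 : ‖pt (a k) x - pt (a k) (fl (a k) z)‖ ≤ r + 2 * a k := by
      have := norm_sub_le_norm_sub_add_norm_sub (pt (a k) x) z (pt (a k) (fl (a k) z))
      rw [norm_sub_rev z] at this
      linarith
    by_contra hc
    have k4 := norm_of_not_bx h0 hc
    have k5 : a k * (2 * r / a k + 4 + 1) ≤ a k * (n + 1) :=
      mul_le_mul_of_nonneg_left (by linarith) h0.le
    have e : a k * (2 * r / a k + 4 + 1) = 2 * r + 5 * a k := by field_simp; ring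
    linarith
  have hcard : (S.card : ℝ) ≤ (2 * n + 1) ^ 2 := by
    rw [← card_bx (fl (a k) z) n]
    exact_mod_cast card_le_card hsub
  have hsum : ∑ x ∈ S, h k x ^ 2 ≤ S.card * M ^ 2 := by
    rw [← nsmul_eq_mul]
    refine sum_le_card_nsmul _ _ _ fun x hx => ?_
    have := hk x (hS x hx)
    rw [← sq_abs]
    exact pow_le_pow_left₀ (abs_nonneg _) this 2
  have h2 : a k * (2 * n + 1) ≤ 15 * r := by
    calc a k * (2 * n + 1) ≤ a k * (2 * (2 * r / a k + 5) + 1) :=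
          mul_le_mul_of_nonneg_left (by linarith) h0.le
      _ = 4 * r + 11 * a k := by field_simp; ring
      _ ≤ 15 * r := by linarith
  calc a k ^ 2 * ∑ x ∈ S, h k x ^ 2 ≤ a k ^ 2 * ((2 * n + 1) ^ 2 * M ^ 2) := by
        refine mul_le_mul_of_nonneg_left (hsum.trans ?_) (sq_nonneg _)
        exact mul_le_mul_of_nonneg_right hcard (sq_nonneg _)
    _ = (a k * (2 * n + 1)) ^ 2 * M ^ 2 := by ring
    _ ≤ (15 * r) ^ 2 * M ^ 2 := by
        refine mul_le_mul_of_nonneg_right ?_ (sq_nonneg _)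
        exact pow_le_pow_left₀ (by positivity) h2 2
    _ = _ := by ring

theorem L2on.add {U : Set ℂ} {h1 h2 : ι → Pt → ℝ} (k1 : L2on l a U h1) (k2 : L2on l a U h2) :
    L2on l a U (fun k x => h1 k x + h2 k x) := by
  intro z hz
  obtain ⟨r1, hr1, M1, hM1⟩ := k1 z hz
  obtain ⟨r2, hr2, M2, hM2⟩ := k2 z hz
  refine ⟨min r1 r2, by positivity, 2 * M1 + 2 * M2, ?_⟩
  filter_upwards [hM1, hM2] with k g1 g2 S hS
  have a1 := g1 S fun x hx => (hS x hx).trans (min_le_left _ _)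
  have a2 := g2 S fun x hx => (hS x hx).trans (min_le_right _ _)
  calc a k ^ 2 * ∑ x ∈ S, (h1 k x + h2 k x) ^ 2 ≤ a k ^ 2 * ∑ x ∈ S, (2 * h1 k x ^ 2 +
        2 * h2 k x ^ 2) := by
        refine mul_le_mul_of_nonneg_left (sum_le_sum fun x _ => ?_) (sq_nonneg _)
        nlinarith [sq_nonneg (h1 k x - h2 k x)]
    _ = 2 * (a k ^ 2 * ∑ x ∈ S, h1 k x ^ 2) + 2 * (a k ^ 2 * ∑ x ∈ S, h2 k x ^ 2) := by
        rw [sum_add_distrib, ← mul_sum, ← mul_sum]; ring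
    _ ≤ _ := by linarith

theorem L2on.mono {U V : Set ℂ} {h : ι → Pt → ℝ} (k1 : L2on l a U h) (hVU : V ⊆ U) :
    L2on l a V h := fun z hz => k1 z (hVU hz)

theorem bdd_of_tendsto {z : ℂ} {h : ι → Pt → ℝ} {H : ℝ}
    (hh : Tendsto (fun kx : ι × Pt => h kx.1 kx.2) (nf l a z) (𝓝 H)) :
    ∃ r > 0, ∃ M, ∀ᶠ k in l, ∀ x, ‖pt (a k) x - z‖ ≤ r → |h k x| ≤ M := by
  have h1 := (Metric.tendsto_nhds.1 hh) 1 one_pos
  obtain ⟨r, hr, h2⟩ := (ev_nf (P := fun k x => dist (h k x) H < 1)).1 h1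
  refine ⟨r, hr, |H| + 1, ?_⟩
  filter_upwards [h2] with k hk x hx
  have := hk x hx
  rw [Real.dist_eq] at this
  have h3 := abs_sub_abs_le_abs_sub (h k x) H
  linarith

/-- Uniform bound on compact sets. -/
theorem bdd_compact {K : Set ℂ} (hK : IsCompact K) {h : ι → Pt → ℝ}
    (hh : ∀ z ∈ K, ∃ r > 0, ∃ M, ∀ᶠ k in l, ∀ x, ‖pt (a k) x - z‖ ≤ r → |h k x| ≤ M) :
    ∃ M, 0 ≤ M ∧ ∀ᶠ k in l, ∀ x, pt (a k) x ∈ K → |h k x| ≤ M := by
  refine hK.induction_on (p := fun s => ∃ M, 0 ≤ M ∧ ∀ᶠ k in l, ∀ x, pt (a k) x ∈ s → |h k x| ≤ M)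
    ?_ ?_ ?_ ?_
  · exact ⟨0, le_rfl, Eventually.of_forall fun k x hx => absurd hx (Set.notMem_empty _)⟩
  · rintro s t hst ⟨M, hM0, hM⟩
    refine ⟨M, hM0, ?_⟩
    filter_upwards [hM] with k hk x hx
    exact hk x (hst hx)
  · rintro s t ⟨M1, hM01, hM1⟩ ⟨M2, hM02, hM2⟩
    refine ⟨max M1 M2, le_max_of_le_left hM01, ?_⟩
    filter_upwards [hM1, hM2] with k k1 k2 x hx
    rcases hx with hx | hx
    · exact (k1 x hx).trans (le_max_left _ _)
    · exact (k2 x hx).trans (le_max_right _ _)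
  · intro z hz
    obtain ⟨r, hr, M, hM⟩ := hh z hz
    refine ⟨Metric.closedBall z r, mem_nhdsWithin_of_mem_nhds (Metric.closedBall_mem_nhds z hr),
      max M 0, le_max_right _ _, ?_⟩
    filter_upwards [hM] with k h1 x hx
    rw [Metric.mem_closedBall, dist_eq_norm] at hx
    exact (h1 x hx).trans (le_max_left _ _)

/-- Maximum principle in a box. -/
theorem box_max {g : Pt} {m : ℕ} {u : Pt → ℝ} {M : ℝ} (h0 : ∀ x ∈ bx g m, lap u x = 0)
    (h1 : ∀ x ∈ bx g (m + 1), x ∉ bx g m → |u x| ≤ M) {x : Pt} (hx : x ∈ bx g m) : |u x| ≤ M := by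
  have nb : ∀ y : Pt, (y + (1, 0) ∈ bx g m ∨ y + (-1, 0) ∈ bx g m ∨ y + (0, 1) ∈ bx g m ∨
      y + (0, -1) ∈ bx g m) → y ∈ bx g (m + 1) := by
    intro y hy
    simp only [mem_bx, Prod.fst_add, Prod.snd_add] at hy ⊢
    push_cast
    rcases hy with hy | hy | hy | hy <;> lia
  have k1 := H436.max_principle' (Λ := bx g m) (u := fun y => u y - M) (fun y hy => ?_)
    (fun y hy hn => ?_) hx
  have k2 := H436.max_principle' (Λ := bx g m) (u := fun y => -u y - M) (fun y hy => ?_)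
    (fun y hy hn => ?_) hx
  · rw [abs_le]; constructor <;> linarith
  · rw [H170.lap_eq]
    have : lap (fun y => -u y - M) y = -lap u y := by unfold lap; ring
    rw [this, h0 y hy]; simp
  · have := (abs_le.1 (h1 y (nb y hn) hy)).1
    linarith
  · rw [H170.lap_eq]
    have : lap (fun y => u y - M) y = lap u y := by unfold lap; ring
    rw [this, h0 y hy]
  · have := (abs_le.1 (h1 y (nb y hn) hy)).2
    linarith

theorem CR4.smul' {A B C E : Pt → ℝ} {x : Pt} (h : CR4 A B C E x) (s : ℝ) :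
    CR4 (fun y => s * A y) (fun y => s * B y) (fun y => s * C y) (fun y => s * E y) x := by
  obtain ⟨h1, h2, h3, h4⟩ := h
  unfold CR4
  simp only
  refine ⟨?_, ?_, ?_, ?_⟩
  · rw [h1]; ring
  · rw [h2]; ring
  · rw [h3]; ring
  · rw [h4]; ring

/-- A clean field that is bounded near a sphere is bounded inside. -/
theorem bdd_inside (ha : Tendsto a l (𝓝[>] 0)) {g : ι → Pt} {z' : ℂ}
    (hg : Tendsto (fun k => pt (a k) (g k)) l (𝓝 z')) {δ : ℝ} (hδ : 0 < δ) {Y : ι → Pt → ℝ}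
    (hlap : ∀ᶠ k in l, ∀ x, ‖pt (a k) x - z'‖ ≤ 22 * δ → lap (Y k) x = 0)
    (hb : ∀ z, 9 * δ < ‖z - z'‖ → ‖z - z'‖ < 24 * δ → ∃ r > 0, ∃ M, ∀ᶠ k in l, ∀ x,
      ‖pt (a k) x - z‖ ≤ r → |Y k x| ≤ M) :
    ∀ z, ‖z - z'‖ < 24 * δ → ∃ r > 0, ∃ M, ∀ᶠ k in l, ∀ x,
      ‖pt (a k) x - z‖ ≤ r → |Y k x| ≤ M := by
  intro z hz
  by_cases hz9 : 9 * δ < ‖z - z'‖
  · exact hb z hz9 hz
  push Not at hz9
  have hcomp : IsCompact {w : ℂ | 19 / 2 * δ ≤ ‖w - z'‖ ∧ ‖w - z'‖ ≤ 21 * δ} := by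
    have h1 : IsClosed {w : ℂ | 19 / 2 * δ ≤ ‖w - z'‖} :=
      isClosed_le continuous_const (by fun_prop)
    have h2 : {w : ℂ | 19 / 2 * δ ≤ ‖w - z'‖ ∧ ‖w - z'‖ ≤ 21 * δ} =
        Metric.closedBall z' (21 * δ) ∩ {w : ℂ | 19 / 2 * δ ≤ ‖w - z'‖} := by
      ext w
      simp only [Set.mem_ofPred_eq, Set.mem_inter_iff, Metric.mem_closedBall, dist_eq_norm]
      exact and_comm
    rw [h2]
    exact (isCompact_closedBall _ _).inter_right h1
  obtain ⟨M, hM0, hM⟩ := bdd_compact (l := l) (a := a) hcomp (h := Y) (fun w hw =>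
    hb w (by linarith [hw.1]) (by linarith [hw.2]))
  have ha0 : ∀ᶠ k in l, 0 < a k := ha.eventually self_mem_nhdsWithin
  have ha1 : ∀ᶠ k in l, a k < δ / 100 :=
    (ha.mono_right nhdsWithin_le_nhds).eventually (gt_mem_nhds (by positivity))
  have hg1 : ∀ᶠ k in l, ‖pt (a k) (g k) - z'‖ < δ / 100 := by
    have := (Metric.tendsto_nhds.1 hg) (δ / 100) (by positivity)
    simpa only [dist_eq_norm] using this
  refine ⟨δ / 4, by positivity, M, ?_⟩
  filter_upwards [hlap, hM, ha0, ha1, hg1] with k k1 k2 k3 k4 k5 x hx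
  set m := nb (10 * δ) (a k) with hm
  have m1 := nb_le (δ := 10 * δ) (by positivity) k3
  have m2 := nb_gt (δ := 10 * δ) k3
  refine box_max (g := g k) (m := m) (fun y hy => ?_) (fun y hy hy' => ?_) ?_
  · refine k1 y ?_
    have h1 := norm_of_bx k3 hy
    have h2 := norm_sub_le_norm_sub_add_norm_sub (pt (a k) y) (pt (a k) (g k)) z'
    linarith
  · refine k2 y ⟨?_, ?_⟩
    · have h1 := norm_of_not_bx k3 hy'
      have h2 := norm_sub_le_norm_sub_add_norm_sub (pt (a k) y) z' (pt (a k) (g k))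
      rw [norm_sub_rev z'] at h2
      linarith
    · have h1 := norm_of_bx k3 hy
      push_cast at h1
      have h2 := norm_sub_le_norm_sub_add_norm_sub (pt (a k) y) (pt (a k) (g k)) z'
      linarith
  · by_contra hc
    have h1 := norm_of_not_bx k3 hc
    have h2 := norm_sub_le_norm_sub_add_norm_sub (pt (a k) x) z (pt (a k) (g k))
    have h3 := norm_sub_le_norm_sub_add_norm_sub z z' (pt (a k) (g k))
    rw [norm_sub_rev z'] at h3
    linarith

/-- **The limit near the source.** -/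
theorem ball_lim {l : Ultrafilter ι} (ha : Tendsto a l (𝓝[>] 0)) {g : ι → Pt} {z' : ℂ}
    (hg : Tendsto (fun k => pt (a k) (g k)) l (𝓝 z')) {δ : ℝ} (hδ : 0 < δ) {s : ι → ℝ}
    (hs : ∀ᶠ k in l, 0 < s k) {τ : ℝ} (hτ : Tendsto (fun k => a k / s k) l (𝓝 τ))
    {XA XB XC XE : ι → Pt → ℝ} {QA QB QC QE : Pt → ℝ} {κ0 : ℂ} (aB : Asy QB phB κ0)
    (aC : Asy QC phC κ0)
    (hY : Clean l a (Metric.ball z' (24 * δ)) (fun k y => XA k y - QA (y - g k))
      (fun k y => XB k y - QB (y - g k)) (fun k y => XC k y - QC (y - g k))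
      (fun k y => XE k y - QE (y - g k)))
    (hB : L2on l a {w | 9 * δ < ‖w - z'‖ ∧ ‖w - z'‖ < 24 * δ} (fun k x => (s k)⁻¹ * XB k x))
    (hC : L2on l a {w | 9 * δ < ‖w - z'‖ ∧ ‖w - z'‖ < 24 * δ} (fun k x => (s k)⁻¹ * XC k x)) :
    ∃ y : ℂ → ℂ, DifferentiableOn ℂ y (Metric.ball z' (24 * δ)) ∧
      ∀ z ∈ Metric.ball z' (24 * δ),
        Tendsto (fun kx : ι × Pt => (s kx.1)⁻¹ * (XA kx.1 kx.2 - QA (kx.2 - g kx.1))) (nf l a z)
          (𝓝 (phA (y z))) ∧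
        Tendsto (fun kx : ι × Pt => (s kx.1)⁻¹ * (XB kx.1 kx.2 - QB (kx.2 - g kx.1))) (nf l a z)
          (𝓝 (phB (y z))) ∧
        Tendsto (fun kx : ι × Pt => (s kx.1)⁻¹ * (XC kx.1 kx.2 - QC (kx.2 - g kx.1))) (nf l a z)
          (𝓝 (phC (y z))) ∧
        Tendsto (fun kx : ι × Pt => (s kx.1)⁻¹ * (XE kx.1 kx.2 - QE (kx.2 - g kx.1))) (nf l a z)
          (𝓝 (phE (y z))) := by
  have hcl : Clean l a (Metric.ball z' (24 * δ)) (fun k y => (s k)⁻¹ * (XA k y - QA (y - g k)))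
      (fun k y => (s k)⁻¹ * (XB k y - QB (y - g k))) (fun k y => (s k)⁻¹ * (XC k y - QC (y - g k)))
      (fun k y => (s k)⁻¹ * (XE k y - QE (y - g k))) := by
    intro z hz
    obtain ⟨r, hr, h1⟩ := hY z hz
    refine ⟨r, hr, ?_⟩
    filter_upwards [h1] with k hk x hx
    exact CR4.smul' (hk x hx) _
  have hnine := hcl.nine ha
  have hev : ∀ᶠ k in (l : Filter ι), ∀ x, pt (a k) x ∈ Metric.closedBall z' (22 * δ) → CR9
      (fun y => (s k)⁻¹ * (XA k y - QA (y - g k)))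
      (fun y => (s k)⁻¹ * (XB k y - QB (y - g k))) (fun y => (s k)⁻¹ * (XC k y - QC (y - g k)))
      (fun y => (s k)⁻¹ * (XE k y - QE (y - g k))) x := by
    refine H170.compact_ev (isCompact_closedBall z' (22 * δ)) (fun w hw => ?_)
    refine ev_nf.2 (hnine w ?_)
    rw [Metric.mem_closedBall] at hw
    rw [Metric.mem_ball]; linarith
  -- the scaled kernel
  have hQ : ∀ {Q : Pt → ℝ} {φ : ℂ →L[ℝ] ℝ}, Asy Q φ κ0 → ∀ z, z ≠ z' →
      Tendsto (fun kx : ι × Pt => (s kx.1)⁻¹ * Q (kx.2 - g kx.1)) (nf l a z)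
        (𝓝 (τ * φ (κ0 / (z - z')))) := by
    intro Q φ hQ z hz
    have h1 := (hτ.comp (tendsto_fst_nf z)).mul (hQ.lim ha hg hz)
    refine h1.congr' ?_
    filter_upwards [apos_nf ha z, ev_nf_of (l := (l : Filter ι)) (a := a) (z := z) hs] with kx k1 k2
    simp only [Function.comp_apply]
    field_simp
  have An : ∀ z ∈ {w | 9 * δ < ‖w - z'‖ ∧ ‖w - z'‖ < 24 * δ}, z ≠ z' := by
    rintro z ⟨h1, -⟩ rfl
    rw [sub_self, norm_zero] at h1
    linarith
  -- a general field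
  have key : ∀ {X : ι → Pt → ℝ} {Q : Pt → ℝ} {φ : ℂ →L[ℝ] ℝ}, Asy Q φ κ0 →
      L2on l a {w | 9 * δ < ‖w - z'‖ ∧ ‖w - z'‖ < 24 * δ} (fun k x => (s k)⁻¹ * X k x) →
      (∀ᶠ k in (l : Filter ι), ∀ x, ‖pt (a k) x - z'‖ ≤ 22 * δ →
        lap (fun y => (s k)⁻¹ * (X k y - Q (y - g k))) x = 0) →
      (∀ z ∈ Metric.ball z' (24 * δ), ∃ r > 0, ∀ᶠ k in (l : Filter ι), ∀ x, ‖pt (a k) x - z‖ ≤ r →
        lap (fun y => (s k)⁻¹ * (X k y - Q (y - g k))) x = 0) →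
      L2on l a (Metric.ball z' (24 * δ)) (fun k y => (s k)⁻¹ * (X k y - Q (y - g k))) := by
    intro X Q φ hA hX hl1 hl2
    have h1 : L2on l a {w | 9 * δ < ‖w - z'‖ ∧ ‖w - z'‖ < 24 * δ}
        (fun k y => (s k)⁻¹ * (X k y - Q (y - g k))) := by
      have h2 := L2on.add hX (h2 := fun k x => -((s k)⁻¹ * Q (x - g k))) (L2on.of_bdd ha fun z hz =>
        bdd_of_tendsto (h := fun k x => -((s k)⁻¹ * Q (x - g k))) (hQ hA z (An z hz)).neg)
      have e : (fun k x => (s k)⁻¹ * X k x + -((s k)⁻¹ * Q (x - g k))) =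
          fun k y => (s k)⁻¹ * (X k y - Q (y - g k)) := by
        funext k x; ring
      rw [e] at h2
      exact h2
    have h3 : LocB l a {w | 9 * δ < ‖w - z'‖ ∧ ‖w - z'‖ < 24 * δ}
        (fun k y => (s k)⁻¹ * (X k y - Q (y - g k))) := by
      refine LocL2.locB ha fun z hz => ?_
      obtain ⟨r1, hr1, k1⟩ := hl2 z (by rw [Metric.mem_ball, dist_eq_norm]; exact hz.2)
      obtain ⟨r2, hr2, M, k2⟩ := h1 z hz
      refine ⟨min r1 r2, by positivity, M, ?_⟩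
      filter_upwards [k1, k2] with k g1 g2
      exact ⟨fun x hx => g1 x (hx.trans (min_le_left _ _)),
        fun S hS => g2 S fun x hx => (hS x hx).trans (min_le_right _ _)⟩
    refine L2on.of_bdd ha fun z hz => ?_
    rw [Metric.mem_ball, dist_eq_norm] at hz
    refine bdd_inside ha hg hδ hl1 (fun w h4 h5 => ?_) z hz
    obtain ⟨r, hr, M, k1⟩ := h3 w ⟨h4, h5⟩
    refine ⟨r, hr, M, ?_⟩
    filter_upwards [k1] with k g1 x hx
    exact (g1 x hx).2
  have LB := key aB hB (by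
    filter_upwards [hev] with k hk x hx
    exact (hk x (by rw [Metric.mem_closedBall, dist_eq_norm]; exact hx)).lapB) (by
    intro z hz
    obtain ⟨r, hr, h1⟩ := hnine z hz
    refine ⟨r, hr, ?_⟩
    filter_upwards [h1] with k hk x hx
    exact (hk x hx).lapB)
  have LC := key aC hC (by
    filter_upwards [hev] with k hk x hx
    exact (hk x (by rw [Metric.mem_closedBall, dist_eq_norm]; exact hx)).lapC) (by
    intro z hz
    obtain ⟨r, hr, h1⟩ := hnine z hz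
    refine ⟨r, hr, ?_⟩
    filter_upwards [h1] with k hk x hx
    exact (hk x hx).lapC)
  obtain ⟨y, hy, cA, cB, cC, cE⟩ := clean_lim ha Metric.isOpen_ball hcl LB LC
  rw [cconv_iff] at cA cB cC cE
  refine ⟨y, hy, fun z hz => ⟨cA z hz, ?_, ?_, cE z hz⟩⟩
  · rw [phB_apply]; exact cB z hz
  · rw [phC_apply]; exact cC z hz

end Vale.Agent.P144.H135
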