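import Vale.Agent.P144.H135.Bulk4
import Vale.Agent.P144.H365.Cont2

/-!
Bounds of the `H`-function outside a box that contains the source.
-/

namespace Vale.Agent.P144.H135

open Finset Vale.Agent.P144
open Vale.Agent.P144.H170 (Pt bx mem_bx bx_mono lap lap_AL436)

section

variable {N : ℕ} {τ θ A B C E Hs Hf : Site → ℝ} {P R G : Finset Site}
  (h : AL.Spr (dia N) τ θ A B C E) (hH : AL.IsH (dia N) A B C E Hs Hf) (hE : AL.Exc N τ θ P R G)
  {g : Site} {n : ℕ} {L c0 : ℝ}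

/-- The distance to the side in direction `e`. -/
def sd (N : ℕ) (e1 e2 : ℤ) (x : Site) : ℝ := N + 1 - (e1 * x.1 + e2 * x.2)

theorem lap_sd (e1 e2 : ℤ) (x : Site) : H436.lap (sd N e1 e2) x = 0 := by
  unfold H436.lap sd
  simp only [Prod.fst_add, Prod.snd_add]
  push_cast
  ring

theorem adj_box {n : ℕ} (hn : 0 < n) {x y : Site} (hy : y ∉ bx g n)
    (hxy : y = x + (1, 0) ∨ y = x + (-1, 0) ∨ y = x + (0, 1) ∨ y = x + (0, -1)) :
    x ∉ bx g (n - 1) := by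
  intro hx
  apply hy
  rw [mem_bx] at hx ⊢
  have : ((n - 1 : ℕ) : ℤ) = (n:ℤ) - 1 := by push_cast [Nat.cast_sub hn]; ring
  rw [this] at hx
  rcases hxy with rfl | rfl | rfl | rfl <;> simp only [Prod.fst_add, Prod.snd_add] <;> lia

theorem adj_sd {e1 e2 : ℤ} (he1 : e1 = 1 ∨ e1 = -1) (he2 : e2 = 1 ∨ e2 = -1) {x y : Site}
    (hy : y ∈ dia N)
    (hxy : y = x + (1, 0) ∨ y = x + (-1, 0) ∨ y = x + (0, 1) ∨ y = x + (0, -1)) :
    0 ≤ sd N e1 e2 x := by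
  rw [AL.mem_dia] at hy
  have h1 := le_abs_self y.1
  have h2 := neg_abs_le y.1
  have h3 := le_abs_self y.2
  have h4 := neg_abs_le y.2
  have key : e1 * x.1 + e2 * x.2 ≤ (N:ℤ) + 1 := by
    rcases he1 with rfl | rfl <;> rcases he2 with rfl | rfl <;>
    rcases hxy with rfl | rfl | rfl | rfl <;>
    simp only [Prod.fst_add, Prod.snd_add, add_zero] at h1 h2 h3 h4 hy <;> lia
  unfold sd
  have : ((e1 * x.1 + e2 * x.2 : ℤ) : ℝ) ≤ ((N + 1 : ℤ) : ℝ) := by exact_mod_cast key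
  push_cast at this
  linarith

theorem sd_ge {e1 e2 : ℤ} (he1 : e1 = 1 ∨ e1 = -1) (he2 : e2 = 1 ∨ e2 = -1) (x : Site) :
    (N:ℝ) + 1 - (|(x.1:ℝ)| + |(x.2:ℝ)|) ≤ sd N e1 e2 x := by
  unfold sd
  have h1 := le_abs_self (x.1:ℝ)
  have h2 := neg_abs_le (x.1:ℝ)
  have h3 := le_abs_self (x.2:ℝ)
  have h4 := neg_abs_le (x.2:ℝ)
  rcases he1 with rfl | rfl <;> rcases he2 with rfl | rfl <;> push_cast <;> linarith

theorem exists_sd (x : Site) : ∃ e1 e2 : ℤ, (e1 = 1 ∨ e1 = -1) ∧ (e2 = 1 ∨ e2 = -1) ∧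
    sd N e1 e2 x = (N:ℝ) + 1 - (|(x.1:ℝ)| + |(x.2:ℝ)|) := by
  unfold sd
  rcases le_total 0 (x.1:ℝ) with h1 | h1 <;> rcases le_total 0 (x.2:ℝ) with h2 | h2
  · exact ⟨1, 1, Or.inl rfl, Or.inl rfl, by rw [abs_of_nonneg h1, abs_of_nonneg h2]; push_cast; ring⟩
  · exact ⟨1, -1, Or.inl rfl, Or.inr rfl, by rw [abs_of_nonneg h1, abs_of_nonpos h2]; push_cast; ring⟩
  · exact ⟨-1, 1, Or.inr rfl, Or.inl rfl, by rw [abs_of_nonpos h1, abs_of_nonneg h2]; push_cast; ring⟩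
  · exact ⟨-1, -1, Or.inr rfl, Or.inr rfl, by
      rw [abs_of_nonpos h1, abs_of_nonpos h2]; push_cast; ring⟩

include h hH hE

/-- Upper bound of `Hs` outside the box. -/
theorem Hs_out (hn : 0 < n) (hL0 : 0 ≤ L) (hc0 : 0 < c0) (hP : P ⊆ bx g n)
    (hLs : ∀ x ∈ bx g n, x ∉ bx g (n - 1) → |Hs x| ≤ L)
    (hc : ∀ x ∈ bx g n, c0 * (N + 1) ≤ (N:ℝ) + 1 - (|(x.1:ℝ)| + |(x.2:ℝ)|))
    {x : Site} (hx : x ∈ dia N) (hxg : x ∉ bx g n) :
    Hs x ≤ L / c0 * (((N:ℝ) + 1 - (|(x.1:ℝ)| + |(x.2:ℝ)|)) / (N + 1)) := by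
  obtain ⟨e1, e2, he1, he2, hs⟩ := exists_sd (N := N) x
  have key := H436.max_principle' (Λ := (dia N).filter fun y => y ∉ bx g n)
    (u := fun y => Hs y - L / (c0 * (N + 1)) * sd N e1 e2 y) (x := x) (fun y hy => ?_)
    (fun y hy hn' => ?_) (mem_filter.2 ⟨hx, hxg⟩)
  · rw [hs] at key
    have e : L / c0 * (((N:ℝ) + 1 - (|(x.1:ℝ)| + |(x.2:ℝ)|)) / (N + 1)) =
        L / (c0 * (N + 1)) * ((N:ℝ) + 1 - (|(x.1:ℝ)| + |(x.2:ℝ)|)) := by
      field_simp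
    rw [e]
    linarith
  · rw [mem_filter] at hy
    have e : H436.lap (fun y => Hs y - L / (c0 * (N + 1)) * sd N e1 e2 y) y =
        H436.lap Hs y - L / (c0 * (N + 1)) * H436.lap (sd N e1 e2) y := by
      unfold H436.lap; ring
    rw [e, lap_sd, mul_zero, sub_zero, ← lap_AL436]
    exact h.lap_nn hH hE fun h' => hy.2 (hP h')
  · have hK : 0 ≤ L / (c0 * ((N:ℝ) + 1)) := by positivity
    obtain ⟨z, hz, hyz⟩ : ∃ z, z ∈ (dia N).filter (fun y => y ∉ bx g n) ∧ (z = y + (1, 0) ∨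
        z = y + (-1, 0) ∨ z = y + (0, 1) ∨ z = y + (0, -1)) := by
      rcases hn' with h1 | h1 | h1 | h1
      · exact ⟨_, h1, Or.inl rfl⟩
      · exact ⟨_, h1, Or.inr (Or.inl rfl)⟩
      · exact ⟨_, h1, Or.inr (Or.inr (Or.inl rfl))⟩
      · exact ⟨_, h1, Or.inr (Or.inr (Or.inr rfl))⟩
    rw [mem_filter] at hz
    have hs0 := adj_sd (N := N) he1 he2 hz.1 hyz
    by_cases hyd : y ∈ dia N
    · have hyb : y ∈ bx g n := by
        by_contra hc'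
        exact hy (mem_filter.2 ⟨hyd, hc'⟩)
      have h1 := (abs_le.1 (hLs y hyb (adj_box hn hz.2 hyz))).2
      have h2 := hc y hyb
      have h3 := sd_ge (N := N) he1 he2 y
      have h4 : L ≤ L / (c0 * ((N:ℝ) + 1)) * sd N e1 e2 y := by
        calc L = L / (c0 * ((N:ℝ) + 1)) * (c0 * (N + 1)) := by field_simp
          _ ≤ _ := mul_le_mul_of_nonneg_left (by linarith) hK
      linarith
    · rw [hH.out y hyd]
      have := mul_nonneg hK hs0
      linarith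

/-- Lower bound of `Hf` outside the box. -/
theorem Hf_out' {κ : Type*} [Fintype κ] {r : κ → Site} (hn : 0 < n) (hL0 : 0 ≤ L) (hc0 : 0 < c0)
    {M : ℝ} (hM : 0 ≤ M) (hR : ∀ x ∈ R, x ∉ bx g n → ∃ p, x = r p)
    (hlap : ∀ x ∈ R, x ∉ bx g n → AL.lap Hf x ≤ M)
    (hLf : ∀ x ∈ bx g n, x ∉ bx g (n - 1) → |Hf x| ≤ L)
    (hc : ∀ x ∈ bx g n, c0 * (N + 1) ≤ (N:ℝ) + 1 - (|(x.1:ℝ)| + |(x.2:ℝ)|))
    {x : Site} (hx : x ∈ dia N) (hxg : x ∉ bx g n) :
    -Hf x ≤ L / c0 * (((N:ℝ) + 1 - (|(x.1:ℝ)| + |(x.2:ℝ)|)) / (N + 1)) +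
      M * ∑ p, H436.green (dia N) (r p) x := by
  classical
  obtain ⟨e1, e2, he1, he2, hs⟩ := exists_sd (N := N) x
  have hout : ∀ y : Site, (y ∉ dia N ∨ (y.1 + 1, y.2) ∉ dia N ∨ (y.1, y.2 + 1) ∉ dia N ∨
      (y.1 + 1, y.2 + 1) ∉ dia N) → Hf y = 0 := by
    rintro ⟨i, j⟩ hy
    exact h.Hf_out hH hy
  have hG0 : ∀ y, 0 ≤ M * ∑ p, H436.green (dia N) (r p) y := fun y =>
    mul_nonneg hM (sum_nonneg fun p _ => H436.green_nonneg _ _ _)
  have hK : 0 ≤ L / (c0 * ((N:ℝ) + 1)) := by positivity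
  have e : L / c0 * (((N:ℝ) + 1 - (|(x.1:ℝ)| + |(x.2:ℝ)|)) / (N + 1)) =
      L / (c0 * (N + 1)) * ((N:ℝ) + 1 - (|(x.1:ℝ)| + |(x.2:ℝ)|)) := by
    field_simp
  set Λ : Finset Site := (dia N).filter fun f => f ∉ bx g n ∧ (f.1 + 1, f.2) ∈ dia N ∧
    (f.1, f.2 + 1) ∈ dia N ∧ (f.1 + 1, f.2 + 1) ∈ dia N with hΛ
  by_cases hxΛ : x ∈ Λ
  swap
  · have h0 : Hf x = 0 := by
      refine hout x ?_
      by_contra hc'
      push Not at hc'
      exact hxΛ (mem_filter.2 ⟨hc'.1, hxg, hc'.2.1, hc'.2.2.1, hc'.2.2.2⟩)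
    rw [h0, e, neg_zero]
    have h2 := adj_sd (N := N) (x := x + (1, 0)) he1 he2 hx (Or.inr (Or.inl (by ext <;> simp)))
    have h3 : 0 ≤ (N:ℝ) + 1 - (|(x.1:ℝ)| + |(x.2:ℝ)|) := by
      rw [AL.mem_dia] at hx
      have : ((|x.1| + |x.2| : ℤ) : ℝ) ≤ ((N : ℤ) : ℝ) := by exact_mod_cast hx
      push_cast at this
      linarith
    have := mul_nonneg hK h3
    linarith [hG0 x]
  have key := H436.max_principle' (Λ := Λ)
    (u := fun y => -Hf y - L / (c0 * (N + 1)) * sd N e1 e2 y -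
      ∑ p, M * H436.green (dia N) (r p) y) (x := x) (fun y hy => ?_) (fun y hy hn' => ?_) hxΛ
  · rw [hs, ← mul_sum] at key
    rw [e]
    linarith
  · obtain ⟨hy0, hyg, hy1, hy2, hy3⟩ := mem_filter.1 hy
    have e1' : H436.lap (fun y => -Hf y - L / (c0 * (N + 1)) * sd N e1 e2 y -
        ∑ p, M * H436.green (dia N) (r p) y) y = -H436.lap Hf y -
        L / (c0 * (N + 1)) * H436.lap (sd N e1 e2) y -
        H436.lap (fun y => ∑ p, M * H436.green (dia N) (r p) y) y := by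
      unfold H436.lap; ring
    have e2' : H436.lap (fun y => ∑ p, M * H436.green (dia N) (r p) y) y =
        -∑ p, M * (if y = r p then (1:ℝ) else 0) := by
      rw [H436.lap_sum, ← sum_neg_distrib]
      refine sum_congr rfl fun p _ => ?_
      rw [H436.lap_mul, H436.lap_green hy0]; ring
    rw [e1', e2', lap_sd, mul_zero, sub_zero, sub_neg_eq_add, ← lap_AL436]
    by_cases hyR : y ∈ R
    · obtain ⟨q, hq⟩ := hR y hyR hyg
      have e3 : M ≤ ∑ k, M * (if y = r k then (1:ℝ) else 0) := by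
        have h1 := single_le_sum (f := fun k => M * (if y = r k then (1:ℝ) else 0))
          (fun k _ => by split_ifs <;> simp [hM]) (mem_univ q)
        simp only [if_pos hq, mul_one] at h1
        exact h1
      linarith [hlap y hyR hyg]
    · have e3 : 0 ≤ ∑ k, M * (if y = r k then (1:ℝ) else 0) :=
        sum_nonneg fun k _ => by split_ifs <;> simp [hM]
      have h1 := h.lapf_nonpos hH (i := y.1) (j := y.2) hy0 hy1 hy2 hy3 (hE.τc y.1 y.2 hyR)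
      simp only [Prod.mk.eta] at h1
      linarith
  · obtain ⟨z, hz, hyz⟩ : ∃ z, z ∈ Λ ∧ (z = y + (1, 0) ∨
        z = y + (-1, 0) ∨ z = y + (0, 1) ∨ z = y + (0, -1)) := by
      rcases hn' with h1 | h1 | h1 | h1
      · exact ⟨_, h1, Or.inl rfl⟩
      · exact ⟨_, h1, Or.inr (Or.inl rfl)⟩
      · exact ⟨_, h1, Or.inr (Or.inr (Or.inl rfl))⟩
      · exact ⟨_, h1, Or.inr (Or.inr (Or.inr rfl))⟩
    obtain ⟨hz0, hzg, -⟩ := mem_filter.1 hz
    have hs0 := adj_sd (N := N) he1 he2 hz0 hyz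
    have hG1 := hG0 y
    rw [mul_sum] at hG1
    by_cases hyb : y ∈ bx g n
    · have h1 := (abs_le.1 (hLf y hyb (adj_box hn hzg hyz))).1
      have h2 := hc y hyb
      have h3 := sd_ge (N := N) he1 he2 y
      have h4 : L ≤ L / (c0 * ((N:ℝ) + 1)) * sd N e1 e2 y := by
        calc L = L / (c0 * ((N:ℝ) + 1)) * (c0 * (N + 1)) := by field_simp
          _ ≤ _ := mul_le_mul_of_nonneg_left (by linarith) hK
      linarith
    · have h0 : Hf y = 0 := by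
        refine hout y ?_
        by_contra hc'
        push Not at hc'
        exact hy (mem_filter.2 ⟨hc'.1, hyb, hc'.2.1, hc'.2.2.1, hc'.2.2.2⟩)
      rw [h0]
      have := mul_nonneg hK hs0
      linarith

end

end Vale.Agent.P144.H135
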