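import Vale.Agent.P144.H135.Bulk5

/-!
Spinors with a source in the bulk: eventual bounds of the `H`-function.
-/

namespace Vale.Agent.P144.H135

open Finset Vale.Agent.P144 Filter Topology
open Vale.Agent.P144.H170 (Pt pt bx mem_bx bx_mono tauF theF tauF_step n1 L2ball lap D
  pt_fl_norm pt_sub_norm pt_sub_norm' near_dia nf ev_nf apos_nf tendsto_fst_nf tendsto_pt_nf gb
  green_near green_bd ev_nf_of mem_dia_ev exists_pos_le)

variable {ι κ : Type*} [Fintype κ] {l : Filter ι} {a : ι → ℝ} {N : ι → ℕ} {r : κ → ι → Site}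
  {ζ : κ → ℂ} {c : ι → AL.Cn} {z' : ℂ} {δ : ℝ} {A B C E Hs Hf : ι → Pt → ℝ} {L : ι → ℝ}

theorem n1_lt {z' : ℂ} {δ : ℝ} (hδ : 0 < δ) (hb : ∀ w, ‖w - z'‖ ≤ 24 * δ → w ∈ Dia) :
    n1 z' < 1 - 24 * δ := by
  unfold n1
  rcases le_total 0 z'.re with h | h
  · have h1 : (z' + ((24 * δ : ℝ) : ℂ)) ∈ Dia := hb _ (by
      rw [add_sub_cancel_left, Complex.norm_real, Real.norm_eq_abs, abs_of_pos (by positivity)])
    have h2 : |(z' + ((24 * δ : ℝ) : ℂ)).re| + |(z' + ((24 * δ : ℝ) : ℂ)).im| < 1 := h1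
    simp only [Complex.add_re, Complex.ofReal_re, Complex.add_im, Complex.ofReal_im, add_zero] at h2
    rw [abs_of_nonneg (by positivity)] at h2
    rw [abs_of_nonneg h]; linarith
  · have h1 : (z' + ((-(24 * δ) : ℝ) : ℂ)) ∈ Dia := hb _ (by
      rw [add_sub_cancel_left, Complex.norm_real, Real.norm_eq_abs, abs_neg,
        abs_of_pos (by positivity)])
    have h2 : |(z' + ((-(24 * δ) : ℝ) : ℂ)).re| + |(z' + ((-(24 * δ) : ℝ) : ℂ)).im| < 1 := h1
    simp only [Complex.add_re, Complex.ofReal_re, Complex.add_im, Complex.ofReal_im, add_zero] at h2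
    rw [abs_of_nonpos (by linarith)] at h2
    rw [abs_of_nonpos h]; linarith

theorem n1_pt {a : ℝ} (ha : 0 < a) (x : Pt) : n1 (pt a x) = a * (|(x.1:ℝ)| + |(x.2:ℝ)|) := by
  unfold n1 pt
  simp only
  rw [abs_mul, abs_mul, abs_of_pos ha]; ring

/-- Near a far point the cut-off function vanishes. -/
theorem lap_cut_eq {c : Pt} {n : ℕ} {u : Pt → ℝ} {x : Pt} (hn : 0 < n)
    (hx : x ∉ bx c (4 * n + 1)) : lap (fun x => (1 - CT c (2 * n) x) * u x) x = lap u x := by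
  have k : ∀ y, y ∉ bx c (4 * n) → (1 - CT c (2 * n) y) * u y = u y := fun y hy => by
    rw [CT_zero (by lia) fun h' => hy (bx_mono (by lia) h'), sub_zero, one_mul]
  have k1 : ∀ e : Pt, (e = (1, 0) ∨ e = (0, 1)) → x + e ∉ bx c (4 * n) := fun e he h' =>
    hx (bx_step' he h')
  have k2 : ∀ e : Pt, (e = (1, 0) ∨ e = (0, 1)) → x - e ∉ bx c (4 * n) := fun e he h' =>
    hx (bx_step'' he h')
  unfold lap
  beta_reduce
  rw [k _ (k1 _ (Or.inl rfl)), k _ (k2 _ (Or.inl rfl)), k _ (k1 _ (Or.inr rfl)),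
    k _ (k2 _ (Or.inr rfl)), k _ fun h' => hx (bx_mono (by lia) h')]

variable (h : Pos l a N r ζ c z' δ)
  (hB : ∀ᶠ k in l, BD (N k) (fun p => r p k) (c k) (A k) (B k) (C k) (E k) (Hs k) (Hf k))
  (hL0 : ∀ᶠ k in l, 0 < L k) (hL : ∀ᶠ k in l, Ann δ (a k) (c k) (Hs k) (Hf k) (L k))

include h hB hL0 hL

/-- Bounds of the `H`-function outside the box. -/
theorem H_ev : ∃ K, 0 ≤ K ∧ ∀ᶠ k in l, ∀ x ∈ Vale.Agent.P144.dia (N k),
    x ∉ bx (c k).2 (nb δ (a k)) →
    Hs k x ≤ K * L k * (((N k : ℝ) + 1 - (|(x.1:ℝ)| + |(x.2:ℝ)|)) / (N k + 1)) ∧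
    -Hf k x ≤ K * L k * (((N k : ℝ) + 1 - (|(x.1:ℝ)| + |(x.2:ℝ)|)) / (N k + 1)) +
      K * L k * ∑ p, H436.green (Vale.Agent.P144.dia (N k)) (r p k) x ∧ Hf k x ≤ Hs k x := by
  classical
  have hδ := h.δ0
  refine ⟨max (1 / (20 * δ)) 240000, by positivity, ?_⟩
  have hc : ∀ᶠ k in l, (c k).1 ∈ AL.cnr (c k).2 := by
    filter_upwards [hB] with k hk
    exact hk.cnr
  have hN1 : ∀ᶠ k in l, 1 - δ / 2 < a k * ((N k : ℝ) + 1) :=
    h.hN.eventually (lt_mem_nhds (by linarith))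
  filter_upwards [h.exc hc, hB, hL0, hL, h.apos, h.asmall (show 0 < δ / 100 from by positivity),
    h.rfar, h.gclose (show 0 < δ / 100 from by positivity), hN1, masses h hB hL0 hL]
    with k k1 k2 k3 k4 k5 k6 k8 k9 k10 k11 x hx hxg
  have n0 : 0 < nb δ (a k) := nb_pos k5 (by linarith)
  have n1' := nb_le hδ k5
  have hP : ({(c k).1} : Finset Site) ⊆ bx (c k).2 (nb δ (a k)) := by
    intro v hv
    rw [mem_singleton] at hv
    rw [hv, mem_bx]
    rcases AL.mem_cnr.1 k2.cnr with h6 | h6 | h6 | h6 <;> rw [h6] <;> simp <;> lia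
  have hsub : nb δ (a k) ≤ 8 * nb δ (a k) := by lia
  have hcc : ∀ y ∈ bx (c k).2 (nb δ (a k)), 20 * δ * (N k + 1) ≤
      (N k : ℝ) + 1 - (|(y.1:ℝ)| + |(y.2:ℝ)|) := by
    intro y hy
    have g1 := norm_of_bx k5 hy
    have g2 := n1_lt hδ h.ball
    have g3 : ‖pt (a k) y - z'‖ ≤ 2 * δ + δ / 100 := by
      have := norm_sub_le_norm_sub_add_norm_sub (pt (a k) y) (pt (a k) (c k).2) z'
      linarith
    -- sharper: use the coordinates
    have g4 : n1 (pt (a k) y) ≤ n1 (pt (a k) (c k).2) + 2 * (a k * nb δ (a k)) := by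
      rw [n1_pt k5, n1_pt k5]
      rw [mem_bx] at hy
      have h2 : |(y.1:ℝ)| ≤ |((c k).2.1:ℝ)| + nb δ (a k) := by
        have : |y.1| ≤ |(c k).2.1| + (nb δ (a k) : ℤ) := by
          have := abs_sub_abs_le_abs_sub y.1 (c k).2.1
          have h3 : |y.1 - (c k).2.1| ≤ (nb δ (a k) : ℤ) := by rw [abs_le]; lia
          linarith
        have h4 : ((|y.1| : ℤ) : ℝ) ≤ ((|(c k).2.1| + (nb δ (a k) : ℤ) : ℤ) : ℝ) := by
          exact_mod_cast this
        push_cast at h4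
        exact h4
      have h2' : |(y.2:ℝ)| ≤ |((c k).2.2:ℝ)| + nb δ (a k) := by
        have : |y.2| ≤ |(c k).2.2| + (nb δ (a k) : ℤ) := by
          have := abs_sub_abs_le_abs_sub y.2 (c k).2.2
          have h3 : |y.2 - (c k).2.2| ≤ (nb δ (a k) : ℤ) := by rw [abs_le]; lia
          linarith
        have h4 : ((|y.2| : ℤ) : ℝ) ≤ ((|(c k).2.2| + (nb δ (a k) : ℤ) : ℤ) : ℝ) := by
          exact_mod_cast this
        push_cast at h4
        exact h4
      have := mul_le_mul_of_nonneg_left (add_le_add h2 h2') k5.le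
      linarith
    have g5 := H170.n1_sub z' (pt (a k) (c k).2)
    have g6 : n1 (pt (a k) y) ≤ 1 - 21 * δ := by linarith
    rw [n1_pt k5] at g6
    have g7 : 1 - 21 * δ ≤ a k * ((N k + 1) * (1 - 20 * δ)) := by
      have h24 : 0 ≤ 1 - 20 * δ := by
        have : 0 ≤ n1 z' := by unfold n1; positivity
        linarith
      calc 1 - 21 * δ ≤ (1 - δ / 2) * (1 - 20 * δ) := by nlinarith
        _ ≤ (a k * (N k + 1)) * (1 - 20 * δ) := mul_le_mul_of_nonneg_right k10.le h24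
        _ = _ := by ring
    have g8 : |(y.1:ℝ)| + |(y.2:ℝ)| ≤ (N k + 1) * (1 - 20 * δ) :=
      le_of_mul_le_mul_left (g6.trans g7) k5
    linarith
  have hLs : ∀ y ∈ bx (c k).2 (nb δ (a k)), y ∉ bx (c k).2 (nb δ (a k) - 1) → |Hs k y| ≤ L k :=
    fun y hy hy' => (k4 y (bx_mono hsub hy) hy').1
  have hLf : ∀ y ∈ bx (c k).2 (nb δ (a k)), y ∉ bx (c k).2 (nb δ (a k) - 1) → |Hf k y| ≤ L k :=
    fun y hy hy' => (k4 y (bx_mono hsub hy) hy').2
  have b0 : 0 ≤ ((N k : ℝ) + 1 - (|(x.1:ℝ)| + |(x.2:ℝ)|)) / (N k + 1) := by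
    rw [AL.mem_dia] at hx
    have : ((|x.1| + |x.2| : ℤ) : ℝ) ≤ ((N k : ℤ) : ℝ) := by exact_mod_cast hx
    push_cast at this
    exact div_nonneg (by linarith) (by positivity)
  have e1 : L k / (20 * δ) * (((N k : ℝ) + 1 - (|(x.1:ℝ)| + |(x.2:ℝ)|)) / (N k + 1)) ≤
      max (1 / (20 * δ)) 240000 * L k *
        (((N k : ℝ) + 1 - (|(x.1:ℝ)| + |(x.2:ℝ)|)) / (N k + 1)) := by
    refine mul_le_mul_of_nonneg_right ?_ b0
    calc L k / (20 * δ) = 1 / (20 * δ) * L k := by ring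
      _ ≤ _ := mul_le_mul_of_nonneg_right (le_max_left _ _) k3.le
  refine ⟨?_, ?_, ?_⟩
  · exact (Hs_out k2.spr k2.isH k1 n0 k3.le (by positivity) hP hLs hcc hx hxg).trans e1
  · have key := Hf_out' k2.spr k2.isH k1 (g := (c k).2) (r := fun p => r p k) n0 k3.le
      (c0 := 20 * δ) (by positivity) (M := 240000 * L k) (by positivity) ?_ ?_ hLf hcc hx hxg
    · refine key.trans (add_le_add e1 ?_)
      refine mul_le_mul_of_nonneg_right ?_ (sum_nonneg fun p _ => H436.green_nonneg _ _ _)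
      exact mul_le_mul_of_nonneg_right (le_max_right _ _) k3.le
    · intro y hy hyg
      rw [mem_insert, mem_image] at hy
      rcases hy with rfl | ⟨p, -, rfl⟩
      · exact absurd (H170.self_mem_bx _ _) hyg
      · exact ⟨p, rfl⟩
    · intro y hy hyg
      rw [mem_insert, mem_image] at hy
      rcases hy with rfl | ⟨p, -, rfl⟩
      · exact absurd (H170.self_mem_bx _ _) hyg
      · have g1 := k2.spr.lapf_G k2.isH k1 (f := r p k) (mem_image.2 ⟨p, mem_univ _, rfl⟩)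
        have g2 := (k11 (AL.cnr (r p k))).1
        have g3 : ∑ v ∈ AL.cnr (r p k), |AL.lap (Hs k) v| = ∑ w ∈ AL.cnr (r p k),
            |lap (fun x => (1 - CT (c k).2 (2 * nb δ (a k)) x) * Hs k x) w| := by
          refine sum_congr rfl fun v hv => ?_
          rw [H170.lap_AL, lap_cut_eq n0]
          intro hvb
          have g4 : r p k ∈ bx (c k).2 (4 * nb δ (a k) + 2) := by
            rw [AL.mem_cnr] at hv
            rw [mem_bx] at hvb ⊢
            push_cast at hvb ⊢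
            rcases hv with h6 | h6 | h6 | h6 <;> rw [h6] at hvb <;> lia
          have g5 := norm_of_bx k5 g4
          have g6 := k8 p
          push_cast at g5
          linarith
        rw [g3] at g1
        have g4 := (le_max_right 0 (AL.lap (Hf k) (r p k))).trans g1
        linarith
  · have := k2.isH.a x.1 x.2
    simp only [Prod.mk.eta] at this
    nlinarith [sq_nonneg (A k x)]

end Vale.Agent.P144.H135
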