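import Vale.Agent.P144.H135.Bulk6
import Vale.Agent.P144.H170.GMain

/-!
Spinors with a source in the bulk: the limit of the fields.
-/

namespace Vale.Agent.P144.H135

open Finset Vale.Agent.P144 Filter Topology
open Vale.Agent.P144.H170 (Pt pt bx mem_bx bx_mono tauF theF n1 L2ball lap D L2on
  nf ev_nf apos_nf tendsto_fst_nf tendsto_pt_nf ev_nf_of Mk Mk_closed SLim XLim RS RS_ne RS_diff VS
  gs gs_sq of_xlim xlim_of phA phB phC phE phA_apply phB_apply phC_apply phE_apply slim_ext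
  nf_neBot Dia_open' Clean)

variable {ι κ : Type*} [Fintype κ] {a : ι → ℝ} {N : ι → ℕ} {r : κ → ι → Site}
  {ζ : κ → ℂ} {c : ι → AL.Cn} {z' : ℂ} {δ : ℝ} {A B C E Hs Hf : ι → Pt → ℝ} {L : ι → ℝ}

/-- The pattern with no spins. -/
def F0 : Empty → Prop := fun _ => False

theorem gr_eq {ι : Type*} (S : κ → Prop) (r : κ → Site) (k : ι) (t : ℝ) :
    gs S F0 r (fun q => v0 q k) t = gr S r t := by
  unfold gr
  congr 1
  funext q
  exact q.elim

/-- The scale of the fields. -/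
noncomputable def sc (a L : ι → ℝ) (k : ι) : ℝ := √(a k * L k)

/-- The rescaled fields. -/
noncomputable def fA (a L : ι → ℝ) (c : ι → AL.Cn) (A : ι → Pt → ℝ) (k : ι) (x : Pt) : ℝ :=
  (sc a L k)⁻¹ * eA (c k) (A k) x
noncomputable def fB (a L : ι → ℝ) (c : ι → AL.Cn) (A : ι → Pt → ℝ) (k : ι) (x : Pt) : ℝ :=
  (sc a L k)⁻¹ * eB (c k) (A k) x
noncomputable def fC (a L : ι → ℝ) (c : ι → AL.Cn) (A : ι → Pt → ℝ) (k : ι) (x : Pt) : ℝ :=
  (sc a L k)⁻¹ * eC (c k) (A k) x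
noncomputable def fE (a L : ι → ℝ) (c : ι → AL.Cn) (A : ι → Pt → ℝ) (k : ι) (x : Pt) : ℝ :=
  (sc a L k)⁻¹ * eE (c k) (A k) x

theorem ep_sq2 (c c' : AL.Cn) (y : ℝ) : (AL.ep c c' * y) ^ 2 = y ^ 2 := by
  have := AL.ep_sq c c'
  rw [mul_pow, pow_two (AL.ep c c'), this, one_mul]

section

variable {l : Filter ι} (h : Pos l a N r ζ c z' δ)
  (hB : ∀ᶠ k in l, BD (N k) (fun p => r p k) (c k) (A k) (B k) (C k) (E k) (Hs k) (Hf k))
  (hL0 : ∀ᶠ k in l, 0 < L k) (hL : ∀ᶠ k in l, Ann δ (a k) (c k) (Hs k) (Hf k) (L k))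

include h hB hL0 hL

theorem l2_f {z : ℂ} {ρ : ℝ} (hρ : 0 < ρ) (hz : ∀ w, ‖w - z‖ ≤ ρ → 9 * δ < ‖w - z'‖) :
    L2ball l a z ρ (8 * 92160000 * ρ) (fA a L c A) ∧
    L2ball l a z ρ (8 * 92160000 * ρ) (fB a L c B) ∧
    L2ball l a z ρ (8 * 92160000 * ρ) (fC a L c C) ∧
    L2ball l a z ρ (8 * 92160000 * ρ) (fE a L c E) := by
  refine ⟨?_, ?_, ?_, ?_⟩
  · refine l2_out h hB hL0 hL hρ hz (X := fun k x => eA (c k) (A k) x) fun k x => ?_
    unfold eA; rw [ep_sq2]; nlinarith [sq_nonneg (B k x), sq_nonneg (C k x), sq_nonneg (E k x)]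
  · refine l2_out h hB hL0 hL hρ hz (X := fun k x => eB (c k) (B k) x) fun k x => ?_
    unfold eB; rw [ep_sq2]; nlinarith [sq_nonneg (A k x), sq_nonneg (C k x), sq_nonneg (E k x)]
  · refine l2_out h hB hL0 hL hρ hz (X := fun k x => eC (c k) (C k) x) fun k x => ?_
    unfold eC; rw [ep_sq2]; nlinarith [sq_nonneg (B k x), sq_nonneg (A k x), sq_nonneg (E k x)]
  · refine l2_out h hB hL0 hL hρ hz (X := fun k x => eE (c k) (E k) x) fun k x => ?_
    unfold eE; rw [ep_sq2]; nlinarith [sq_nonneg (B k x), sq_nonneg (C k x), sq_nonneg (A k x)]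

end

section

variable {l : Ultrafilter ι} (h : Pos (l : Filter ι) a N r ζ c z' δ)
  (hB : ∀ᶠ k in (l : Filter ι), BD (N k) (fun p => r p k) (c k) (A k) (B k) (C k) (E k) (Hs k)
    (Hf k))
  (hL0 : ∀ᶠ k in (l : Filter ι), 0 < L k)
  (hL : ∀ᶠ k in (l : Filter ι), Ann δ (a k) (c k) (Hs k) (Hf k) (L k))

include h hB hL0 hL

/-- The limit outside the ball. -/
theorem out_lim : ∃ q : ℂ → ℂ, DifferentiableOn ℂ q (Dia \ Metric.closedBall z' (9 * δ)) ∧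
    SLim l a ((Dia \ Metric.closedBall z' (9 * δ)) \ Mk ζ w0) r v0 (fA a L c A) (fB a L c B)
      (fC a L c C) (fE a L c E) q := by
  have hW : IsOpen (Dia \ Metric.closedBall z' (9 * δ)) :=
    Dia_open'.sdiff Metric.isClosed_closedBall
  have hrel := relB_ep h hB fun k => (sc a L k)⁻¹
  have hrelOn : H170.RelOn l a ((Dia \ Metric.closedBall z' (9 * δ)) \ Mk ζ w0) r v0 (fA a L c A)
      (fB a L c B) (fC a L c C) (fE a L c E) := fun z hz =>
    hrel.relOn h.a0 h.hN z ⟨fun hzz => hz.1.2 (by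
      rw [hzz]; exact Metric.mem_closedBall_self (by have := h.δ0; positivity)), hz.1.1⟩
  have lsq : ∀ X : ι → Pt → ℝ, (∀ (z : ℂ) (ρ : ℝ), 0 < ρ →
      (∀ w, ‖w - z‖ ≤ ρ → 9 * δ < ‖w - z'‖) → L2ball l a z ρ (8 * 92160000 * ρ) X) →
      ∀ z ∈ Dia \ Metric.closedBall z' (9 * δ), ∀ ρ > 0, ρ ≤ 1 →
        Metric.closedBall z ρ ⊆ Dia \ Metric.closedBall z' (9 * δ) →
        L2ball l a z ρ (8 * 92160000 * √ρ) X := by
    intro X hX z hz ρ hρ hρ1 hsub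
    refine (hX z ρ hρ fun w hw => ?_).mono (mul_le_mul_of_nonneg_left ?_ (by positivity))
    · have := (hsub (by rw [Metric.mem_closedBall, dist_eq_norm]; exact hw)).2
      rw [Metric.mem_closedBall, dist_eq_norm] at this
      exact not_le.1 this
    · exact Real.le_sqrt_of_sq_le (by nlinarith)
  exact slim_ext h.a0 hW h.hr (fun q => q.elim) hrelOn
    (lsq _ fun z ρ hρ hz => (l2_f h hB hL0 hL hρ hz).2.1)
    (lsq _ fun z ρ hρ hz => (l2_f h hB hL0 hL hρ hz).2.2.1)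

omit hL in
theorem sc_pos : ∀ᶠ k in (l : Filter ι), 0 < sc a L k := by
  filter_upwards [h.apos, hL0] with k h1 h2
  unfold sc
  positivity

/-- The limit in the ball. -/
theorem in_lim {u0 : Site} {QA QB QC QE : Pt → ℝ} {κ0 : ℂ} (K : PKr u0 QA QB QC QE κ0)
    (hu : ∀ᶠ k in (l : Filter ι), (c k).1 = (c k).2 + u0) {S : κ → Prop}
    (hS : Metric.closedBall z' (24 * δ) ⊆ VS S F0 ζ w0) {τ : ℝ}
    (hτ : Tendsto (fun k => a k / sc a L k) l (𝓝 τ)) :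
    ∃ y : ℂ → ℂ, DifferentiableOn ℂ y (Metric.ball z' (24 * δ)) ∧
      ∀ z ∈ Metric.ball z' (24 * δ),
        Tendsto (fun kx : ι × Pt => (sc a L kx.1)⁻¹ * (sg0 S (fun p => r p kx.1) (c kx.1) *
          (gr S (fun p => r p kx.1) ((kx.2.1:ℝ) + 1 / 4) * eA (c kx.1) (A kx.1) kx.2) -
          QA (kx.2 - (c kx.1).2))) (nf l a z) (𝓝 (phA (y z))) ∧
        Tendsto (fun kx : ι × Pt => (sc a L kx.1)⁻¹ * (sg0 S (fun p => r p kx.1) (c kx.1) *
          (gr S (fun p => r p kx.1) ((kx.2.1:ℝ) + 3 / 4) * eB (c kx.1) (B kx.1) kx.2) -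
          QB (kx.2 - (c kx.1).2))) (nf l a z) (𝓝 (phB (y z))) ∧
        Tendsto (fun kx : ι × Pt => (sc a L kx.1)⁻¹ * (sg0 S (fun p => r p kx.1) (c kx.1) *
          (gr S (fun p => r p kx.1) ((kx.2.1:ℝ) + 1 / 4) * eC (c kx.1) (C kx.1) kx.2) -
          QC (kx.2 - (c kx.1).2))) (nf l a z) (𝓝 (phC (y z))) ∧
        Tendsto (fun kx : ι × Pt => (sc a L kx.1)⁻¹ * (sg0 S (fun p => r p kx.1) (c kx.1) *
          (gr S (fun p => r p kx.1) ((kx.2.1:ℝ) + 3 / 4) * eE (c kx.1) (E kx.1) kx.2) -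
          QE (kx.2 - (c kx.1).2))) (nf l a z) (𝓝 (phE (y z))) := by
  have hδ := h.δ0
  have aux : ∀ {X : ι → Pt → ℝ} {G : ι → Pt → ℝ}, (∀ k x, G k x ^ 2 = 1) →
      (∀ (z : ℂ) (ρ : ℝ), 0 < ρ → (∀ w, ‖w - z‖ ≤ ρ → 9 * δ < ‖w - z'‖) →
        L2ball l a z ρ (8 * 92160000 * ρ) (fun k x => (sc a L k)⁻¹ * X k x)) →
      L2on l a {w | 9 * δ < ‖w - z'‖ ∧ ‖w - z'‖ < 24 * δ}
        (fun k x => (sc a L k)⁻¹ * (G k x * X k x)) := by
    intro X G hG hX z hz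
    have hz' : 0 < ‖z - z'‖ - 9 * δ := by linarith [hz.1]
    refine ⟨(‖z - z'‖ - 9 * δ) / 2, by positivity,
      8 * 92160000 * ((‖z - z'‖ - 9 * δ) / 2), ?_⟩
    filter_upwards [hX z ((‖z - z'‖ - 9 * δ) / 2) (by positivity) (fun w hw => by
      have h1 := norm_sub_le_norm_sub_add_norm_sub z w z'
      rw [norm_sub_rev z w] at h1
      linarith)] with k hk T hT
    refine le_trans (le_of_eq ?_) (hk T hT)
    congr 1
    refine sum_congr rfl fun x _ => ?_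
    rw [mul_pow, mul_pow, hG, one_mul, ← mul_pow]
  have sq1 : ∀ k (t : ℝ), (sg0 S (fun p => r p k) (c k) * gr S (fun p => r p k) t) ^ 2 = 1 := by
    intro k t
    have h1 := sg0_sq S (fun p => r p k) (c k)
    have h2 := gr_sq S (fun p => r p k) t
    rw [mul_pow, pow_two, pow_two, h1, h2, one_mul]
  have e1 : ∀ (g s' x : ℝ), g * s' * x = g * (s' * x) := fun g s' x => mul_assoc _ _ _
  refine ball_lim h.a0 h.hg hδ (sc_pos h hB hL0) hτ K.aB K.aC (Y_clean h hB K hu hS) ?_ ?_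
  · have := aux (X := fun k x => eB (c k) (B k) x) (G := fun k x =>
      sg0 S (fun p => r p k) (c k) * gr S (fun p => r p k) ((x.1:ℝ) + 3 / 4))
      (fun k x => sq1 k _) fun z ρ hρ hz => (l2_f h hB hL0 hL hρ hz).2.1
    simpa only [e1] using this
  · have := aux (X := fun k x => eC (c k) (C k) x) (G := fun k x =>
      sg0 S (fun p => r p k) (c k) * gr S (fun p => r p k) ((x.1:ℝ) + 1 / 4))
      (fun k x => sq1 k _) fun z ρ hρ hz => (l2_f h hB hL0 hL hρ hz).2.2.1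
    simpa only [e1] using this

end

end Vale.Agent.P144.H135
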