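import Vale.Agent.P144.H135.Bulk7

/-!
Spinors with a source in the bulk: the limit of the fields in the diamond without the source.
-/

namespace Vale.Agent.P144.H135

open Finset Vale.Agent.P144 Filter Topology
open Vale.Agent.P144.H170 (Pt pt bx mem_bx bx_mono tauF theF n1 L2ball lap D L2on
  nf ev_nf apos_nf tendsto_fst_nf tendsto_pt_nf ev_nf_of Mk Mk_closed SLim XLim RS RS_ne RS_diff VS
  gs gs_sq of_xlim xlim_of phA phB phC phE phA_apply phB_apply phC_apply phE_apply slim_ext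
  nf_neBot Dia_open' Clean VS_open VS_ne notMem_Mk)

variable {ι κ : Type*} [Fintype κ] {a : ι → ℝ} {N : ι → ℕ} {r : κ → ι → Site}
  {ζ : κ → ℂ} {c : ι → AL.Cn} {z' : ℂ} {δ : ℝ} {A B C E Hs Hf : ι → Pt → ℝ} {L : ι → ℝ}

/-- The limits of the difference to the kernel of the plane. -/
structure YLim (l : Filter ι) (a L : ι → ℝ) (r : κ → ι → Site) (c : ι → AL.Cn) (z' : ℂ) (δ : ℝ)
    (A B C E : ι → Pt → ℝ) (S : κ → Prop) (QA QB QC QE : Pt → ℝ) (y : ℂ → ℂ) : Prop where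
  A : ∀ z ∈ Metric.ball z' (24 * δ),
    Tendsto (fun kx : ι × Pt => (sc a L kx.1)⁻¹ * (sg0 S (fun p => r p kx.1) (c kx.1) *
      (gr S (fun p => r p kx.1) ((kx.2.1:ℝ) + 1 / 4) * eA (c kx.1) (A kx.1) kx.2) -
      QA (kx.2 - (c kx.1).2))) (nf l a z) (𝓝 (phA (y z)))
  B : ∀ z ∈ Metric.ball z' (24 * δ),
    Tendsto (fun kx : ι × Pt => (sc a L kx.1)⁻¹ * (sg0 S (fun p => r p kx.1) (c kx.1) *
      (gr S (fun p => r p kx.1) ((kx.2.1:ℝ) + 3 / 4) * eB (c kx.1) (B kx.1) kx.2) -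
      QB (kx.2 - (c kx.1).2))) (nf l a z) (𝓝 (phB (y z)))
  C : ∀ z ∈ Metric.ball z' (24 * δ),
    Tendsto (fun kx : ι × Pt => (sc a L kx.1)⁻¹ * (sg0 S (fun p => r p kx.1) (c kx.1) *
      (gr S (fun p => r p kx.1) ((kx.2.1:ℝ) + 1 / 4) * eC (c kx.1) (C kx.1) kx.2) -
      QC (kx.2 - (c kx.1).2))) (nf l a z) (𝓝 (phC (y z)))
  E : ∀ z ∈ Metric.ball z' (24 * δ),
    Tendsto (fun kx : ι × Pt => (sc a L kx.1)⁻¹ * (sg0 S (fun p => r p kx.1) (c kx.1) *
      (gr S (fun p => r p kx.1) ((kx.2.1:ℝ) + 3 / 4) * eE (c kx.1) (E kx.1) kx.2) -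
      QE (kx.2 - (c kx.1).2))) (nf l a z) (𝓝 (phE (y z)))

/-- The limit of the fields. -/
structure FLim (l : Filter ι) (a L : ι → ℝ) (r : κ → ι → Site) (ζ : κ → ℂ) (c : ι → AL.Cn)
    (z' : ℂ) (δ : ℝ) (A B C E : ι → Pt → ℝ) (S : κ → Prop) (QA QB QC QE : Pt → ℝ) (κ0 : ℂ)
    (τ σ : ℝ) (q y : ℂ → ℂ) : Prop where
  σ2 : σ * σ = 1
  σe : ∀ᶠ k in l, sg0 S (fun p => r p k) (c k) = σ
  qd : DifferentiableOn ℂ q (Dia \ {z'})
  yd : DifferentiableOn ℂ y (Metric.ball z' (24 * δ))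
  qy : ∀ z ∈ Metric.ball z' (24 * δ), z ≠ z' →
    q z = RS S F0 ζ w0 z * (σ * (τ * κ0 / (z - z') + y z))
  slim : SLim l a ((Dia \ {z'}) \ Mk ζ w0) r v0 (fA a L c A) (fB a L c B) (fC a L c C)
    (fE a L c E) q
  ylim : YLim l a L r c z' δ A B C E S QA QB QC QE y

variable {l : Ultrafilter ι} (h : Pos (l : Filter ι) a N r ζ c z' δ)
  (hB : ∀ᶠ k in (l : Filter ι), BD (N k) (fun p => r p k) (c k) (A k) (B k) (C k) (E k) (Hs k)
    (Hf k))
  (hL0 : ∀ᶠ k in (l : Filter ι), 0 < L k)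
  (hL : ∀ᶠ k in (l : Filter ι), Ann δ (a k) (c k) (Hs k) (Hf k) (L k))

include h hB hL0 hL

theorem flim {u0 : Site} {QA QB QC QE : Pt → ℝ} {κ0 : ℂ} (K : PKr u0 QA QB QC QE κ0)
    (hu : ∀ᶠ k in (l : Filter ι), (c k).1 = (c k).2 + u0) {S : κ → Prop}
    (hS : Metric.closedBall z' (24 * δ) ⊆ VS S F0 ζ w0) {τ : ℝ}
    (hτ : Tendsto (fun k => a k / sc a L k) l (𝓝 τ)) :
    ∃ (σ : ℝ) (q y : ℂ → ℂ), FLim (l : Filter ι) a L r ζ c z' δ A B C E S QA QB QC QE κ0 τ σ q y := by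
  classical
  have hδ := h.δ0
  obtain ⟨q0, hq0, hs0⟩ := out_lim h hB hL0 hL
  obtain ⟨y, hy, hylim⟩ := in_lim h hB hL0 hL K hu hS hτ
  obtain ⟨σ, hσ2, hσ⟩ : ∃ σ : ℝ, σ * σ = 1 ∧
      ∀ᶠ k in (l : Filter ι), sg0 S (fun p => r p k) (c k) = σ := by
    have h1 : ∀ᶠ k in (l : Filter ι), sg0 S (fun p => r p k) (c k) = 1 ∨
        sg0 S (fun p => r p k) (c k) = -1 :=
      Eventually.of_forall fun k => mul_self_eq_one_iff.1 (sg0_sq S (fun p => r p k) (c k))
    rcases Ultrafilter.eventually_or.1 h1 with h2 | h2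
    · exact ⟨1, by norm_num, h2⟩
    · exact ⟨-1, by norm_num, h2⟩
  have hs1 := sc_pos (l := l) h hB hL0
  have hvlim : ∀ q : Empty, Tendsto (fun k => pt (a k) (v0 q k)) (l : Filter ι) (𝓝 (w0 q)) :=
    fun q => q.elim
  -- the limits of the gauged fields
  have key : ∀ (X : ι → Pt → ℝ) (Q : Pt → ℝ) (φ : ℂ →L[ℝ] ℝ) (t : ℝ) (e : ι → Pt → ℝ),
      Asy Q φ κ0 → (∀ k x, X k x = (sc a L k)⁻¹ * e k x) →
      (∀ z ∈ Metric.ball z' (24 * δ), Tendsto (fun kx : ι × Pt => (sc a L kx.1)⁻¹ *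
        (sg0 S (fun p => r p kx.1) (c kx.1) * (gr S (fun p => r p kx.1) ((kx.2.1:ℝ) + t) *
        e kx.1 kx.2) - Q (kx.2 - (c kx.1).2))) (nf l a z) (𝓝 (φ (y z)))) →
      ∀ z ∈ Metric.ball z' (24 * δ), z ≠ z' → Tendsto (fun kx : ι × Pt =>
        gs S F0 (fun p => r p kx.1) (fun q => v0 q kx.1) ((kx.2.1:ℝ) + t) * X kx.1 kx.2)
        (nf l a z) (𝓝 (φ (σ * (τ * κ0 / (z - z') + y z)))) := by
    intro X Q φ t e hQ hX hYl z hz hzz
    have h1 := (hτ.comp (tendsto_fst_nf z)).mul (hQ.lim h.a0 h.hg hzz)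
    have h2 := ((hYl z hz).add h1).const_mul σ
    have e1 : σ * (φ (y z) + τ * φ (κ0 / (z - z'))) = φ (σ * (τ * κ0 / (z - z') + y z)) := by
      have g1 : (σ : ℂ) * (τ * κ0 / (z - z') + y z) = σ • (τ • (κ0 / (z - z')) + y z) := by
        rw [Complex.real_smul, Complex.real_smul]; ring
      rw [g1, map_smul, map_add, map_smul, smul_eq_mul, smul_eq_mul]; ring
    rw [e1] at h2
    refine h2.congr' ?_
    filter_upwards [apos_nf h.a0 z, ev_nf_of (l := (l : Filter ι)) (a := a) (z := z) hs1,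
      ev_nf_of (l := (l : Filter ι)) (a := a) (z := z) hσ] with kx k1 k2 k3
    rw [gr_eq, hX]
    simp only [Function.comp_apply]
    rw [k3]
    have k4 : a kx.1 / sc a L kx.1 * ((a kx.1)⁻¹ * Q (kx.2 - (c kx.1).2)) =
        (sc a L kx.1)⁻¹ * Q (kx.2 - (c kx.1).2) := by field_simp
    rw [k4]
    linear_combination (gr S (fun p => r p kx.1) ((kx.2.1:ℝ) + t) *
      ((sc a L kx.1)⁻¹ * e kx.1 kx.2)) * hσ2
  have limA := key (fA a L c A) QA phA (1 / 4) (fun k x => eA (c k) (A k) x) K.aA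
    (fun k x => rfl) fun z hz => (hylim z hz).1
  have limB := key (fB a L c B) QB phB (3 / 4) (fun k x => eB (c k) (B k) x) K.aB
    (fun k x => rfl) fun z hz => (hylim z hz).2.1
  have limC := key (fC a L c C) QC phC (1 / 4) (fun k x => eC (c k) (C k) x) K.aC
    (fun k x => rfl) fun z hz => (hylim z hz).2.2.1
  have limE := key (fE a L c E) QE phE (3 / 4) (fun k x => eE (c k) (E k) x) K.aE
    (fun k x => rfl) fun z hz => (hylim z hz).2.2.2
  -- the overlap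
  have hVS : ∀ z ∈ Metric.ball z' (24 * δ), z ∈ VS S F0 ζ w0 := fun z hz =>
    hS (Metric.ball_subset_closedBall hz)
  have hMk : ∀ z ∈ Metric.ball z' (24 * δ), z ∉ Mk ζ w0 := fun z hz =>
    notMem_Mk.2 ⟨(VS_ne (hVS z hz)).1, fun q => q.elim⟩
  have hDia : ∀ z ∈ Metric.ball z' (24 * δ), z ∈ Dia := fun z hz => h.ball z (by
    rw [Metric.mem_ball, dist_eq_norm] at hz; exact hz.le)
  have overlap : ∀ z ∈ Metric.ball z' (24 * δ), z ∉ Metric.closedBall z' (9 * δ) →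
      q0 z = RS S F0 ζ w0 z * (σ * (τ * κ0 / (z - z') + y z)) := by
    intro z hz hz9
    have hzz : z ≠ z' := by
      rintro rfl
      exact hz9 (Metric.mem_closedBall_self (by positivity))
    have hzW : z ∈ (Dia \ Metric.closedBall z' (9 * δ)) \ Mk ζ w0 := ⟨⟨hDia z hz, hz9⟩, hMk z hz⟩
    have := nf_neBot (l := (l : Filter ι)) h.a0 z
    have g1 := of_xlim h.a0 h.hr hvlim (hVS z hz) (Or.inl rfl) _ _ (hs0.A z hzW)
    have g2 := of_xlim h.a0 h.hr hvlim (hVS z hz) (Or.inr rfl) _ _ (hs0.E z hzW)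
    have e1 := tendsto_nhds_unique g1 (limA z hz hzz)
    have e2 := tendsto_nhds_unique g2 (limE z hz hzz)
    rw [phA_apply, phA_apply] at e1
    rw [phE_apply, phE_apply, neg_inj] at e2
    have e3 := Complex.ext e1 e2
    rw [← e3]
    have := RS_ne (hVS z hz)
    field_simp
  set q : ℂ → ℂ := fun z => if z ∈ Metric.ball z' (24 * δ) then
    RS S F0 ζ w0 z * (σ * (τ * κ0 / (z - z') + y z)) else q0 z with hq
  have hqW : ∀ z ∈ Dia \ Metric.closedBall z' (9 * δ), q z = q0 z := by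
    intro z hz
    by_cases hzb : z ∈ Metric.ball z' (24 * δ)
    · rw [hq]; simp only [if_pos hzb]; exact (overlap z hzb hz.2).symm
    · rw [hq]; simp only [if_neg hzb]
  have hqb : ∀ z ∈ Metric.ball z' (24 * δ), q z = RS S F0 ζ w0 z *
      (σ * (τ * κ0 / (z - z') + y z)) := fun z hz => by rw [hq]; simp only [if_pos hz]
  refine ⟨σ, q, y, hσ2, hσ, ?_, hy, fun z hz _ => hqb z hz, ?_, fun z hz => (hylim z hz).1,
    fun z hz => (hylim z hz).2.1, fun z hz => (hylim z hz).2.2.1, fun z hz => (hylim z hz).2.2.2⟩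
  · intro z hz
    by_cases hzb : z ∈ Metric.ball z' (24 * δ)
    · have hn : z - z' ≠ 0 := sub_ne_zero.2 hz.2
      have h1 : DifferentiableAt ℂ (fun w => RS S F0 ζ w0 w * (σ * (τ * κ0 / (w - z') + y w))) z := by
        refine (RS_diff (hVS z hzb)).mul (DifferentiableAt.const_mul ?_ _)
        have d1 : DifferentiableAt ℂ (fun w : ℂ => (τ : ℂ) * κ0 / (w - z')) z :=
          DifferentiableAt.div (by fun_prop) (by fun_prop) hn
        exact d1.add (hy.differentiableAt (Metric.isOpen_ball.mem_nhds hzb))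
      refine (h1.congr_of_eventuallyEq ?_).differentiableWithinAt
      filter_upwards [Metric.isOpen_ball.mem_nhds hzb] with w hw
      exact hqb w hw
    · have hzW : z ∈ Dia \ Metric.closedBall z' (9 * δ) := ⟨hz.1, fun h' => hzb (by
        rw [Metric.mem_closedBall] at h'
        rw [Metric.mem_ball]; linarith)⟩
      have hWo : IsOpen (Dia \ Metric.closedBall z' (9 * δ)) :=
        Dia_open'.sdiff Metric.isClosed_closedBall
      have h1 := hq0.differentiableAt (hWo.mem_nhds hzW)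
      refine (h1.congr_of_eventuallyEq ?_).differentiableWithinAt
      filter_upwards [hWo.mem_nhds hzW] with w hw
      exact hqW w hw
  · have hW : ∀ z ∈ (Dia \ {z'}) \ Mk ζ w0, z ∉ Metric.ball z' (24 * δ) →
        z ∈ (Dia \ Metric.closedBall z' (9 * δ)) \ Mk ζ w0 := fun z hz hzb =>
      ⟨⟨hz.1.1, fun h' => hzb (by
        rw [Metric.mem_closedBall] at h'
        rw [Metric.mem_ball]; linarith)⟩, hz.2⟩
    have hdiv : ∀ z ∈ Metric.ball z' (24 * δ), q z / RS S F0 ζ w0 z =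
        σ * (τ * κ0 / (z - z') + y z) := by
      intro z hz
      rw [hqb z hz]
      have := RS_ne (hVS z hz)
      field_simp
    refine ⟨fun z hz => ?_, fun z hz => ?_, fun z hz => ?_, fun z hz => ?_⟩
    · by_cases hzb : z ∈ Metric.ball z' (24 * δ)
      · refine xlim_of h.a0 h.hr hvlim (hVS z hzb) (Or.inl rfl) _ _ ?_
        rw [hdiv z hzb]
        exact limA z hzb hz.1.2
      · rw [hqW z (hW z hz hzb).1]
        exact hs0.A z (hW z hz hzb)
    · by_cases hzb : z ∈ Metric.ball z' (24 * δ)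
      · refine xlim_of h.a0 h.hr hvlim (hVS z hzb) (Or.inr rfl) _ _ ?_
        rw [hdiv z hzb]
        exact limB z hzb hz.1.2
      · rw [hqW z (hW z hz hzb).1]
        exact hs0.B z (hW z hz hzb)
    · by_cases hzb : z ∈ Metric.ball z' (24 * δ)
      · refine xlim_of h.a0 h.hr hvlim (hVS z hzb) (Or.inl rfl) _ _ ?_
        rw [hdiv z hzb]
        exact limC z hzb hz.1.2
      · rw [hqW z (hW z hz hzb).1]
        exact hs0.C z (hW z hz hzb)
    · by_cases hzb : z ∈ Metric.ball z' (24 * δ)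
      · refine xlim_of h.a0 h.hr hvlim (hVS z hzb) (Or.inr rfl) _ _ ?_
        rw [hdiv z hzb]
        exact limE z hzb hz.1.2
      · rw [hqW z (hW z hz hzb).1]
        exact hs0.E z (hW z hz hzb)

end Vale.Agent.P144.H135
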