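import Vale.Agent.P144.H135.Bulk8
import Vale.Agent.P144.H365.Cont2

/-!
Spinors with a source in the bulk: the limit of the `H`-function.
-/

namespace Vale.Agent.P144.H135

open Finset Vale.Agent.P144 Filter Topology
open Vale.Agent.P144.H170 (Pt pt bx mem_bx bx_mono tauF theF n1 L2ball lap D L2on
  nf ev_nf apos_nf a_nf tendsto_fst_nf tendsto_pt_nf ev_nf_of Mk Mk_closed SLim XLim RS RS_ne RS_diff VS
  gs gs_sq of_xlim xlim_of phA phB phC phE phA_apply phB_apply phC_apply phE_apply slim_ext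
  nf_neBot Dia_open' Clean VS_open VS_ne notMem_Mk HOn HD gq CConv gb green_near green_bd
  mem_dia_ev exists_pos_le)

variable {ι κ : Type*} [Fintype κ] {a : ι → ℝ} {N : ι → ℕ} {r : κ → ι → Site}
  {ζ : κ → ℂ} {c : ι → AL.Cn} {z' : ℂ} {δ : ℝ} {A B C E Hs Hf : ι → Pt → ℝ} {L : ι → ℝ}

/-- The region where the `H`-function is bounded. -/
def Uh (ζ : κ → ℂ) (z' : ℂ) (δ : ℝ) : Set ℂ :=
  (Dia \ Mk ζ w0) ∩ {z | δ < |(z - z').re| ∨ δ < |(z - z').im|}

theorem Uh_open (ζ : κ → ℂ) (z' : ℂ) (δ : ℝ) : IsOpen (Uh ζ z' δ) := by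
  refine (Dia_open'.sdiff (Mk_closed ζ w0)).inter ?_
  have o1 : IsOpen {z : ℂ | δ < |(z - z').re|} := isOpen_lt continuous_const (by fun_prop)
  have o2 : IsOpen {z : ℂ | δ < |(z - z').im|} := isOpen_lt continuous_const (by fun_prop)
  exact o1.union o2

theorem Uh_sub (hδ : 0 < δ) : Uh ζ z' δ ⊆ (Dia \ {z'}) \ Mk ζ w0 := by
  rintro z ⟨⟨h1, h2⟩, h3⟩
  refine ⟨⟨h1, ?_⟩, h2⟩
  rintro (rfl : z = z')
  simp only [Set.mem_setOf_eq, sub_self, Complex.zero_re, Complex.zero_im, abs_zero, or_self] at h3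
  linarith

section

variable {l : Filter ι}

theorem Uh_bx (h : Pos l a N r ζ c z' δ) {z : ℂ} (hz : z ∈ Uh ζ z' δ) :
    ∀ᶠ kx in nf l a z, kx.2 ∉ bx (c kx.1).2 (nb δ (a kx.1)) := by
  have hδ := h.δ0
  rcases hz.2 with h1 | h1
  · have t1 := (H170.re_nf h.a0 h.hg 0 (z := z)).abs
    filter_upwards [t1.eventually (lt_mem_nhds h1), apos_nf h.a0 z] with kx k1 k2 hb
    rw [mem_bx] at hb
    have k3 := nb_le hδ k2
    rw [add_zero, abs_mul, abs_of_pos k2] at k1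
    have k4 : |(kx.2.1:ℝ) - ((c kx.1).2.1:ℝ)| ≤ nb δ (a kx.1) := by
      have k5 : |kx.2.1 - (c kx.1).2.1| ≤ (nb δ (a kx.1) : ℤ) := by rw [abs_le]; lia
      have : ((|kx.2.1 - (c kx.1).2.1| : ℤ) : ℝ) ≤ ((nb δ (a kx.1) : ℤ) : ℝ) := by exact_mod_cast k5
      push_cast at this
      exact this
    have k6 := mul_le_mul_of_nonneg_left k4 k2.le
    linarith
  · have t1 := (H170.im_nf h.a0 h.hg 0 (z := z)).abs
    filter_upwards [t1.eventually (lt_mem_nhds h1), apos_nf h.a0 z] with kx k1 k2 hb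
    rw [mem_bx] at hb
    have k3 := nb_le hδ k2
    rw [add_zero, abs_mul, abs_of_pos k2] at k1
    have k4 : |(kx.2.2:ℝ) - ((c kx.1).2.2:ℝ)| ≤ nb δ (a kx.1) := by
      have k5 : |kx.2.2 - (c kx.1).2.2| ≤ (nb δ (a kx.1) : ℤ) := by rw [abs_le]; lia
      have : ((|kx.2.2 - (c kx.1).2.2| : ℤ) : ℝ) ≤ ((nb δ (a kx.1) : ℤ) : ℝ) := by exact_mod_cast k5
      push_cast at this
      exact this
    have k6 := mul_le_mul_of_nonneg_left k4 k2.le
    linarith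

theorem hon_all (h : Pos l a N r ζ c z' δ)
    (hB : ∀ᶠ k in l, BD (N k) (fun p => r p k) (c k) (A k) (B k) (C k) (E k) (Hs k) (Hf k))
    (hL0 : ∀ᶠ k in l, 0 < L k) (U : Set ℂ) : HOn l a U (fA a L c A) (fB a L c B) (fC a L c C)
      (fE a L c E) (fun k x => Hs k x / L k) (fun k x => Hf k x / L k) := by
  intro z _
  filter_upwards [ev_nf_of (l := l) (a := a) (z := z) hB, apos_nf h.a0 z,
    ev_nf_of (l := l) (a := a) (z := z) hL0] with kx k1 k2 k3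
  obtain ⟨k, i, j⟩ := kx
  simp only at k1 k2 k3
  have e : ∀ y : ℝ, a k * ((sc a L k)⁻¹ * y) ^ 2 = y ^ 2 / L k := by
    intro y
    unfold sc
    rw [mul_pow, inv_pow, Real.sq_sqrt (by positivity)]
    field_simp
  simp only [fA, fB, fC, fE, e, Prod.mk_add_mk, add_zero]
  unfold eA eB eC eE
  simp only [ep_sq2]
  have g1 := k1.isH.a i j
  have g2 := k1.isH.b i j
  have g3 := k1.isH.c i j
  have g4 := k1.isH.d i j
  rw [← g1, ← g2, ← g3, ← g4]
  refine ⟨by ring, by ring, by ring, by ring⟩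

/-- The limit of the `H`-function. -/
structure HL (l : Filter ι) (a L : ι → ℝ) (ζ : κ → ℂ) (z' : ℂ) (δ : ℝ) (Hs Hf : ι → Pt → ℝ)
    (q : ℂ → ℂ) (h : ℂ → ℝ) : Prop where
  hs : CConv l a (Uh ζ z' δ) (fun k x => Hs k x / L k) h
  hf : CConv l a (Uh ζ z' δ) (fun k x => Hf k x / L k) h
  hd : ∀ z ∈ Uh ζ z' δ, HD h (gq ζ w0 q) z
  up : ∃ K, ∀ z ∈ Uh ζ z' δ, h z ≤ K
  bd : ∃ ε > 0, ∃ K, 0 < K ∧ ∀ z ∈ Dia, 1 - ε < n1 z → z ∈ Uh ζ z' δ ∧ |h z| ≤ K * (1 - n1 z)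

end

section

variable {l : Ultrafilter ι} (h : Pos (l : Filter ι) a N r ζ c z' δ)
  (hB : ∀ᶠ k in (l : Filter ι), BD (N k) (fun p => r p k) (c k) (A k) (B k) (C k) (E k) (Hs k)
    (Hf k))
  (hL0 : ∀ᶠ k in (l : Filter ι), 0 < L k)
  (hL : ∀ᶠ k in (l : Filter ι), Ann δ (a k) (c k) (Hs k) (Hf k) (L k))

include h hB hL0 hL

theorem hl_exists {q : ℂ → ℂ} (hs : SLim l a ((Dia \ {z'}) \ Mk ζ w0) r v0 (fA a L c A)
    (fB a L c B) (fC a L c C) (fE a L c E) q) : ∃ H, HL (l : Filter ι) a L ζ z' δ Hs Hf q H := by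
  classical
  have hδ := h.δ0
  obtain ⟨K, hK, hev⟩ := H_ev h hB hL0 hL
  -- the ratio of the distance to the boundary
  have t0 : ∀ z, Tendsto (fun kx : ι × Pt => ((N kx.1 : ℝ) + 1 - (|(kx.2.1 : ℝ)| +
      |(kx.2.2 : ℝ)|)) / (N kx.1 + 1)) (nf l a z) (𝓝 (1 - n1 z)) := by
    intro z
    have f1 := h.hN.comp (tendsto_fst_nf (l := (l : Filter ι)) (a := a) z)
    have f2 := ((Complex.continuous_re.tendsto z).comp
      (tendsto_pt_nf (l := (l : Filter ι)) (a := a) z)).abs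
    have f3 := ((Complex.continuous_im.tendsto z).comp
      (tendsto_pt_nf (l := (l : Filter ι)) (a := a) z)).abs
    have f4 := (f1.sub (f2.add f3)).div f1 one_ne_zero
    rw [div_one] at f4
    refine (f4.congr' ?_)
    filter_upwards [apos_nf h.a0 z] with kx h0
    simp only [Function.comp_apply, pt, Pi.div_apply]
    rw [abs_mul, abs_mul, abs_of_pos h0]
    have : (N kx.1 : ℝ) + 1 ≠ 0 := by positivity
    field_simp
  -- the bounds near a point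
  have hb1 : ∀ z ∈ Uh ζ z' δ, ∀ᶠ kx in nf (l : Filter ι) a z,
      Hs kx.1 kx.2 / L kx.1 ≤ K * (((N kx.1 : ℝ) + 1 - (|(kx.2.1 : ℝ)| + |(kx.2.2 : ℝ)|)) /
        (N kx.1 + 1)) ∧
      -(Hf kx.1 kx.2 / L kx.1) ≤ K * (((N kx.1 : ℝ) + 1 - (|(kx.2.1 : ℝ)| + |(kx.2.2 : ℝ)|)) /
        (N kx.1 + 1)) + K * ∑ p, H436.green (Vale.Agent.P144.dia (N kx.1)) (r p kx.1) kx.2 ∧
      Hf kx.1 kx.2 / L kx.1 ≤ Hs kx.1 kx.2 / L kx.1 := by
    intro z hz
    filter_upwards [Uh_bx h hz, H170.near_dia h.a0 h.hN hz.1.1 0,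
      ev_nf_of (l := (l : Filter ι)) (a := a) (z := z) hev,
      ev_nf_of (l := (l : Filter ι)) (a := a) (z := z) hL0] with kx k1 k2 k3 k4
    obtain ⟨g1, g2, g3⟩ := k3 kx.2 (k2 kx.2 (by simp) (by simp)) k1
    refine ⟨?_, ?_, div_le_div_of_nonneg_right g3 k4.le⟩
    · rw [div_le_iff₀ k4]; linarith
    · rw [← neg_div, div_le_iff₀ k4]; linarith
  have hb0 : ∀ z ∈ Uh ζ z' δ, ∀ᶠ kx in nf (l : Filter ι) a z,
      ((N kx.1 : ℝ) + 1 - (|(kx.2.1 : ℝ)| + |(kx.2.2 : ℝ)|)) / (N kx.1 + 1) ≤ 1 := by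
    intro z _
    refine Eventually.of_forall fun kx => ?_
    rw [div_le_one (by positivity)]
    linarith [abs_nonneg (kx.2.1 : ℝ), abs_nonneg (kx.2.2 : ℝ)]
  have hgr : ∀ z ∈ Uh ζ z' δ, ∀ᶠ kx in nf (l : Filter ι) a z,
      K * ∑ p, H436.green (Vale.Agent.P144.dia (N kx.1)) (r p kx.1) kx.2 ≤
      K * ∑ p, gb z (ζ p) := by
    intro z hz
    have h1 : ∀ᶠ kx in nf (l : Filter ι) a z, ∀ q,
        H436.green (Vale.Agent.P144.dia (N kx.1)) (r q kx.1) kx.2 ≤ gb z (ζ q) := by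
      rw [eventually_all]
      intro q
      exact green_near h.a0 h.hN (h.hr q) (mem_dia_ev h.a0 h.hN (h.dia q) (h.hr q)) hz.1.1
        ((notMem_Mk.1 hz.1.2).1 q)
    filter_upwards [h1] with kx h2
    exact mul_le_mul_of_nonneg_left (Finset.sum_le_sum fun q _ => h2 q) hK
  have hbb : ∀ z ∈ Uh ζ z' δ, ∃ M, ∀ᶠ k in (l : Filter ι), |Hs k (fl (a k) z) / L k| ≤ M := by
    intro z hz
    have h1 := (hb1 z hz).and ((hb0 z hz).and (hgr z hz))
    obtain ⟨ρ, hρ, h2⟩ := (ev_nf (P := fun k x =>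
      (Hs k x / L k ≤ K * (((N k : ℝ) + 1 - (|(x.1 : ℝ)| + |(x.2 : ℝ)|)) / (N k + 1)) ∧
      -(Hf k x / L k) ≤ K * (((N k : ℝ) + 1 - (|(x.1 : ℝ)| + |(x.2 : ℝ)|)) /
        (N k + 1)) + K * ∑ p, H436.green (Vale.Agent.P144.dia (N k)) (r p k) x ∧
      Hf k x / L k ≤ Hs k x / L k) ∧
      ((N k : ℝ) + 1 - (|(x.1 : ℝ)| + |(x.2 : ℝ)|)) / (N k + 1) ≤ 1 ∧
      K * ∑ p, H436.green (Vale.Agent.P144.dia (N k)) (r p k) x ≤ K * ∑ p, gb z (ζ p))).1 h1
    refine ⟨K + |K * ∑ p, gb z (ζ p)|, ?_⟩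
    filter_upwards [h2, h.apos, h.asmall (show 0 < ρ / 2 by positivity)] with k k1 k2 k3
    obtain ⟨⟨k4, k5, k6⟩, k7, k8⟩ := k1 (fl (a k) z)
      ((H170.pt_fl_norm k2 z).trans (by linarith))
    have k9 := mul_le_mul_of_nonneg_left k7 hK
    rw [abs_le]
    constructor
    · linarith [le_abs_self (K * ∑ p, gb z (ζ p))]
    · linarith [abs_nonneg (K * ∑ p, gb z (ζ p))]
  have hU1 : Uh ζ z' δ ⊆ (Dia \ {z'}) \ Mk ζ w0 := Uh_sub hδ
  obtain ⟨H, chs, chf, hder⟩ := H170.hlim_exists h.a0 (Uh_open ζ z' δ) h.hr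
    (v := v0) (ω := w0) (fun q => q.elim) (fun z hz => hz.1.2)
    (A := fA a L c A) (B := fB a L c B) (C := fC a L c C) (E := fE a L c E) (q := q)
    ⟨fun z hz => hs.A z (hU1 hz), fun z hz => hs.B z (hU1 hz), fun z hz => hs.C z (hU1 hz),
      fun z hz => hs.E z (hU1 hz)⟩ (hon_all h hB hL0 _) hbb
  have chs' := H170.cconv_iff.1 chs
  have chf' := H170.cconv_iff.1 chf
  refine ⟨H, chs, chf, fun z hz => (hder z hz).hasFDerivAt, ⟨K, fun z hz => ?_⟩, ?_⟩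
  · have := nf_neBot (l := (l : Filter ι)) h.a0 z
    refine le_of_tendsto (chs' z hz) ?_
    filter_upwards [hb1 z hz, hb0 z hz] with kx k1 k2
    have := mul_le_mul_of_nonneg_left k2 hK
    linarith [k1.1]
  · choose εr hεr Kr hKr br using fun p => green_bd (l := (l : Filter ι)) h.a0 h.hN (h.dia p)
    obtain ⟨e2, he2, he2'⟩ := exists_pos_le hεr
    obtain ⟨e3, he3, he3'⟩ := exists_pos_le (ε := fun p : κ => 1 - n1 (ζ p)) fun p => by
      have : n1 (ζ p) < 1 := h.dia p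
      linarith
    have s2 : 0 ≤ ∑ q, Kr q := Finset.sum_nonneg fun q _ => hKr q
    refine ⟨min (min e2 e3) δ, by positivity, K + K * ∑ p, Kr p + 1, by positivity, ?_⟩
    intro z hz hz1
    have m1 := min_le_left (min e2 e3) δ
    have m2 := min_le_right (min e2 e3) δ
    have m3 := min_le_left e2 e3
    have m4 := min_le_right e2 e3
    have hzM : z ∉ Mk ζ w0 := by
      rintro (⟨p, rfl⟩ | ⟨p, rfl⟩)
      · have := he3' p; linarith
      · exact p.elim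
    have hzU : z ∈ Uh ζ z' δ := by
      refine ⟨⟨hz, hzM⟩, ?_⟩
      by_contra hc
      simp only [Set.mem_setOf_eq, not_or, not_lt, Complex.sub_re, Complex.sub_im] at hc
      have g1 := n1_lt hδ h.ball
      have g2 := abs_sub_abs_le_abs_sub z.re z'.re
      have g3 := abs_sub_abs_le_abs_sub z.im z'.im
      unfold n1 at g1 hz1
      linarith [hc.1, hc.2]
    refine ⟨hzU, ?_⟩
    have := nf_neBot (l := (l : Filter ι)) h.a0 z
    have g2 : ∀ᶠ kx in nf (l : Filter ι) a z, ∀ q,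
        H436.green (Vale.Agent.P144.dia (N kx.1)) (r q kx.1) kx.2 ≤
        Kr q * (((N kx.1 : ℝ) + 1 - (|(kx.2.1 : ℝ)| + |(kx.2.2 : ℝ)|)) / (N kx.1 + 1)) := by
      rw [eventually_all]
      intro q
      refine br q (r q) (h.hr q) z hz ?_
      have := he2' q
      have hz2 : 1 - min (min e2 e3) δ < |z.re| + |z.im| := hz1
      linarith
    have u1 : H z ≤ K * (1 - n1 z) := by
      refine le_of_tendsto_of_tendsto (chs' z hzU) ((t0 z).const_mul K) ?_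
      filter_upwards [hb1 z hzU] with kx k1
      exact k1.1
    have u2 : -H z ≤ K * (1 - n1 z) + K * ((∑ q, Kr q) * (1 - n1 z)) := by
      refine le_of_tendsto_of_tendsto (chf' z hzU).neg
        (((t0 z).const_mul K).add (((t0 z).const_mul (∑ q, Kr q)).const_mul K)) ?_
      filter_upwards [hb1 z hzU, g2] with kx k1 k2
      refine k1.2.1.trans (add_le_add le_rfl (mul_le_mul_of_nonneg_left ?_ hK))
      rw [Finset.sum_mul]
      exact Finset.sum_le_sum fun q _ => k2 q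
    have s1 : 0 ≤ K * ∑ q, Kr q := mul_nonneg hK s2
    have s3 : 0 < 1 - n1 z := by
      have : n1 z < 1 := hz
      linarith
    rw [abs_le]
    constructor
    · nlinarith
    · nlinarith

end

end Vale.Agent.P144.H135
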