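import Vale.Agent.P144.H170.GradG
import Vale.Agent.P144.H436.Ker

/-!
Cut-off of functions which are subharmonic and bounded on an annulus.
-/

namespace Vale.Agent.P144.H135

open Finset Vale.Agent.P144
open Vale.Agent.P144.H170 (Pt D lap bx mem_bx bx_mono)

/-- The one-dimensional tent cut-off. -/
noncomputable def ct (n : ℕ) (k : ℤ) : ℝ := max 0 (min 1 (2 - |(k:ℝ)| / n))

theorem ct_nonneg (n : ℕ) (k : ℤ) : 0 ≤ ct n k := le_max_left _ _

theorem ct_le_one (n : ℕ) (k : ℤ) : ct n k ≤ 1 := max_le zero_le_one (min_le_left _ _)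

theorem ct_one {n : ℕ} (hn : 0 < n) {k : ℤ} (hk : |k| ≤ n) : ct n k = 1 := by
  have hn' : (0:ℝ) < n := by exact_mod_cast hn
  have hk' : |(k:ℝ)| ≤ n := by exact_mod_cast hk
  have h1 : |(k:ℝ)| / n ≤ 1 := by rw [div_le_one hn']; exact hk'
  unfold ct
  rw [min_eq_left (by linarith), max_eq_right zero_le_one]

theorem ct_zero {n : ℕ} (hn : 0 < n) {k : ℤ} (hk : 2 * (n:ℤ) ≤ |k|) : ct n k = 0 := by
  have hn' : (0:ℝ) < n := by exact_mod_cast hn
  have hk' : 2 * (n:ℝ) ≤ |(k:ℝ)| := by exact_mod_cast hk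
  have h1 : 2 ≤ |(k:ℝ)| / n := by rw [le_div_iff₀ hn']; exact hk'
  unfold ct
  rw [max_eq_left]
  exact (min_le_right _ _).trans (by linarith)

theorem ct_mid {n : ℕ} (hn : 0 < n) {k : ℤ} (h1 : (n:ℤ) ≤ |k|) (h2 : |k| ≤ 2 * (n:ℤ)) :
    ct n k = 2 - |(k:ℝ)| / n := by
  have hn' : (0:ℝ) < n := by exact_mod_cast hn
  have h1' : (n:ℝ) ≤ |(k:ℝ)| := by exact_mod_cast h1
  have h2' : |(k:ℝ)| ≤ 2 * n := by exact_mod_cast h2
  have h3 : 1 ≤ |(k:ℝ)| / n := by rw [le_div_iff₀ hn']; linarith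
  have h4 : |(k:ℝ)| / n ≤ 2 := by rw [div_le_iff₀ hn']; exact h2'
  unfold ct
  rw [min_eq_right (by linarith), max_eq_right (by linarith)]

theorem ct_neg (n : ℕ) (k : ℤ) : ct n (-k) = ct n k := by
  unfold ct; rw [Int.cast_neg, abs_neg]

theorem ct_lip {n : ℕ} (hn : 0 < n) (k : ℤ) : |ct n (k + 1) - ct n k| ≤ 1 / n := by
  have hn' : (0:ℝ) < n := by exact_mod_cast hn
  unfold ct
  refine (abs_max_sub_max_le_max _ _ _ _).trans ?_
  rw [sub_self, abs_zero, max_eq_right (abs_nonneg _)]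
  refine (abs_min_sub_min_le_max _ _ _ _).trans ?_
  rw [sub_self, abs_zero, max_eq_right (abs_nonneg _)]
  have e : 2 - |((k + 1 : ℤ) : ℝ)| / n - (2 - |(k:ℝ)| / n) =
      (|(k:ℝ)| - |((k + 1 : ℤ) : ℝ)|) / n := by ring
  rw [e, abs_div, abs_of_pos hn']
  gcongr
  refine (abs_abs_sub_abs_le _ _).trans ?_
  push_cast
  simp

/-- The second difference of the tent. -/
noncomputable def ct2 (n : ℕ) (k : ℤ) : ℝ := ct n (k + 1) + ct n (k - 1) - 2 * ct n k

theorem ct2_bound {n : ℕ} (hn : 0 < n) (k : ℤ) : |ct2 n k| ≤ 2 / n := by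
  have h1 := abs_le.1 (ct_lip hn k)
  have h2 := abs_le.1 (ct_lip hn (k - 1))
  rw [sub_add_cancel] at h2
  have e : (2:ℝ) / n = 1 / n + 1 / n := by ring
  unfold ct2
  rw [e, abs_le]
  constructor <;> linarith

theorem ct2_zero {n : ℕ} (hn : 0 < n) {k : ℤ} (h1 : |k| ≠ n) (h2 : |k| ≠ 2 * (n:ℤ)) :
    ct2 n k = 0 := by
  have hn' : (0:ℝ) < n := by exact_mod_cast hn
  unfold ct2
  have hcase : |k| < n ∨ ((n:ℤ) < |k| ∧ |k| < 2 * (n:ℤ)) ∨ 2 * (n:ℤ) < |k| := by lia
  rcases hcase with h | ⟨h3, h4⟩ | h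
  · rw [ct_one hn (by rw [abs_le]; rw [abs_lt] at h; lia),
      ct_one hn (by rw [abs_le]; rw [abs_lt] at h; lia), ct_one hn h.le]
    norm_num
  · rcases le_or_gt 0 k with hk | hk
    · rw [abs_of_nonneg hk] at h3 h4
      have e1 : |k + 1| = k + 1 := abs_of_nonneg (by lia)
      have e2 : |k - 1| = k - 1 := abs_of_nonneg (by lia)
      rw [ct_mid hn (by rw [e1]; lia) (by rw [e1]; lia), ct_mid hn (by rw [e2]; lia) (by rw [e2]; lia),
        ct_mid hn (by rw [abs_of_nonneg hk]; lia) (by rw [abs_of_nonneg hk]; lia)]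
      have k0 : (0:ℝ) ≤ k := by exact_mod_cast hk
      have k1 : (1:ℝ) ≤ k := by exact_mod_cast (by lia : 1 ≤ k)
      push_cast
      rw [abs_of_nonneg (by linarith : (0:ℝ) ≤ k + 1), abs_of_nonneg (by linarith : (0:ℝ) ≤ k - 1),
        abs_of_nonneg k0]
      ring
    · rw [abs_of_neg hk] at h3 h4
      have e1 : |k + 1| = -(k + 1) := abs_of_nonpos (by lia)
      have e2 : |k - 1| = -(k - 1) := abs_of_nonpos (by lia)
      rw [ct_mid hn (by rw [e1]; lia) (by rw [e1]; lia), ct_mid hn (by rw [e2]; lia) (by rw [e2]; lia),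
        ct_mid hn (by rw [abs_of_neg hk]; lia) (by rw [abs_of_neg hk]; lia)]
      have k0 : (k:ℝ) ≤ -1 := by exact_mod_cast (by lia : k ≤ -1)
      push_cast
      rw [abs_of_nonpos (by linarith : (k:ℝ) + 1 ≤ 0), abs_of_nonpos (by linarith : (k:ℝ) - 1 ≤ 0),
        abs_of_nonpos (by linarith : (k:ℝ) ≤ 0)]
      ring
  · have a1 : 2 * (n:ℤ) ≤ |k + 1| := by
      rcases le_or_gt 0 k with hk | hk
      · rw [abs_of_nonneg hk] at h
        rw [abs_of_nonneg (by lia : 0 ≤ k + 1)]; lia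
      · rw [abs_of_neg hk] at h
        rw [abs_of_nonpos (by lia : k + 1 ≤ 0)]; lia
    have a2 : 2 * (n:ℤ) ≤ |k - 1| := by
      rcases le_or_gt 0 k with hk | hk
      · rw [abs_of_nonneg hk] at h
        rw [abs_of_nonneg (by lia : 0 ≤ k - 1)]; lia
      · rw [abs_of_neg hk] at h
        rw [abs_of_nonpos (by lia : k - 1 ≤ 0)]; lia
    rw [ct_zero hn a1, ct_zero hn a2, ct_zero hn h.le]
    norm_num

theorem sum_ct2 {n : ℕ} (hn : 0 < n) (I : Finset ℤ) (c : ℤ) : ∑ k ∈ I, |ct2 n (k - c)| ≤ 8 / n := by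
  classical
  have hn' : (0:ℝ) < n := by exact_mod_cast hn
  set T : Finset ℤ := {c + n, c - n, c + 2 * n, c - 2 * n} with hT
  have hcard : (T.card : ℝ) ≤ 4 := by
    have : T.card ≤ 4 := Finset.card_le_four
    exact_mod_cast this
  have h0 : ∀ k ∈ I, k ∉ T → |ct2 n (k - c)| = 0 := by
    intro k _ hk
    rw [abs_eq_zero]
    simp only [hT, mem_insert, mem_singleton, not_or] at hk
    refine ct2_zero hn ?_ ?_
    · intro h
      rcases abs_choice (k - c) with h' | h' <;> rw [h'] at h <;> lia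
    · intro h
      rcases abs_choice (k - c) with h' | h' <;> rw [h'] at h <;> lia
  calc ∑ k ∈ I, |ct2 n (k - c)| = ∑ k ∈ I ∩ T, |ct2 n (k - c)| := by
        refine (sum_subset inter_subset_left fun k hk hk' => h0 k hk fun h => ?_).symm
        exact hk' (mem_inter.2 ⟨hk, h⟩)
    _ ≤ ∑ _k ∈ I ∩ T, 2 / (n:ℝ) := sum_le_sum fun k _ => ct2_bound hn _
    _ ≤ ∑ _k ∈ T, 2 / (n:ℝ) := sum_le_sum_of_subset_of_nonneg inter_subset_right
        fun _ _ _ => by positivity
    _ = T.card * (2 / n) := by rw [sum_const, nsmul_eq_mul]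
    _ ≤ 4 * (2 / n) := by gcongr
    _ = 8 / n := by ring

theorem sum_ct {n : ℕ} (hn : 0 < n) (I : Finset ℤ) (c : ℤ) : ∑ k ∈ I, ct n (k - c) ≤ 5 * n := by
  classical
  have hn' : (1:ℝ) ≤ n := by exact_mod_cast hn
  set T : Finset ℤ := Finset.Icc (c - 2 * n) (c + 2 * n) with hT
  have hcard : (T.card : ℝ) ≤ 5 * n := by
    have : T.card = 4 * n + 1 := by rw [hT, Int.card_Icc]; lia
    rw [this]; push_cast; linarith
  have h0 : ∀ k ∈ I, k ∉ T → ct n (k - c) = 0 := by
    intro k _ hk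
    simp only [hT, mem_Icc, not_and_or] at hk
    refine ct_zero hn ?_
    rcases hk with h | h
    · rw [abs_of_nonpos (by lia)]; lia
    · rw [abs_of_nonneg (by lia)]; lia
  calc ∑ k ∈ I, ct n (k - c) = ∑ k ∈ I ∩ T, ct n (k - c) := by
        refine (sum_subset inter_subset_left fun k hk hk' => h0 k hk fun h => ?_).symm
        exact hk' (mem_inter.2 ⟨hk, h⟩)
    _ ≤ ∑ _k ∈ I ∩ T, (1:ℝ) := sum_le_sum fun k _ => ct_le_one _ _
    _ ≤ ∑ _k ∈ T, (1:ℝ) := sum_le_sum_of_subset_of_nonneg inter_subset_right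
        fun _ _ _ => by positivity
    _ = T.card := by rw [sum_const, nsmul_eq_mul, mul_one]
    _ ≤ 5 * n := hcard

/-- The two-dimensional cut-off. -/
noncomputable def CT (c : Pt) (n : ℕ) (x : Pt) : ℝ := ct n (x.1 - c.1) * ct n (x.2 - c.2)

theorem CT_nonneg (c : Pt) (n : ℕ) (x : Pt) : 0 ≤ CT c n x :=
  mul_nonneg (ct_nonneg _ _) (ct_nonneg _ _)

theorem CT_le_one (c : Pt) (n : ℕ) (x : Pt) : CT c n x ≤ 1 :=
  mul_le_one₀ (ct_le_one _ _) (ct_nonneg _ _) (ct_le_one _ _)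

theorem CT_one {c x : Pt} {n : ℕ} (hn : 0 < n) (hx : x ∈ bx c n) : CT c n x = 1 := by
  rw [mem_bx] at hx
  unfold CT
  rw [ct_one hn (by rw [abs_le]; lia), ct_one hn (by rw [abs_le]; lia), one_mul]

theorem CT_zero {c x : Pt} {n : ℕ} (hn : 0 < n) (hx : x ∉ bx c (2 * n - 1)) : CT c n x = 0 := by
  rw [mem_bx] at hx
  have : 2 * (n:ℤ) ≤ |x.1 - c.1| ∨ 2 * (n:ℤ) ≤ |x.2 - c.2| := by
    by_contra h
    push Not at h
    apply hx
    have h1 := abs_lt.1 h.1
    have h2 := abs_lt.1 h.2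
    have e : ((2 * n - 1 : ℕ) : ℤ) = 2 * n - 1 := by lia
    rw [e]
    lia
  unfold CT
  rcases this with h | h
  · rw [ct_zero hn h, zero_mul]
  · rw [ct_zero hn h, mul_zero]

theorem CT_lip {c : Pt} {n : ℕ} (hn : 0 < n) {e : Pt} (he : e = (1, 0) ∨ e = (0, 1)) (x : Pt) :
    |CT c n (x + e) - CT c n x| ≤ 1 / n := by
  unfold CT
  rcases he with rfl | rfl
  · simp only [Prod.fst_add, Prod.snd_add, add_zero]
    rw [← sub_mul, abs_mul, abs_of_nonneg (ct_nonneg _ _), show x.1 + 1 - c.1 = x.1 - c.1 + 1 by ring]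
    exact (mul_le_of_le_one_right (abs_nonneg _) (ct_le_one _ _)).trans (ct_lip hn _)
  · simp only [Prod.fst_add, Prod.snd_add, add_zero]
    rw [← mul_sub, abs_mul, abs_of_nonneg (ct_nonneg _ _), show x.2 + 1 - c.2 = x.2 - c.2 + 1 by ring,
      mul_comm]
    exact (mul_le_of_le_one_right (abs_nonneg _) (ct_le_one _ _)).trans (ct_lip hn _)

theorem CT_lap (c : Pt) (n : ℕ) (x : Pt) : lap (CT c n) x =
    ct2 n (x.1 - c.1) * ct n (x.2 - c.2) + ct n (x.1 - c.1) * ct2 n (x.2 - c.2) := by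
  unfold lap CT ct2
  simp only [Prod.fst_add, Prod.snd_add, Prod.fst_sub, Prod.snd_sub, add_zero, sub_zero]
  rw [show x.1 + 1 - c.1 = x.1 - c.1 + 1 by ring, show x.1 - 1 - c.1 = x.1 - c.1 - 1 by ring,
    show x.2 + 1 - c.2 = x.2 - c.2 + 1 by ring, show x.2 - 1 - c.2 = x.2 - c.2 - 1 by ring]
  ring

theorem sum_CT_lap {c : Pt} {n : ℕ} (hn : 0 < n) (S : Finset Pt) :
    ∑ x ∈ S, |lap (CT c n) x| ≤ 80 := by
  classical
  have hn' : (0:ℝ) < n := by exact_mod_cast hn
  set I := S.image Prod.fst with hI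
  set J := S.image Prod.snd with hJ
  have hS : S ⊆ I ×ˢ J := fun x hx => mem_product.2 ⟨mem_image_of_mem _ hx, mem_image_of_mem _ hx⟩
  calc ∑ x ∈ S, |lap (CT c n) x| ≤ ∑ x ∈ I ×ˢ J, |lap (CT c n) x| :=
        sum_le_sum_of_subset_of_nonneg hS fun _ _ _ => abs_nonneg _
    _ ≤ ∑ x ∈ I ×ˢ J, (|ct2 n (x.1 - c.1)| * ct n (x.2 - c.2) +
        ct n (x.1 - c.1) * |ct2 n (x.2 - c.2)|) := by
        refine sum_le_sum fun x _ => ?_
        rw [CT_lap]
        refine (abs_add_le _ _).trans ?_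
        rw [abs_mul, abs_mul, abs_of_nonneg (ct_nonneg n (x.2 - c.2)),
          abs_of_nonneg (ct_nonneg n (x.1 - c.1))]
    _ = (∑ i ∈ I, |ct2 n (i - c.1)|) * (∑ j ∈ J, ct n (j - c.2)) +
        (∑ i ∈ I, ct n (i - c.1)) * (∑ j ∈ J, |ct2 n (j - c.2)|) := by
        rw [sum_add_distrib, sum_product, sum_product, sum_mul_sum, sum_mul_sum]
    _ ≤ 8 / n * (5 * n) + 5 * n * (8 / n) := by
        gcongr
        · exact sum_nonneg fun _ _ => ct_nonneg _ _
        · exact sum_ct2 hn _ _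
        · exact sum_ct hn _ _
        · exact sum_ct hn _ _
        · exact sum_ct2 hn _ _
    _ = 80 := by field_simp; norm_num

section cutoff

variable {c : Pt} {n : ℕ}

theorem bx_step {m : ℕ} {x : Pt} (hx : x ∈ bx c m) {e : Pt} (he : e = (1, 0) ∨ e = (0, 1)) :
    x + e ∈ bx c (m + 1) ∧ x - e ∈ bx c (m + 1) := by
  rw [mem_bx] at hx
  rw [mem_bx, mem_bx]
  push_cast
  rcases he with rfl | rfl <;>
  simp only [Prod.fst_add, Prod.snd_add, Prod.fst_sub, Prod.snd_sub, add_zero, sub_zero] <;> lia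

theorem bx_step' {m : ℕ} {x : Pt} {e : Pt} (he : e = (1, 0) ∨ e = (0, 1))
    (hx : x + e ∈ bx c m) : x ∈ bx c (m + 1) := by
  have := (bx_step hx he).2
  rwa [add_sub_cancel_right] at this

theorem bx_step'' {m : ℕ} {x : Pt} {e : Pt} (he : e = (1, 0) ∨ e = (0, 1))
    (hx : x - e ∈ bx c m) : x ∈ bx c (m + 1) := by
  have := (bx_step hx he).1
  rwa [sub_add_cancel] at this

/-- Where the cut-off moves. -/
theorem CT_move (hn : 0 < n) {e : Pt} (he : e = (1, 0) ∨ e = (0, 1)) {x : Pt}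
    (h : CT c n (x + e) ≠ CT c n x) :
    (x ∈ bx c (2 * n) ∧ x ∉ bx c (n - 1)) ∧ (x + e ∈ bx c (2 * n) ∧ x + e ∉ bx c (n - 1)) := by
  have e1 : n - 1 + 1 = n := by lia
  have e2 : 2 * n - 1 + 1 = 2 * n := by lia
  refine ⟨⟨?_, ?_⟩, ⟨?_, ?_⟩⟩
  · by_contra hc
    apply h
    rw [CT_zero hn (x := x) fun h' => hc (bx_mono (by lia) h'), CT_zero hn (x := x + e) fun h' => hc ?_]
    have := bx_step' he h'
    rwa [e2] at this
  · intro hc
    apply h
    have h1 := (bx_step hc he).1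
    rw [e1] at h1
    rw [CT_one hn h1, CT_one hn (bx_mono (by lia) hc)]
  · by_contra hc
    apply h
    rw [CT_zero hn (x := x + e) fun h' => hc (bx_mono (by lia) h'), CT_zero hn (x := x) fun h' => hc ?_]
    have := (bx_step h' he).1
    rwa [e2] at this
  · intro hc
    apply h
    have h1 := bx_step' he hc
    rw [e1] at h1
    rw [CT_one hn h1, CT_one hn (bx_mono (by lia) hc)]

theorem card_bx (c : Pt) (m : ℕ) : ((bx c m).card : ℝ) = (2 * m + 1) ^ 2 := by
  unfold H170.bx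
  rw [card_product, Int.card_Icc, Int.card_Icc]
  have h1 : (c.1 + (m:ℤ) + 1 - (c.1 - m)).toNat = 2 * m + 1 := by lia
  have h2 : (c.2 + (m:ℤ) + 1 - (c.2 - m)).toNat = 2 * m + 1 := by lia
  rw [h1, h2]; push_cast; ring

/-- The energy in the transition region. -/
theorem energy_ann (hn : 0 < n) {h : Pt → ℝ} {L : ℝ}
    (hL : ∀ x ∈ bx c (8 * n), x ∉ bx c (n - 1) → |h x| ≤ L)
    (hsub : ∀ x ∈ bx c (8 * n), x ∉ bx c n → 0 ≤ lap h x) :
    ∑ x ∈ (bx c (4 * n)).filter (fun x => x ∉ bx c (2 * n - 1)), D (1, 0) h x ^ 2 * (if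
        x + (1, 0) ∈ bx c (4 * n) ∧ x + (1, 0) ∉ bx c (2 * n - 1) then 1 else 0) ≤ 50000 * L ^ 2 ∧
    ∑ x ∈ (bx c (4 * n)).filter (fun x => x ∉ bx c (2 * n - 1)), D (0, 1) h x ^ 2 * (if
        x + (0, 1) ∈ bx c (4 * n) ∧ x + (0, 1) ∉ bx c (2 * n - 1) then 1 else 0) ≤
        50000 * L ^ 2 := by
  have hn' : (1:ℝ) ≤ n := by exact_mod_cast hn
  set η : Pt → ℝ := fun x => CT c (4 * n) x * (1 - CT c n x) with hη
  set h' : Pt → ℝ := fun x => h x + L with hh'
  have e84 : 2 * (4 * n) = 8 * n := by ring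
  have ne : ∀ x, η x ≠ 0 → x ∈ bx c (8 * n - 1) ∧ x ∉ bx c n := by
    intro x hx
    constructor
    · by_contra hc
      apply hx
      simp only [hη]
      rw [CT_zero (by lia) (by rw [e84]; exact hc), zero_mul]
    · intro hc
      apply hx
      simp only [hη]
      rw [CT_one hn hc]; ring
  have one : ∀ x, x ∈ bx c (4 * n) → x ∉ bx c (2 * n - 1) → η x = 1 := by
    intro x h1 h2
    simp only [hη]
    rw [CT_one (by lia) h1, CT_zero hn h2]; ring
  have hlap : ∀ x, lap h' x = lap h x := by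
    intro x; unfold lap; simp only [hh']; ring
  have key := H170.cacc_gen (h := h') (η := η) (c := c) (n := 8 * n)
    (fun x hx => by
      by_contra hc
      exact hx (bx_mono (by lia) (ne x hc).1))
    (fun x hx hx0 => by
      obtain ⟨h1, h2⟩ := ne x hx0
      rw [hlap]
      refine mul_nonneg (hsub x hx h2) ?_
      have := abs_le.1 (hL x hx fun h3 => h2 (bx_mono (by lia) h3))
      simp only [hh']; linarith)
  -- bound of the right side
  have hterm : ∀ e : Pt, (e = (1, 0) ∨ e = (0, 1)) → ∀ x, D e η x ^ 2 *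
      (h' (x + e) ^ 2 + h' x ^ 2) ≤ 32 * L ^ 2 / n ^ 2 := by
    intro e he x
    by_cases h0 : D e η x = 0
    · rw [h0]
      have : 0 ≤ 32 * L ^ 2 / (n:ℝ) ^ 2 := by positivity
      simpa using this
    · have hmem : (x ∈ bx c (8 * n) ∧ x ∉ bx c (n - 1)) ∧
          (x + e ∈ bx c (8 * n) ∧ x + e ∉ bx c (n - 1)) := by
        by_cases h1 : η x = 0
        · have h2 : η (x + e) ≠ 0 := by
            intro h3; apply h0; unfold D; rw [h1, h3, sub_zero]
          obtain ⟨a1, a2⟩ := ne _ h2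
          have b1 := bx_step' he a1
          rw [show 8 * n - 1 + 1 = 8 * n by lia] at b1
          refine ⟨⟨b1, fun hc => a2 ?_⟩, ⟨bx_mono (by lia) a1, fun hc => a2 (bx_mono (by lia) hc)⟩⟩
          have := (bx_step hc he).1
          rwa [show n - 1 + 1 = n by lia] at this
        · obtain ⟨a1, a2⟩ := ne _ h1
          have b1 := (bx_step a1 he).1
          rw [show 8 * n - 1 + 1 = 8 * n by lia] at b1
          refine ⟨⟨bx_mono (by lia) a1, fun hc => a2 (bx_mono (by lia) hc)⟩, ⟨b1, fun hc => a2 ?_⟩⟩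
          have := bx_step' he hc
          rwa [show n - 1 + 1 = n by lia] at this
      have b1 := abs_le.1 (hL x hmem.1.1 hmem.1.2)
      have b2 := abs_le.1 (hL _ hmem.2.1 hmem.2.2)
      have hL0 : 0 ≤ L := (abs_nonneg _).trans (hL x hmem.1.1 hmem.1.2)
      have c1 : h' x ^ 2 ≤ 4 * L ^ 2 := by
        simp only [hh']; nlinarith
      have c2 : h' (x + e) ^ 2 ≤ 4 * L ^ 2 := by
        simp only [hh']; nlinarith
      have d1 : |D e η x| ≤ 2 / n := by
        have l1 := CT_lip (c := c) (n := 4 * n) (by lia) he x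
        have l2 := CT_lip (c := c) hn he x
        have l3 : (1:ℝ) / ((4 * n : ℕ) : ℝ) ≤ 1 / n := by
          push_cast
          exact div_le_div_of_nonneg_left zero_le_one (by positivity) (by linarith)
        have u1 := CT_nonneg c (4 * n) x
        have u2 := CT_le_one c (4 * n) x
        have u3 := CT_nonneg c n (x + e)
        have u4 := CT_le_one c n (x + e)
        have e1 : D e η x = (CT c (4 * n) (x + e) - CT c (4 * n) x) * (1 - CT c n (x + e)) -
            CT c (4 * n) x * (CT c n (x + e) - CT c n x) := by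
          unfold D; simp only [hη]; ring
        rw [e1]
        refine (abs_sub _ _).trans ?_
        rw [abs_mul, abs_mul, abs_of_nonneg (by linarith : 0 ≤ 1 - CT c n (x + e)), abs_of_nonneg u1]
        have v1 := mul_le_of_le_one_right (abs_nonneg (CT c (4 * n) (x + e) - CT c (4 * n) x))
          (by linarith : 1 - CT c n (x + e) ≤ 1)
        have v2 := mul_le_of_le_one_left (abs_nonneg (CT c n (x + e) - CT c n x)) u2
        have e2 : (2:ℝ) / n = 1 / n + 1 / n := by ring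
        rw [e2]
        linarith
      have d2 : D e η x ^ 2 ≤ 4 / n ^ 2 := by
        rw [← sq_abs]
        calc |D e η x| ^ 2 ≤ (2 / n) ^ 2 := pow_le_pow_left₀ (abs_nonneg _) d1 2
          _ = 4 / n ^ 2 := by ring
      calc D e η x ^ 2 * (h' (x + e) ^ 2 + h' x ^ 2) ≤ 4 / n ^ 2 * (4 * L ^ 2 + 4 * L ^ 2) := by
            gcongr
        _ = 32 * L ^ 2 / n ^ 2 := by ring
  have hR : 2 * ∑ x ∈ bx c (8 * n + 1), (D (1, 0) η x ^ 2 * (h' (x + (1, 0)) ^ 2 + h' x ^ 2) +
      D (0, 1) η x ^ 2 * (h' (x + (0, 1)) ^ 2 + h' x ^ 2)) ≤ 50000 * L ^ 2 := by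
    calc _ ≤ 2 * ∑ _x ∈ bx c (8 * n + 1), (32 * L ^ 2 / (n:ℝ) ^ 2 + 32 * L ^ 2 / n ^ 2) := by
          gcongr with x _
          · exact hterm _ (Or.inl rfl) x
          · exact hterm _ (Or.inr rfl) x
      _ = 2 * ((2 * (8 * n + 1) + 1) ^ 2 * (64 * L ^ 2 / n ^ 2)) := by
          rw [sum_const, nsmul_eq_mul, card_bx]
          push_cast; ring
      _ ≤ 2 * ((19 * n) ^ 2 * (64 * L ^ 2 / n ^ 2)) := by
          gcongr
          linarith
      _ = 46208 * L ^ 2 := by field_simp; ring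
      _ ≤ 50000 * L ^ 2 := by nlinarith [sq_nonneg L]
  have key2 := key.trans hR
  have hD : ∀ e x, D e h' x = D e h x := by
    intro e x; unfold D; simp only [hh']; ring
  simp only [hD] at key2
  have part : ∀ e : Pt, (e = (1, 0) ∨ e = (0, 1)) →
      ∑ x ∈ (bx c (4 * n)).filter (fun x => x ∉ bx c (2 * n - 1)), D e h x ^ 2 * (if
        x + e ∈ bx c (4 * n) ∧ x + e ∉ bx c (2 * n - 1) then (1:ℝ) else 0) ≤
      ∑ x ∈ bx c (8 * n + 1), (η x ^ 2 + η (x + e) ^ 2) / 2 * D e h x ^ 2 := by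
    intro e he
    refine (sum_le_sum fun x hx => ?_).trans (sum_le_sum_of_subset_of_nonneg
      (s := (bx c (4 * n)).filter (fun x => x ∉ bx c (2 * n - 1)))
      (f := fun x => (η x ^ 2 + η (x + e) ^ 2) / 2 * D e h x ^ 2) ?_ fun _ _ _ => by positivity)
    · rw [mem_filter] at hx
      split_ifs with h1
      · rw [one x hx.1 hx.2, one _ h1.1 h1.2]; linarith
      · rw [mul_zero]; positivity
    · intro x hx
      exact bx_mono (by lia) (mem_filter.1 hx).1
  rw [sum_add_distrib] at key2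
  have p1 := part (1, 0) (Or.inl rfl)
  have p2 := part (0, 1) (Or.inr rfl)
  have q1 : 0 ≤ ∑ x ∈ bx c (8 * n + 1), (η x ^ 2 + η (x + (1, 0)) ^ 2) / 2 * D (1, 0) h x ^ 2 :=
    sum_nonneg fun _ _ => by positivity
  have q2 : 0 ≤ ∑ x ∈ bx c (8 * n + 1), (η x ^ 2 + η (x + (0, 1)) ^ 2) / 2 * D (0, 1) h x ^ 2 :=
    sum_nonneg fun _ _ => by positivity
  constructor <;> linarith

/-- The cross term. -/
theorem cross (hn : 0 < n) {h : Pt → ℝ} {L : ℝ} (hL0 : 0 ≤ L)
    (hL : ∀ x ∈ bx c (8 * n), x ∉ bx c (n - 1) → |h x| ≤ L)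
    (hsub : ∀ x ∈ bx c (8 * n), x ∉ bx c n → 0 ≤ lap h x) {e : Pt}
    (he : e = (1, 0) ∨ e = (0, 1)) (T : Finset Pt) :
    ∑ x ∈ T, |D e (CT c (2 * n)) x| * |D e h x| ≤ 1050 * L := by
  have hn' : (1:ℝ) ≤ n := by exact_mod_cast hn
  set F := (bx c (4 * n)).filter (fun x => x ∉ bx c (2 * n - 1)) with hF
  have e42 : 2 * (2 * n) = 4 * n := by ring
  have h1 : ∀ x ∈ T, |D e (CT c (2 * n)) x| * |D e h x| ≤
      if x ∈ F then 1 / (2 * n) * (|D e h x| * (if
        x + e ∈ bx c (4 * n) ∧ x + e ∉ bx c (2 * n - 1) then (1:ℝ) else 0)) else 0 := by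
    intro x _
    by_cases h0 : CT c (2 * n) (x + e) = CT c (2 * n) x
    · unfold D
      rw [h0, sub_self, abs_zero, zero_mul]
      split_ifs <;> positivity
    · have := CT_move (by lia : 0 < 2 * n) he h0
      rw [e42] at this
      rw [if_pos (mem_filter.2 this.1), if_pos this.2, mul_one]
      have l1 := CT_lip (c := c) (n := 2 * n) (by lia) he x
      push_cast at l1
      exact mul_le_mul_of_nonneg_right l1 (abs_nonneg _)
  have h2 : ∑ x ∈ F, D e h x ^ 2 * (if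
        x + e ∈ bx c (4 * n) ∧ x + e ∉ bx c (2 * n - 1) then (1:ℝ) else 0) ≤ 50000 * L ^ 2 := by
    have := energy_ann hn hL hsub
    rcases he with rfl | rfl
    · exact this.1
    · exact this.2
  have h3 : ∑ x ∈ F, |D e h x| * (if
        x + e ∈ bx c (4 * n) ∧ x + e ∉ bx c (2 * n - 1) then (1:ℝ) else 0) ≤ 2100 * n * L := by
    have cs := sum_mul_sq_le_sq_mul_sq F (fun x => |D e h x| * (if
        x + e ∈ bx c (4 * n) ∧ x + e ∉ bx c (2 * n - 1) then (1:ℝ) else 0)) (fun _ => 1)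
    simp only [mul_one, one_pow, sum_const, nsmul_eq_mul] at cs
    have e3 : ∀ x, (|D e h x| * (if
        x + e ∈ bx c (4 * n) ∧ x + e ∉ bx c (2 * n - 1) then (1:ℝ) else 0)) ^ 2 = D e h x ^ 2 * (if
        x + e ∈ bx c (4 * n) ∧ x + e ∉ bx c (2 * n - 1) then (1:ℝ) else 0) := by
      intro x
      split_ifs
      · rw [mul_one, mul_one, sq_abs]
      · simp
    simp only [e3] at cs
    have hcard : (F.card : ℝ) ≤ 81 * n ^ 2 := by
      have : (F.card : ℝ) ≤ ((bx c (4 * n)).card : ℝ) := by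
        exact_mod_cast card_le_card (filter_subset _ _)
      rw [card_bx] at this
      push_cast at this
      refine this.trans ?_
      nlinarith
    have h4 : (∑ x ∈ F, |D e h x| * (if
        x + e ∈ bx c (4 * n) ∧ x + e ∉ bx c (2 * n - 1) then (1:ℝ) else 0)) ^ 2 ≤
        (2100 * n * L) ^ 2 := by
      refine cs.trans ?_
      calc _ ≤ 50000 * L ^ 2 * (81 * n ^ 2) := by gcongr
        _ ≤ (2100 * n * L) ^ 2 := by nlinarith [sq_nonneg (n * L)]
    exact (abs_le_of_sq_le_sq' h4 (by positivity)).2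
  calc ∑ x ∈ T, |D e (CT c (2 * n)) x| * |D e h x|
      ≤ ∑ x ∈ T, if x ∈ F then 1 / (2 * n) * (|D e h x| * (if
        x + e ∈ bx c (4 * n) ∧ x + e ∉ bx c (2 * n - 1) then (1:ℝ) else 0)) else 0 :=
        sum_le_sum h1
    _ = ∑ x ∈ T.filter (· ∈ F), 1 / (2 * n) * (|D e h x| * (if
        x + e ∈ bx c (4 * n) ∧ x + e ∉ bx c (2 * n - 1) then (1:ℝ) else 0)) := by
        rw [sum_filter]
    _ ≤ ∑ x ∈ F, 1 / (2 * n) * (|D e h x| * (if
        x + e ∈ bx c (4 * n) ∧ x + e ∉ bx c (2 * n - 1) then (1:ℝ) else 0)) :=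
        sum_le_sum_of_subset_of_nonneg (fun x hx => (mem_filter.1 hx).2) fun _ _ _ => by
          split_ifs <;> positivity
    _ = 1 / (2 * n) * ∑ x ∈ F, (|D e h x| * (if
        x + e ∈ bx c (4 * n) ∧ x + e ∉ bx c (2 * n - 1) then (1:ℝ) else 0)) := by
        rw [mul_sum]
    _ ≤ 1 / (2 * n) * (2100 * n * L) := by gcongr
    _ = 1050 * L := by field_simp; ring

/-- The cut-off of a function which is subharmonic up to the mass `M` outside the box, and bounded
by `L` on an annulus. -/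
theorem cutoff (hn : 0 < n) {h : Pt → ℝ} {L M : ℝ} (hL0 : 0 ≤ L) {Λ S : Finset Pt}
    (h0 : ∀ x ∉ Λ, h x = 0) (hS : ∀ x ∉ S, lap h x = 0)
    (hL : ∀ x ∈ bx c (8 * n), x ∉ bx c (n - 1) → |h x| ≤ L)
    (hsub : ∀ x ∈ bx c (8 * n), x ∉ bx c n → 0 ≤ lap h x)
    (hneg : ∑ x ∈ S.filter (fun x => x ∉ bx c n), max 0 (-lap h x) ≤ M) :
    (∑ x ∈ S, (1 - CT c (2 * n) x) * |lap h x| ≤ 2100 * L + 2 * M) ∧ ∀ T : Finset Pt,
    ∑ x ∈ T, |lap (fun x => (1 - CT c (2 * n) x) * h x) x| ≤ 6380 * L + 2 * M := by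
  classical
  have c1 := cross hn hL0 hL hsub (e := (1, 0)) (Or.inl rfl)
  have c2 := cross hn hL0 hL hsub (e := (0, 1)) (Or.inr rfl)
  have e42 : 2 * (2 * n) = 4 * n := by ring
  have CT0 : ∀ x, x ∉ bx c (4 * n) → CT c (2 * n) x = 0 := fun x hx =>
    CT_zero (by lia) fun h' => hx (bx_mono (by lia) h')
  -- the total mass of `χ lap h`
  have hen := H170.energy (h := h) (φ := CT c (2 * n)) (c := c) (n := 4 * n) CT0
  have t1 : ∑ x ∈ S, lap h x = 0 := by
    have := H436.sum_lap_zero (u := h) (Λ := Λ) (S := S) h0 fun x hx => by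
      rw [H170.lap_eq]; exact hS x hx
    simp only [H170.lap_eq] at this
    exact this
  have t2 : ∑ x ∈ S, CT c (2 * n) x * lap h x = ∑ x ∈ bx c (4 * n), lap h x * CT c (2 * n) x := by
    have a1 : ∑ x ∈ S, CT c (2 * n) x * lap h x =
        ∑ x ∈ S ∪ bx c (4 * n), CT c (2 * n) x * lap h x :=
      sum_subset subset_union_left fun x _ hx => by rw [hS x hx, mul_zero]
    have a2 : ∑ x ∈ bx c (4 * n), CT c (2 * n) x * lap h x =
        ∑ x ∈ S ∪ bx c (4 * n), CT c (2 * n) x * lap h x :=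
      sum_subset subset_union_right fun x _ hx => by rw [CT0 x hx, zero_mul]
    rw [a1, ← a2]
    exact sum_congr rfl fun x _ => mul_comm _ _
  have t3 : |∑ x ∈ bx c (4 * n + 1), (D (1, 0) h x * D (1, 0) (CT c (2 * n)) x +
      D (0, 1) h x * D (0, 1) (CT c (2 * n)) x)| ≤ 2100 * L := by
    refine (abs_sum_le_sum_abs _ _).trans ?_
    calc _ ≤ ∑ x ∈ bx c (4 * n + 1), (|D (1, 0) (CT c (2 * n)) x| * |D (1, 0) h x| +
          |D (0, 1) (CT c (2 * n)) x| * |D (0, 1) h x|) := by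
          refine sum_le_sum fun x _ => ?_
          refine (abs_add_le _ _).trans (le_of_eq ?_)
          rw [abs_mul, abs_mul]; ring
      _ = _ := sum_add_distrib
      _ ≤ 1050 * L + 1050 * L := add_le_add (c1 _) (c2 _)
      _ = 2100 * L := by ring
  have t4 : ∑ x ∈ S, (1 - CT c (2 * n) x) * lap h x ≤ 2100 * L := by
    have : ∑ x ∈ S, (1 - CT c (2 * n) x) * lap h x =
        ∑ x ∈ S, lap h x - ∑ x ∈ S, CT c (2 * n) x * lap h x := by
      rw [← sum_sub_distrib]; exact sum_congr rfl fun x _ => by ring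
    rw [this, t1, t2]
    have := (abs_le.1 t3).2
    linarith
  have t5 : ∑ x ∈ S, (1 - CT c (2 * n) x) * |lap h x| ≤ 2100 * L + 2 * M := by
    have a1 : ∀ x ∈ S, (1 - CT c (2 * n) x) * |lap h x| ≤ (1 - CT c (2 * n) x) * lap h x +
        2 * (if x ∉ bx c n then max 0 (-lap h x) else 0) := by
      intro x _
      have u1 := CT_nonneg c (2 * n) x
      have u2 := CT_le_one c (2 * n) x
      by_cases hx : x ∈ bx c n
      · rw [if_neg (not_not.2 hx), CT_one (by lia) (bx_mono (by lia) hx)]; simp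
      · rw [if_pos hx]
        rcases le_total 0 (lap h x) with h1 | h1
        · rw [abs_of_nonneg h1, max_eq_left (by linarith)]; linarith
        · rw [abs_of_nonpos h1, max_eq_right (by linarith)]
          nlinarith
    refine (sum_le_sum a1).trans ?_
    rw [sum_add_distrib, ← mul_sum, ← sum_filter]
    linarith
  refine ⟨t5, fun T => ?_⟩
  set χ : Pt → ℝ := fun x => 1 - CT c (2 * n) x with hχ
  have dec : ∀ x, |lap (fun x => χ x * h x) x| ≤ χ x * |lap h x| +
      (|D (1, 0) (CT c (2 * n)) x| * |D (1, 0) h x| +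
        |D (1, 0) (CT c (2 * n)) (x - (1, 0))| * |D (1, 0) h (x - (1, 0))| +
        |D (0, 1) (CT c (2 * n)) x| * |D (0, 1) h x| +
        |D (0, 1) (CT c (2 * n)) (x - (0, 1))| * |D (0, 1) h (x - (0, 1))|) +
      L * |lap (CT c (2 * n)) x| := by
    intro x
    have e1 : lap (fun x => χ x * h x) x = χ x * lap h x +
        (-(D (1, 0) (CT c (2 * n)) x * D (1, 0) h x) -
        D (1, 0) (CT c (2 * n)) (x - (1, 0)) * D (1, 0) h (x - (1, 0)) -
        D (0, 1) (CT c (2 * n)) x * D (0, 1) h x -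
        D (0, 1) (CT c (2 * n)) (x - (0, 1)) * D (0, 1) h (x - (0, 1))) -
        h x * lap (CT c (2 * n)) x := by
      unfold lap D
      simp only [hχ, sub_add_cancel]
      ring
    have hl : |h x * lap (CT c (2 * n)) x| ≤ L * |lap (CT c (2 * n)) x| := by
      rw [abs_mul]
      by_cases hz : lap (CT c (2 * n)) x = 0
      · rw [hz]; simp
      · refine mul_le_mul_of_nonneg_right ?_ (abs_nonneg _)
        refine hL x ?_ ?_
        · by_contra hc
          apply hz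
          unfold lap
          have k1 : ∀ y, y ∉ bx c (4 * n - 1) → CT c (2 * n) y = 0 := fun y hy =>
            CT_zero (by lia) (by rw [e42]; exact hy)
          have k0 : x ∉ bx c (4 * n) := fun h' => hc (bx_mono (by lia) h')
          have k2 : ∀ e : Pt, (e = (1, 0) ∨ e = (0, 1)) → x + e ∉ bx c (4 * n - 1) := fun e he h' =>
            k0 (by have := bx_step' he h'; rwa [show 4 * n - 1 + 1 = 4 * n by lia] at this)
          have k3 : ∀ e : Pt, (e = (1, 0) ∨ e = (0, 1)) → x - e ∉ bx c (4 * n - 1) := fun e he h' =>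
            k0 (by have := bx_step'' he h'; rwa [show 4 * n - 1 + 1 = 4 * n by lia] at this)
          rw [k1 _ (k2 _ (Or.inl rfl)), k1 _ (k3 _ (Or.inl rfl)), k1 _ (k2 _ (Or.inr rfl)),
            k1 _ (k3 _ (Or.inr rfl)), CT0 _ k0]
          ring
        · intro hc
          apply hz
          unfold lap
          have k1 : ∀ y, y ∈ bx c (2 * n) → CT c (2 * n) y = 1 := fun y hy => CT_one (by lia) hy
          have m1 := bx_step hc (e := (1, 0)) (Or.inl rfl)
          have m2 := bx_step hc (e := (0, 1)) (Or.inr rfl)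
          rw [k1 _ (bx_mono (by lia) m1.1), k1 _ (bx_mono (by lia) m1.2),
            k1 _ (bx_mono (by lia) m2.1), k1 _ (bx_mono (by lia) m2.2), k1 _ (bx_mono (by lia) hc)]
          ring
    have hx0 : 0 ≤ χ x := by
      simp only [hχ]; linarith [CT_le_one c (2 * n) x]
    rw [e1]
    refine (abs_sub _ _).trans (add_le_add ((abs_add_le _ _).trans (add_le_add ?_ ?_)) hl)
    · rw [abs_mul, abs_of_nonneg hx0]
    · rw [← abs_mul, ← abs_mul, ← abs_mul, ← abs_mul]
      refine (abs_sub _ _).trans (add_le_add ((abs_sub _ _).trans (add_le_add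
        ((abs_sub _ _).trans (add_le_add ?_ le_rfl)) le_rfl)) le_rfl)
      rw [abs_neg]
  have sh : ∀ e : Pt, ∀ F : Pt → ℝ, (∀ T : Finset Pt, ∑ x ∈ T, F x ≤ 1050 * L) →
      ∑ x ∈ T, F (x - e) ≤ 1050 * L := by
    intro e F hF
    have := hF (T.image fun x => x - e)
    rwa [sum_image (fun x _ y _ hxy => by simpa using hxy)] at this
  calc ∑ x ∈ T, |lap (fun x => χ x * h x) x|
      ≤ ∑ x ∈ T, (χ x * |lap h x| +
      (|D (1, 0) (CT c (2 * n)) x| * |D (1, 0) h x| +
        |D (1, 0) (CT c (2 * n)) (x - (1, 0))| * |D (1, 0) h (x - (1, 0))| +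
        |D (0, 1) (CT c (2 * n)) x| * |D (0, 1) h x| +
        |D (0, 1) (CT c (2 * n)) (x - (0, 1))| * |D (0, 1) h (x - (0, 1))|) +
      L * |lap (CT c (2 * n)) x|) := sum_le_sum fun x _ => dec x
    _ ≤ (2100 * L + 2 * M) + (1050 * L + 1050 * L + 1050 * L + 1050 * L) + L * 80 := by
        rw [sum_add_distrib, sum_add_distrib, sum_add_distrib, sum_add_distrib, sum_add_distrib,
          ← mul_sum]
        refine add_le_add (add_le_add ?_ (add_le_add (add_le_add (add_le_add (c1 T)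
          (sh (1, 0) _ c1)) (c2 T)) (sh (0, 1) _ c2))) ?_
        · refine le_trans ?_ t5
          have a1 : ∑ x ∈ T, χ x * |lap h x| ≤ ∑ x ∈ T ∪ S, χ x * |lap h x| :=
            sum_le_sum_of_subset_of_nonneg subset_union_left fun x _ _ => mul_nonneg (by
              simp only [hχ]; linarith [CT_le_one c (2 * n) x]) (abs_nonneg _)
          refine a1.trans (le_of_eq ?_)
          exact (sum_subset subset_union_right fun x _ hx => by rw [hS x hx, abs_zero, mul_zero]).symm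
        · exact mul_le_mul_of_nonneg_left (sum_CT_lap (by lia) T) hL0
    _ = 6380 * L + 2 * M := by ring

end cutoff

end Vale.Agent.P144.H135
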