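import Vale.Agent.P144.H135.Bulk17

/-!
The limits of the kernel of the fermions between energies: dependence on the directions.
-/

namespace Vale.Agent.P144.H135

open Finset Vale.Agent.P144 Filter Topology
open Vale.Agent.P144.H436 (nn Good0 Rp_rM)
open Vale.Agent.P144.H170 (Pt pt tauF theF rM mem_rM rM_nodup tauR_rM nf ev_nf ev_nf_of pos cF RR RS
  RS_ne RS_cont RR_eq gs gs_sq gs_bdd VS phA phB phC phE Mk notMem_Mk pos_eq cF_lim phA_apply
  phB_apply phC_apply)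

/-- The component of the type. -/
noncomputable def phT (u : Site) : ℂ →L[ℝ] ℝ :=
  if u = (0, 0) then phA else if u = (1, 0) then phB else phC

theorem phT_A : phT (0, 0) = phA := by unfold phT; rw [if_pos rfl]
theorem phT_B : phT (1, 0) = phB := by unfold phT; rw [if_neg (by simp), if_pos rfl]
theorem phT_C : phT (0, 1) = phC := by unfold phT; rw [if_neg (by simp), if_neg (by simp)]

theorem phT_sum (w : ℂ) : phT (1, 0) w + phT (0, 1) w = √2 * phT (0, 0) w := by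
  rw [phT_A, phT_B, phT_C, phA_apply, phB_apply, phC_apply]
  have h2 : √2 * √2 = 2 := Real.mul_self_sqrt (by norm_num)
  have h0 : √2 ≠ 0 := by positivity
  field_simp
  linear_combination (-w.re) * h2

variable {p : Pts} {x y : AL.Lb p.n p.m} {k l : Fin p.m} {u0 u1 : Site} {s t s1 t1 : ℝ}

/-- The limit of the kernel at the target, explicit form. -/
theorem tgt' (hp : Good0 p) (hx : Ctp p x k u0 s t) (hy : Ctp p y l u1 s1 t1)
      (hz : p.y k ∈ (Dia \ {p.y l}) \ Mk p.x w0)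
      {U : Filter ℝ} (hU : U ≤ 𝓝[>] 0) {δ : ℝ} {S : Fin p.n → Prop} {QA QB QC QE : Pt → ℝ}
      {κ0 : ℂ} {q Y : ℂ → ℂ} (hB : BLim U (fun a => a) (rz p.x) p.x (cz (p.y l) u1) (p.y l) δ
      (fun a => bA (nn a) (fun i => rz p.x i a) (cz (p.y l) u1 a))
      (fun a => bB (nn a) (fun i => rz p.x i a) (cz (p.y l) u1 a))
      (fun a => bC (nn a) (fun i => rz p.x i a) (cz (p.y l) u1 a))
      (fun a => bE (nn a) (fun i => rz p.x i a) (cz (p.y l) u1 a)) S QA QB QC QE κ0 q Y) :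
      Tendsto (fun a : ℝ => a⁻¹ * (sg0 S (fun i => rz p.x i a) (cz (p.y l) u1 a) *
        AL.Kn p a x y) - phT u0 (q (p.y k) / RR a (fun i => rz p.x i a) (fun q => v0 q a)
        (pos a (fl a (p.y k)) s t))) U (𝓝 0) := by
  have hKn : ∀ a : ℝ, AL.Kn p a x y = AL.Wf (dia (nn a)) (rM fun i => rz p.x i a)
        [cz (p.y k) u0 a, cz (p.y l) u1 a] := by
    intro a
    unfold AL.Kn
    rw [Rp_rM, hx.c, hy.c]
    rfl
  rcases hx.h with ⟨rfl, rfl, rfl⟩ | ⟨rfl, rfl, rfl⟩ | ⟨rfl, rfl, rfl⟩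
  · rw [phT_A]
    have h1 := (hB.slim.A _ hz).comp (seq_nf ((AL.flt (p.y k)).mono_left hU))
    refine h1.congr' ?_
    filter_upwards [(dia_ev (hp.2.1 k) (0, 0) (Or.inl rfl)).filter_mono hU] with a ha
    have e0 : fl a (p.y k) + (0, 0) = fl a (p.y k) := by ext <;> simp
    rw [e0] at ha
    simp only [Function.comp_apply]
    rw [eA_Wf _ _ _ ha, hKn a]
    have e1 : cz (p.y k) (0, 0) a = (fl a (p.y k), fl a (p.y k)) := by unfold cz; rw [e0]
    rw [e1]
  · rw [phT_B]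
    have h1 := (hB.slim.B _ hz).comp (seq_nf ((AL.flt (p.y k)).mono_left hU))
    refine h1.congr' ?_
    filter_upwards [(dia_ev (hp.2.1 k) (1, 0) (Or.inr (Or.inl rfl))).filter_mono hU] with a ha
    have e0 : fl a (p.y k) + (1, 0) = ((fl a (p.y k)).1 + 1, (fl a (p.y k)).2) := by ext <;> simp
    rw [e0] at ha
    simp only [Function.comp_apply]
    rw [eB_Wf _ _ _ ha, hKn a]
    have e1 : cz (p.y k) (1, 0) a = (((fl a (p.y k)).1 + 1, (fl a (p.y k)).2), fl a (p.y k)) := by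
      unfold cz; rw [e0]
    rw [e1]
  · rw [phT_C]
    have h1 := (hB.slim.C _ hz).comp (seq_nf ((AL.flt (p.y k)).mono_left hU))
    refine h1.congr' ?_
    filter_upwards [(dia_ev (hp.2.1 k) (0, 1) (Or.inr (Or.inr rfl))).filter_mono hU] with a ha
    have e0 : fl a (p.y k) + (0, 1) = ((fl a (p.y k)).1, (fl a (p.y k)).2 + 1) := by ext <;> simp
    rw [e0] at ha
    simp only [Function.comp_apply]
    rw [eC_Wf _ _ _ ha, hKn a]
    have e1 : cz (p.y k) (0, 1) a = (((fl a (p.y k)).1, (fl a (p.y k)).2 + 1), fl a (p.y k)) := by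
      unfold cz; rw [e0]
    rw [e1]

theorem Ctp.congr_j (hy : y = .lo l ∨ y = .hi l) (h : Ctp p y l u1 s1 t1)
    {j' : Fin p.m → Fin 2} (hj : j' l = p.j l) : Ctp { p with j := j' } y l u1 s1 t1 := by
  rcases hy with rfl | rfl
  · exact ⟨h.c, h.w, h.h⟩
  · refine ⟨fun a => ?_, fun a => ?_, h.h⟩
    · rw [← h.c a]
      show ((fl a (p.y l) + dir (j' l), fl a (p.y l)) : AL.Cn) =
        (fl a (p.y l) + dir (p.j l), fl a (p.y l))
      rw [hj]
    · rw [← h.w a]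
      show (if j' l = 0 then _ else _) = if p.j l = 0 then _ else _
      rw [hj]

/-- **Two energies**, with the dependence on the direction of the first one. -/
theorem k3J (hp : Good0 p) (hkl : k ≠ l) (hy : y = .lo l ∨ y = .hi l) :
    ∃ T : Site → ℂ, T (1, 0) + T (0, 1) = ((√2 : ℝ) : ℂ) * T (0, 0) ∧
    ∀ j' : Fin p.m → Fin 2, j' l = p.j l → ∀ (x : AL.Lb p.n p.m) (u0 : Site) (s t : ℝ),
      Ctp { p with j := j' } x k u0 s t → Tendsto (fun a : ℝ =>
      AL.rho { p with j := j' } a x * AL.rho { p with j := j' } a y *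
        (AL.Kn { p with j := j' } a x y : ℂ) / a) (𝓝[>] 0) (𝓝 (T u0)) := by
  obtain ⟨u1, s1, t1, cy⟩ := exists_Ctp hy
  obtain ⟨δ, G⟩ := Good0.geo hp l
  obtain ⟨S, hS⟩ := G.pat
  obtain ⟨QA, QB, QC, QE, κ0, K⟩ := exists_ker u1 cy.cnr
  have hzM := Good0.nM hp k
  have hz : p.y k ∈ (Dia \ {p.y l}) \ Mk p.x w0 :=
    ⟨⟨hp.2.1 k, fun h => hkl (Good0.y_inj hp h)⟩, hzM⟩
  obtain ⟨S', S'', hS'⟩ := H170.exists_pattern (ζ := p.x) (ω := w0) (z := p.y k)
    (notMem_Mk.1 hzM).1 (fun q => q.elim)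
  have e'' : S'' = F0 := funext fun q => q.elim
  rw [e''] at hS'
  have hzl : p.y l ∈ VS S F0 p.x w0 := hS (Metric.mem_closedBall_self (by
    have := G.δ0; positivity))
  have hU0 := Ultrafilter.of_le (𝓝[>] (0:ℝ))
  obtain ⟨q, Y, hB⟩ := G.blim hU0 cy.cnr K hS
  refine ⟨fun u => RS S F0 p.x w0 (p.y l) * (RS S' F0 p.x w0 (p.y k) *
    (phT u (q (p.y k) / RS S' F0 p.x w0 (p.y k)) : ℂ)), ?_, ?_⟩
  · have h1 := phT_sum (q (p.y k) / RS S' F0 p.x w0 (p.y k))
    have h2 : ((phT (1, 0) (q (p.y k) / RS S' F0 p.x w0 (p.y k)) : ℝ) : ℂ) +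
        ((phT (0, 1) (q (p.y k) / RS S' F0 p.x w0 (p.y k)) : ℝ) : ℂ) =
        ((√2 : ℝ) : ℂ) * ((phT (0, 0) (q (p.y k) / RS S' F0 p.x w0 (p.y k)) : ℝ) : ℂ) := by
      rw [← Complex.ofReal_add, ← Complex.ofReal_mul, h1]
    linear_combination (RS S F0 p.x w0 (p.y l) * RS S' F0 p.x w0 (p.y k)) * h2
  intro j' hj x u0 s t cx
  have cy' := cy.congr_j hy hj
  have hp' : Good0 { p with j := j' } := hp
  refine (tendsto_iff_ultrafilter _ _ _).2 fun V hV => ?_
  obtain ⟨q', Y', hB'⟩ := G.blim hV cy.cnr K hS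
  obtain ⟨hq, -⟩ := blim_unique (G.pos hU0 u1) hS hB hB'
  rw [hq _ hz.1.1 hz.1.2]
  have h1 := tgt' (p := { p with j := j' }) hp' cx cy' hz hV hB'
  have h2 := rr_mul (a := fun a : ℝ => a) hV (r := rz p.x) (ζ := p.x)
    (fun i => (AL.flt (p.x i)).mono_left hV) (w := fun a => fl a (p.y k))
    ((AL.flt (p.y k)).mono_left hV) hS' cx.hs h1
  have h3 := (src_rho (p := { p with j := j' }) cy' hzl hV).mul h2
  refine h3.congr' (Eventually.of_forall fun a => ?_)
  rw [← rho_RR (p := { p with j := j' }) a cx]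
  have h5 : (sg0 S (fun i => rz p.x i a) (cz (p.y l) u1 a) : ℂ) *
      sg0 S (fun i => rz p.x i a) (cz (p.y l) u1 a) = 1 := by
    rw [← Complex.ofReal_mul, sg0_sq]; simp
  push_cast
  rw [div_eq_mul_inv]
  linear_combination (AL.rho { p with j := j' } a y * AL.rho { p with j := j' } a x * (a:ℂ)⁻¹ *
    (AL.Kn { p with j := j' } a x y : ℂ)) * h5

end Vale.Agent.P144.H135
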