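import Vale.Agent.P144.H135.Jind

/-!
The two corners of an energy: dependence on the direction.
-/

namespace Vale.Agent.P144.H135

open Finset Vale.Agent.P144 Filter Topology
open Vale.Agent.P144.H436 (nn Good0 Rp_rM)
open Vale.Agent.P144.H170 (Pt pt tauF theF rM mem_rM rM_nodup tauR_rM nf ev_nf ev_nf_of pos cF RR RS
  RS_ne RS_cont RR_eq gs gs_sq gs_bdd VS phA phB phC phE Mk notMem_Mk pos_eq cF_lim phA_apply
  phB_apply phC_apply)

variable {p : Pts} {k : Fin p.m}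

/-- The value at the source. -/
theorem src_Wf {N : ℕ} {R : Multiset Site} {c : AL.Cn} : AL.Wf (dia N) R [c, c] = AL.ep c c := by
  rw [Wf_two, src_one, mul_one]

/-- The type of the upper corner. -/
theorem hi_type {u0 : Site} {s t : ℝ} (h : Ctp p (.hi k) k u0 s t) :
    (u0 = (1, 0) ∧ s = 3 / 4 ∧ t = 1 / 4) ∨ (u0 = (0, 1) ∧ s = 1 / 4 ∧ t = 3 / 4) := by
  rcases h.h with ⟨h1, -, -⟩ | h1 | h1
  · exfalso
    have h2 := h.c 1
    have h3 : ((fl 1 (p.y k) + dir (p.j k), fl 1 (p.y k)) : AL.Cn) = cz (p.y k) u0 1 := h2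
    unfold cz at h3
    have h4 := (Prod.mk.injEq _ _ _ _ ▸ h3).1
    have h5 := add_left_cancel h4
    rw [h1] at h5
    unfold dir at h5
    split_ifs at h5 <;> simp at h5
  · exact Or.inl h1
  · exact Or.inr h1

/-- **The two corners of an energy**, with the dependence on the direction. -/
theorem k4J (hp : Good0 p) (k : Fin p.m) :
    ∃ T : Site → ℂ, T (1, 0) + T (0, 1) = 0 ∧
    ∀ (j' : Fin p.m → Fin 2) (u0 : Site) (s t : ℝ), Ctp { p with j := j' } (.hi k) k u0 s t →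
    Tendsto (fun a : ℝ => AL.rho { p with j := j' } a (.lo k) * AL.rho { p with j := j' } a (.hi k) *
      ((AL.Kn { p with j := j' } a (.lo k) (.hi k) -
      AL.sgn { p with j := j' } a k * AL.Wf (dia (nn a)) 0 [AL.cnp { p with j := j' } a (.lo k),
        AL.cnp { p with j := j' } a (.hi k)] : ℝ) : ℂ) / a) (𝓝[>] 0) (𝓝 (T u0)) := by
  have cx := ct_lo (p := p) k
  obtain ⟨δ, G⟩ := Good0.geo hp k
  obtain ⟨S, hS⟩ := G.pat
  obtain ⟨QA, QB, QC, QE, κ0, K⟩ := exists_ker (0, 0) cx.cnr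
  have G0 := G.empty
  have hδ := G.δ0
  have hS0 : Metric.closedBall (p.y k) (24 * δ) ⊆ VS F0 F0 w0 w0 := fun z _ =>
    ⟨fun q => q.elim, fun q => q.elim⟩
  have hzb : p.y k ∈ Metric.closedBall (p.y k) (24 * δ) := Metric.mem_closedBall_self (by positivity)
  have hzo : p.y k ∈ Metric.ball (p.y k) (24 * δ) := Metric.mem_ball_self (by positivity)
  have hz : p.y k ∈ VS S F0 p.x w0 := hS hzb
  have hU0 := Ultrafilter.of_le (𝓝[>] (0:ℝ))
  obtain ⟨q, Y, hB⟩ := G.blim hU0 cx.cnr K hS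
  obtain ⟨q0, Y0, hB0⟩ := G0.blim hU0 cx.cnr K hS0
  have e00 : ∀ a, fl a (p.y k) + (0, 0) = fl a (p.y k) := fun a => by ext <;> simp
  have ecz : ∀ a, cz (p.y k) (0, 0) a = (fl a (p.y k), fl a (p.y k)) := fun a => by
    unfold cz; rw [e00]
  have sg1 : ∀ a, sg0 F0 (fun q => rz w0 q a) (cz (p.y k) (0, 0) a) = 1 := by
    intro a
    unfold sg0 gs
    simp
  have gr1 : ∀ (a t : ℝ), gr F0 (fun q => rz w0 q a) t = 1 := by
    intro a t
    unfold gr gs
    simp
  have sgr : ∀ a, sg0 S (fun i => rz p.x i a) (cz (p.y k) (0, 0) a) =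
      gr S (fun i => rz p.x i a) ((fl a (p.y k)).1 + 1 / 4) := by
    intro a
    rw [cx.sg0]
    unfold gr
    have e : (fun q : Empty => (q.elim : Site)) = fun q => v0 q a := by
      funext q; exact q.elim
    rw [e]
    rfl
  -- the A-components agree at the source
  have hA : phA (Y (p.y k)) = phA (Y0 (p.y k)) := by
    have h1 := (hB.A _ hzo).comp (seq_nf ((AL.flt (p.y k)).mono_left hU0))
    have h2 := (hB0.A _ hzo).comp (seq_nf ((AL.flt (p.y k)).mono_left hU0))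
    refine tendsto_nhds_unique h1 (h2.congr' ?_)
    filter_upwards [(dia_ev (hp.2.1 k) (0, 0) (Or.inl rfl)).filter_mono hU0] with a g2
    rw [e00] at g2
    simp only [Function.comp_apply]
    rw [eA_Wf _ _ _ g2, eA_Wf _ _ _ g2, sg1, gr1, sgr, ecz, src_Wf, src_Wf]
    linear_combination (-(a⁻¹ * AL.ep (fl a (p.y k), fl a (p.y k)) (fl a (p.y k), fl a (p.y k)))) *
      gr_sq S (fun i => rz p.x i a) ((fl a (p.y k)).1 + 1 / 4)
  refine ⟨fun u => -(RS S F0 p.x w0 (p.y k) * (RS S F0 p.x w0 (p.y k)) *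
    ((phT u (Y (p.y k)) - phT u (Y0 (p.y k)) : ℝ) : ℂ)), ?_, ?_⟩
  · have h1 := phT_sum (Y (p.y k))
    have h2 := phT_sum (Y0 (p.y k))
    rw [phT_A] at h1 h2
    have h3 : (phT (1, 0) (Y (p.y k)) - phT (1, 0) (Y0 (p.y k)) : ℝ) =
        -(phT (0, 1) (Y (p.y k)) - phT (0, 1) (Y0 (p.y k))) := by
      rw [hA] at h1; linarith
    simp only
    rw [h3]
    push_cast
    ring
  intro j' u0 s t ch
  have cx' := ct_lo (p := { p with j := j' }) k
  refine (tendsto_iff_ultrafilter _ _ _).2 fun V hV => ?_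
  obtain ⟨q', Y', hB'⟩ := G.blim hV cx.cnr K hS
  obtain ⟨q0', Y0', hB0'⟩ := G0.blim hV cx.cnr K hS0
  obtain ⟨-, hY⟩ := blim_unique (G.pos hU0 (0, 0)) hS hB hB'
  obtain ⟨-, hY0⟩ := blim_unique (G0.pos hU0 (0, 0)) hS0 hB0 hB0'
  rw [hY _ hzo, hY0 _ hzo]
  have r1 := src_rho (p := { p with j := j' }) cx' hz hV
  have r2 := src_rho (p := { p with j := j' }) ch hz hV
  have hKn : ∀ a : ℝ, AL.Kn { p with j := j' } a (.lo k) (.hi k) =
      -AL.Wf (dia (nn a)) (rM fun i => rz p.x i a)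
      [cz (p.y k) u0 a, cz (p.y k) (0, 0) a] := by
    intro a
    have h1 : AL.Kn { p with j := j' } a (.lo k) (.hi k) =
        AL.Wf (dia (nn a)) (rM fun i => rz p.x i a)
        [AL.cnp { p with j := j' } a (.lo k), AL.cnp { p with j := j' } a (.hi k)] := by
      unfold AL.Kn
      rw [Rp_rM]
      rfl
    rw [h1, cx'.c, ch.c]
    refine AL.Wf_swap _ _ (cz_cnr cx.cnr _ _) (cz_cnr ch.cnr _ _) ?_
    intro h
    unfold cz at h
    have h4 := (Prod.mk.injEq _ _ _ _ ▸ h).1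
    have h5 := add_left_cancel h4
    rcases hi_type ch with ⟨h6, -⟩ | ⟨h6, -⟩ <;> rw [h6] at h5 <;> simp at h5
  have hK0 : ∀ a : ℝ, AL.Wf (dia (nn a)) 0 [AL.cnp { p with j := j' } a (.lo k),
      AL.cnp { p with j := j' } a (.hi k)] =
      -AL.Wf (dia (nn a)) (rM fun q => rz w0 q a)
      [cz (p.y k) u0 a, cz (p.y k) (0, 0) a] := by
    intro a
    rw [rM_empty, cx'.c, ch.c]
    refine AL.Wf_swap _ _ (cz_cnr cx.cnr _ _) (cz_cnr ch.cnr _ _) ?_
    intro h
    unfold cz at h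
    have h4 := (Prod.mk.injEq _ _ _ _ ▸ h).1
    have h5 := add_left_cancel h4
    rcases hi_type ch with ⟨h6, -⟩ | ⟨h6, -⟩ <;> rw [h6] at h5 <;> simp at h5
  -- the sign
  have hsgn : ∀ᶠ a in (V : Filter ℝ), AL.sgn { p with j := j' } a k =
      gr S (fun i => rz p.x i a) ((fl a (p.y k)).1 + s) *
      gr S (fun i => rz p.x i a) ((fl a (p.y k)).1 + 1 / 4) := by
    filter_upwards [(sgn_ev (p := { p with j := j' }) ch hz).filter_mono hV] with a g1
    rw [g1]
    congr 1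
    rw [ch.sg0]
    unfold gr
    have e : (fun q : Empty => (q.elim : Site)) = fun q => v0 q a := by
      funext q; exact q.elim
    rw [e]
    rfl
  have hsrc : ∀ a, (sg0 S (fun i => rz p.x i a) (cz (p.y k) u0 a)) =
      gr S (fun i => rz p.x i a) ((fl a (p.y k)).1 + s) := by
    intro a
    rw [ch.sg0]
    unfold gr
    have e : (fun q : Empty => (q.elim : Site)) = fun q => v0 q a := by
      funext q; exact q.elim
    rw [e]
    rfl
  -- the main limit
  have main : Tendsto (fun a : ℝ => a⁻¹ * (gr S (fun i => rz p.x i a) ((fl a (p.y k)).1 + 1 / 4) *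
      (gr S (fun i => rz p.x i a) ((fl a (p.y k)).1 + s) *
      AL.Wf (dia (nn a)) (rM fun i => rz p.x i a) [cz (p.y k) u0 a, cz (p.y k) (0, 0) a]) -
      AL.Wf (dia (nn a)) (rM fun i => rz w0 i a) [cz (p.y k) u0 a, cz (p.y k) (0, 0) a])) V
      (𝓝 (phT u0 (Y' (p.y k)) - phT u0 (Y0' (p.y k)))) := by
    rcases hi_type ch with ⟨rfl, rfl, rfl⟩ | ⟨rfl, rfl, rfl⟩
    · rw [phT_B]
      have h1 := (hB'.B _ hzo).comp (seq_nf ((AL.flt (p.y k)).mono_left hV))
      have h2 := (hB0'.B _ hzo).comp (seq_nf ((AL.flt (p.y k)).mono_left hV))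
      refine (h1.sub h2).congr' ?_
      filter_upwards [(dia_ev (hp.2.1 k) (1, 0) (Or.inr (Or.inl rfl))).filter_mono hV] with a ha
      have e0 : fl a (p.y k) + (1, 0) = ((fl a (p.y k)).1 + 1, (fl a (p.y k)).2) := by
        ext <;> simp
      rw [e0] at ha
      simp only [Function.comp_apply]
      rw [eB_Wf _ _ _ ha, eB_Wf _ _ _ ha, sg1, gr1, sgr]
      have e1 : cz (p.y k) (1, 0) a = (((fl a (p.y k)).1 + 1, (fl a (p.y k)).2), fl a (p.y k)) := by
        unfold cz; rw [e0]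
      rw [e1]
      ring
    · rw [phT_C]
      have h1 := (hB'.C _ hzo).comp (seq_nf ((AL.flt (p.y k)).mono_left hV))
      have h2 := (hB0'.C _ hzo).comp (seq_nf ((AL.flt (p.y k)).mono_left hV))
      refine (h1.sub h2).congr' ?_
      filter_upwards [(dia_ev (hp.2.1 k) (0, 1) (Or.inr (Or.inr rfl))).filter_mono hV] with a ha
      have e0 : fl a (p.y k) + (0, 1) = ((fl a (p.y k)).1, (fl a (p.y k)).2 + 1) := by
        ext <;> simp
      rw [e0] at ha
      simp only [Function.comp_apply]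
      rw [eC_Wf _ _ _ ha, eC_Wf _ _ _ ha, sg1, gr1, sgr]
      have e1 : cz (p.y k) (0, 1) a = (((fl a (p.y k)).1, (fl a (p.y k)).2 + 1), fl a (p.y k)) := by
        unfold cz; rw [e0]
      rw [e1]
      ring
  have h4 := ((r1.mul r2).mul ((Complex.continuous_ofReal.tendsto _).comp main)).neg
  refine h4.congr' ?_
  filter_upwards [hsgn] with a g1
  simp only [Function.comp_apply]
  rw [hKn, hK0, g1]
  have e2 : sg0 S (fun i => rz p.x i a) (cz (p.y k) (0, 0) a) =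
      gr S (fun i => rz p.x i a) ((fl a (p.y k)).1 + 1 / 4) := sgr a
  have e3 := hsrc a
  change -((sg0 S (fun i => rz p.x i a) (cz (p.y k) (0, 0) a) : ℂ) *
    AL.rho { p with j := j' } a (.lo k) * ((sg0 S (fun i => rz p.x i a) (cz (p.y k) u0 a) : ℂ) *
    AL.rho { p with j := j' } a (.hi k)) * _) = _
  rw [e2, e3]
  have s1 : (gr S (fun i => rz p.x i a) ((fl a (p.y k)).1 + 1 / 4) : ℂ) *
      gr S (fun i => rz p.x i a) ((fl a (p.y k)).1 + 1 / 4) = 1 := by
    rw [← Complex.ofReal_mul, gr_sq]; simp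
  have s2 : (gr S (fun i => rz p.x i a) ((fl a (p.y k)).1 + s) : ℂ) *
      gr S (fun i => rz p.x i a) ((fl a (p.y k)).1 + s) = 1 := by
    rw [← Complex.ofReal_mul, gr_sq]; simp
  generalize AL.Wf (dia (nn a)) (rM fun i => rz p.x i a)
    [cz (p.y k) u0 a, cz (p.y k) (0, 0) a] = W1
  generalize AL.Wf (dia (nn a)) (rM fun i => rz w0 i a)
    [cz (p.y k) u0 a, cz (p.y k) (0, 0) a] = W2
  generalize gr S (fun i => rz p.x i a) ((fl a (p.y k)).1 + 1 / 4) = g at s1 ⊢
  generalize gr S (fun i => rz p.x i a) ((fl a (p.y k)).1 + s) = g' at s2 ⊢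
  generalize AL.rho { p with j := j' } a (.lo k) = ρ1
  generalize AL.rho { p with j := j' } a (.hi k) = ρ2
  push_cast
  rw [div_eq_mul_inv]
  linear_combination (-(ρ1 * ρ2 * (a:ℂ)⁻¹ * W1 * (g':ℂ) * g')) * s1 +
    (-(ρ1 * ρ2 * (a:ℂ)⁻¹ * W1)) * s2

end Vale.Agent.P144.H135
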