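import Vale.Agent.P144.H135.Asy
import Vale.Agent.P144.U.AL.Wick

/-!
The four fermion kernels of the plane (the source may be any of the four corners of a face) and
the difference between a spinor with a source and the kernel of the plane.
-/

namespace Vale.Agent.P144.H135

open Finset Vale.Agent.P144 Filter Topology
open Vale.Agent.P144.H170 (Pt pt CConv nf cconv_iff ev_nf apos_nf tendsto_fst_nf tendsto_pt_nf
  phA phB phC phE phA_apply phB_apply phC_apply phE_apply CR4 Rel)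

/-- The sign at the source. -/
noncomputable def sn (c' c : AL.Cn) : ℝ := if c = c' then -1 else 1

/-- A fermion kernel of the plane with the source at the corner `(v0, 0)`. -/
structure PKr (v0 : Site) (QA QB QC QE : Pt → ℝ) (κ : ℂ) : Prop where
  mem : v0 ∈ AL.cnr 0
  V1 : ∀ i j : ℤ, sn (v0, 0) ((i, j + 1), (i, j)) * QC (i, j) =
    √2 * (sn (v0, 0) ((i, j + 1), (i, j + 1)) * QA (i, j + 1)) -
      sn (v0, 0) ((i + 1, j + 1), (i, j + 1)) * QB (i, j + 1)
  V2 : ∀ i j : ℤ, sn (v0, 0) ((i + 1, j + 1), (i, j)) * QE (i, j) =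
    √2 * (sn (v0, 0) ((i + 1, j + 1), (i, j + 1)) * QB (i, j + 1)) -
      sn (v0, 0) ((i, j + 1), (i, j + 1)) * QA (i, j + 1)
  H1 : ∀ i j : ℤ, QB (i, j) = √2 * QA (i + 1, j) - QC (i + 1, j)
  H2 : ∀ i j : ℤ, QE (i, j) = -(√2 * QC (i + 1, j) - QA (i + 1, j))
  sA : v0 = (0, 0) → QA (0, 0) = 1
  sB : v0 = (1, 0) → QB (0, 0) = -1
  sC : v0 = (0, 1) → QC (0, 0) = -1
  sE : v0 = (1, 1) → QE (0, 0) = 1
  aA : Asy QA phA κ
  aB : Asy QB phB κ
  aC : Asy QC phC κ
  aE : Asy QE phE κ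

/-! ### the first kernel -/

noncomputable def qA (x : Pt) : ℝ := -PL x.1 x.2
noncomputable def qB (x : Pt) : ℝ := -((PL (x.1 + 1) x.2 + PD x.1 x.2) / √2)
noncomputable def qC (x : Pt) : ℝ := -((PR x.1 (x.2 + 1) - PD x.1 x.2) / √2)
noncomputable def qE (x : Pt) : ℝ := -PD x.1 x.2

theorem s2 : √2 * √2 = (2:ℝ) := Real.mul_self_sqrt (by norm_num)

theorem s2ne : √2 ≠ (0:ℝ) := by positivity

theorem PL_asy : Asy (fun x => PL x.1 x.2) phA kap := by
  refine asyA.congr ?_
  have : ({(0, 0)} : Set Pt)ᶜ ∈ (cofinite : Filter Pt) := by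
    rw [mem_cofinite, compl_compl]; exact Set.finite_singleton _
  filter_upwards [this] with x hx
  rw [PL_eq, if_neg, sub_zero]
  rintro ⟨h1, h2⟩
  exact hx (Prod.ext h1 h2)

theorem PR_asy : Asy (fun x => PR x.1 x.2) phA kap := by
  refine asyA.congr ?_
  have : ({(0, 0)} : Set Pt)ᶜ ∈ (cofinite : Filter Pt) := by
    rw [mem_cofinite, compl_compl]; exact Set.finite_singleton _
  filter_upwards [this] with x hx
  rw [PR_eq, if_neg, add_zero]
  rintro ⟨h1, h2⟩
  exact hx (Prod.ext h1 h2)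

theorem Asy.congr' {Q Q' : Pt → ℝ} {φ : ℂ →L[ℝ] ℝ} {κ : ℂ} (h : Asy Q φ κ) (e : ∀ x, Q x = Q' x) :
    Asy Q' φ κ := h.congr (Eventually.of_forall e)

theorem qA_asy : Asy qA phA (-kap) := by
  refine (Asy.congr' (PL_asy.mul (-1)) ?_).change ?_
  · intro x; unfold qA; ring
  · intro z
    rw [ContinuousLinearMap.smul_apply, neg_div, map_neg, smul_eq_mul]; ring

theorem qE_asy : Asy qE phE (-kap) := by
  refine (Asy.congr' (asyE.mul (-1)) ?_).change ?_
  · intro x; unfold qE; ring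
  · intro z
    rw [ContinuousLinearMap.smul_apply, neg_div, map_neg, smul_eq_mul]; ring

theorem qB_asy : Asy qB phB (-kap) := by
  refine (Asy.congr' (((PL_asy.shift (1, 0)).add asyE).mul (-(1 / √2))) ?_).change ?_
  · intro x
    unfold qB
    simp only [Prod.fst_add, Prod.snd_add, add_zero]
    field_simp
  · intro z
    rw [ContinuousLinearMap.smul_apply, ContinuousLinearMap.add_apply, neg_div, map_neg,
      smul_eq_mul, phB_apply, phA_apply, phE_apply]
    field_simp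
    ring

theorem qC_asy : Asy qC phC (-kap) := by
  refine (Asy.congr' (((PR_asy.shift (0, 1)).add (asyE.mul (-1))).mul (-(1 / √2))) ?_).change ?_
  · intro x
    unfold qC
    simp only [Prod.fst_add, Prod.snd_add, add_zero]
    field_simp
    ring
  · intro z
    rw [ContinuousLinearMap.smul_apply, ContinuousLinearMap.add_apply,
      ContinuousLinearMap.smul_apply, neg_div, map_neg,
      smul_eq_mul, smul_eq_mul, phC_apply, phA_apply, phE_apply]
    field_simp

/-- The right value of the kernel. -/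
theorem sn_qA (i j : ℤ) : sn ((0, 0), 0) ((i, j), (i, j)) * qA (i, j) = -PR i j := by
  unfold sn qA
  rw [PL_PR]
  by_cases h : i = 0 ∧ j = 0
  · obtain ⟨rfl, rfl⟩ := h
    rw [if_pos (by rfl), PL_zero]; norm_num
  · rw [if_neg, if_neg h]
    · simp
    · intro h'
      simp only [Prod.mk.injEq] at h'
      exact h ⟨h'.1.1, h'.1.2⟩

theorem sn_ne {c c' : AL.Cn} (h : c ≠ c') : sn c' c = 1 := if_neg h

theorem pkA : PKr (0, 0) qA qB qC qE (-kap) := by
  have e1 : ∀ i j : ℤ, sn ((0, 0), 0) ((i, j + 1), (i, j)) = 1 := fun i j => sn_ne (by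
    intro h; simp only [Prod.ext_iff, Prod.fst_zero, Prod.snd_zero] at h; lia)
  have e2 : ∀ i j : ℤ, sn ((0, 0), 0) ((i + 1, j + 1), (i, j + 1)) = 1 := fun i j => sn_ne (by
    intro h; simp only [Prod.ext_iff, Prod.fst_zero, Prod.snd_zero] at h; lia)
  have e3 : ∀ i j : ℤ, sn ((0, 0), 0) ((i + 1, j + 1), (i, j)) = 1 := fun i j => sn_ne (by
    intro h; simp only [Prod.ext_iff, Prod.fst_zero, Prod.snd_zero] at h; lia)
  have h2 := s2
  refine ⟨by simp [AL.mem_cnr], ?_, ?_, ?_, ?_, ?_, ?_, ?_, ?_, qA_asy, qB_asy, qC_asy, qE_asy⟩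
  · intro i j
    rw [e1, e2, sn_qA]
    have h := P_CR1 i j
    unfold qC qB
    simp only
    have : √2 * (√2 * -PR i (j + 1)) = -(2 * PR i (j + 1)) := by
      linear_combination (-PR i (j + 1)) * h2
    have h3 := s2ne
    field_simp
    linear_combination h + PR i (j + 1) * h2
  · intro i j
    rw [e3, e2, sn_qA]
    have h := P_CR1 i j
    unfold qE qB
    simp only
    have h3 := s2ne
    field_simp
    linear_combination -h
  · intro i j
    have h := P_CR2 i j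
    unfold qA qB qC
    simp only
    have h3 := s2ne
    field_simp
    linear_combination h + PL (i + 1) j * h2
  · intro i j
    have h := P_CR2 i j
    unfold qA qE qC
    simp only
    have h3 := s2ne
    field_simp
    linear_combination h
  · intro _; unfold qA; simp only; rw [PL_zero]; norm_num
  · intro h; simp at h
  · intro h; simp at h
  · intro h; simp at h

/-! ### reflections -/

def rx : Pt ≃ Pt where
  toFun x := (-x.1, x.2)
  invFun x := (-x.1, x.2)
  left_inv x := by simp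
  right_inv x := by simp

def ry : Pt ≃ Pt where
  toFun x := (x.1, -x.2)
  invFun x := (x.1, -x.2)
  left_inv x := by simp
  right_inv x := by simp

theorem pt_rx (x : Pt) : pt 1 (rx x) = -(starRingEnd ℂ) (pt 1 x) := by
  apply Complex.ext <;> simp [pt, rx]

theorem pt_ry (x : Pt) : pt 1 (ry x) = (starRingEnd ℂ) (pt 1 x) := by
  apply Complex.ext <;> simp [pt, ry]

theorem norm_rx (x : Pt) : ‖pt 1 (rx x)‖ = ‖pt 1 x‖ := by
  rw [pt_rx, norm_neg, Complex.norm_conj]

theorem norm_ry (x : Pt) : ‖pt 1 (ry x)‖ = ‖pt 1 x‖ := by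
  rw [pt_ry, Complex.norm_conj]

/-- The residue of the reflected kernel. -/
noncomputable def kx (κ : ℂ) : ℂ := (starRingEnd ℂ) κ * ⟨1 / √2, -(1 / √2)⟩
noncomputable def ky (κ : ℂ) : ℂ := (starRingEnd ℂ) κ * ⟨-(1 / √2), -(1 / √2)⟩

theorem kx_div (κ w : ℂ) : kx κ / w = -((starRingEnd ℂ) (κ / -(starRingEnd ℂ) w) *
    ⟨1 / √2, -(1 / √2)⟩) := by
  rw [map_div₀, map_neg, Complex.conj_conj, kx]
  by_cases hw : w = 0
  · rw [hw]; simp
  · field_simp

theorem ky_div (κ w : ℂ) : ky κ / w = (starRingEnd ℂ) (κ / (starRingEnd ℂ) w) *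
    ⟨-(1 / √2), -(1 / √2)⟩ := by
  rw [map_div₀, Complex.conj_conj, ky]
  by_cases hw : w = 0
  · rw [hw]; simp
  · field_simp

theorem r2 : (1 / √2) * (1 / √2) = (1 / 2 : ℝ) := by
  rw [div_mul_div_comm, s2]; norm_num

theorem phx (p : ℂ) : phA (-((starRingEnd ℂ) p * ⟨1 / √2, -(1 / √2)⟩)) = -phB p ∧
    phB (-((starRingEnd ℂ) p * ⟨1 / √2, -(1 / √2)⟩)) = -phA p ∧
    phC (-((starRingEnd ℂ) p * ⟨1 / √2, -(1 / √2)⟩)) = -phE p ∧
    phE (-((starRingEnd ℂ) p * ⟨1 / √2, -(1 / √2)⟩)) = -phC p := by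
  have h := r2
  simp only [phA_apply, phB_apply, phC_apply, phE_apply, Complex.neg_re, Complex.neg_im,
    Complex.mul_re, Complex.mul_im, Complex.conj_re, Complex.conj_im]
  refine ⟨?_, ?_, ?_, ?_⟩
  · ring
  · rw [div_eq_mul_one_div _ √2]
    linear_combination (-2 * p.re) * h
  · rw [div_eq_mul_one_div _ √2]
    linear_combination (2 * p.im) * h
  · ring

theorem phy (p : ℂ) : phA ((starRingEnd ℂ) p * ⟨-(1 / √2), -(1 / √2)⟩) = -phC p ∧
    phB ((starRingEnd ℂ) p * ⟨-(1 / √2), -(1 / √2)⟩) = phE p ∧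
    phC ((starRingEnd ℂ) p * ⟨-(1 / √2), -(1 / √2)⟩) = -phA p ∧
    phE ((starRingEnd ℂ) p * ⟨-(1 / √2), -(1 / √2)⟩) = phB p := by
  have h := r2
  simp only [phA_apply, phB_apply, phC_apply, phE_apply,
    Complex.mul_re, Complex.mul_im, Complex.conj_re, Complex.conj_im]
  refine ⟨?_, ?_, ?_, ?_⟩
  · ring
  · rw [div_eq_mul_one_div _ √2]
    linear_combination (-2 * p.im) * h
  · rw [div_eq_mul_one_div _ √2]
    linear_combination (-2 * p.re) * h
  · ring

/-- Reflection at a vertical line. -/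
theorem PKr.xref {v0 : Site} {QA QB QC QE : Pt → ℝ} {κ : ℂ} (h : PKr v0 QA QB QC QE κ) :
    PKr (1 - v0.1, v0.2) (fun x => -QB (rx x)) (fun x => -QA (rx x)) (fun x => -QE (rx x))
      (fun x => -QC (rx x)) (kx κ) := by
  obtain ⟨p, q⟩ := v0
  have m := h.mem
  simp only [AL.mem_cnr, Prod.ext_iff, Prod.fst_zero, Prod.snd_zero, zero_add] at m
  have e : ∀ i j i' j' k l : ℤ, (i' = 1 - i ∧ k = -l) →
      sn (((1 - p, q) : Site), 0) ((i', j), (k, j')) = sn (((p, q) : Site), 0) ((i, j), (l, j')) := by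
    intro i j i' j' k l hh
    unfold sn
    congr 1
    simp only [Prod.ext_iff, Prod.fst_zero, Prod.snd_zero, eq_iff_iff]
    lia
  have asy : ∀ {Q : Pt → ℝ} {φ φ' : ℂ →L[ℝ] ℝ}, Asy Q φ κ →
      (∀ p, φ' (-((starRingEnd ℂ) p * ⟨1 / √2, -(1 / √2)⟩)) = -φ p) →
      Asy (fun x => -Q (rx x)) φ' (kx κ) := by
    intro Q φ φ' hQ hφ
    have := (hQ.mul (-1)).refl (φ' := φ') (κ' := kx κ) rx norm_rx (fun x => by
      rw [ContinuousLinearMap.smul_apply, smul_eq_mul, kx_div, hφ, pt_rx]; ring)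
    exact Asy.congr' this fun x => by ring
  refine ⟨?_, ?_, ?_, ?_, ?_, ?_, ?_, ?_, ?_, asy h.aB fun p => (phx p).1,
    asy h.aA fun p => (phx p).2.1, asy h.aE fun p => (phx p).2.2.1, asy h.aC fun p => (phx p).2.2.2⟩
  · simp only [AL.mem_cnr, Prod.ext_iff, Prod.fst_zero, Prod.snd_zero, zero_add]
    lia
  · intro i j
    have := h.V2 (-i) j
    rw [e (-i + 1) (j + 1) i j i (-i) ⟨by ring, by ring⟩,
      e (-i + 1) (j + 1) i (j + 1) i (-i) ⟨by ring, by ring⟩,
      e (-i) (j + 1) (i + 1) (j + 1) i (-i) ⟨by ring, by ring⟩]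
    simp only [rx, Equiv.coe_fn_mk]
    linear_combination -this
  · intro i j
    have := h.V1 (-i) j
    rw [e (-i) (j + 1) (i + 1) j i (-i) ⟨by ring, by ring⟩,
      e (-i + 1) (j + 1) i (j + 1) i (-i) ⟨by ring, by ring⟩,
      e (-i) (j + 1) (i + 1) (j + 1) i (-i) ⟨by ring, by ring⟩]
    simp only [rx, Equiv.coe_fn_mk]
    linear_combination -this
  · intro i j
    have h1 := h.H1 (-i - 1) j
    have h2 := h.H2 (-i - 1) j
    rw [sub_add_cancel] at h1 h2
    simp only [rx, Equiv.coe_fn_mk]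
    rw [show -(i + 1) = -i - 1 by ring]
    linear_combination √2 * h1 - h2 + QA (-i, j) * s2
  · intro i j
    have h1 := h.H1 (-i - 1) j
    have h2 := h.H2 (-i - 1) j
    rw [sub_add_cancel] at h1 h2
    simp only [rx, Equiv.coe_fn_mk]
    rw [show -(i + 1) = -i - 1 by ring]
    linear_combination h1 - √2 * h2 + QC (-i, j) * s2
  · intro h0
    simp only [Prod.mk.injEq] at h0
    have := h.sB (by rw [Prod.mk.injEq]; lia)
    simp only [rx, Equiv.coe_fn_mk, neg_zero]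
    rw [this]; norm_num
  · intro h0
    simp only [Prod.mk.injEq] at h0
    have := h.sA (by rw [Prod.mk.injEq]; lia)
    simp only [rx, Equiv.coe_fn_mk, neg_zero]
    rw [this]
  · intro h0
    simp only [Prod.mk.injEq] at h0
    have := h.sE (by rw [Prod.mk.injEq]; lia)
    simp only [rx, Equiv.coe_fn_mk, neg_zero]
    rw [this]
  · intro h0
    simp only [Prod.mk.injEq] at h0
    have := h.sC (by rw [Prod.mk.injEq]; lia)
    simp only [rx, Equiv.coe_fn_mk, neg_zero]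
    rw [this]; norm_num

/-- Reflection of the first kernel at a horizontal line. -/
theorem pkC : PKr (0, 1) (fun x => -qC (ry x)) (fun x => qE (ry x)) (fun x => -qA (ry x))
      (fun x => qB (ry x)) (ky (-kap)) := by
  have asyn : ∀ {Q : Pt → ℝ} {φ φ' : ℂ →L[ℝ] ℝ}, Asy Q φ (-kap) →
      (∀ p, φ' ((starRingEnd ℂ) p * ⟨-(1 / √2), -(1 / √2)⟩) = -φ p) →
      Asy (fun x => -Q (ry x)) φ' (ky (-kap)) := by
    intro Q φ φ' hQ hφ
    have := (hQ.mul (-1)).refl (φ' := φ') (κ' := ky (-kap)) ry norm_ry (fun x => by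
      rw [ContinuousLinearMap.smul_apply, smul_eq_mul, ky_div, hφ, pt_ry]; ring)
    exact Asy.congr' this fun x => by ring
  have asyp : ∀ {Q : Pt → ℝ} {φ φ' : ℂ →L[ℝ] ℝ}, Asy Q φ (-kap) →
      (∀ p, φ' ((starRingEnd ℂ) p * ⟨-(1 / √2), -(1 / √2)⟩) = φ p) →
      Asy (fun x => Q (ry x)) φ' (ky (-kap)) := by
    intro Q φ φ' hQ hφ
    exact hQ.refl (φ' := φ') (κ' := ky (-kap)) ry norm_ry (fun x => by
      rw [ky_div, hφ, pt_ry])
  have h := pkA
  have z1 : ∀ i j i' j' : ℤ, ¬ (i' = 0 ∧ j' = 0 ∧ i = 0 ∧ j = 1) →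
      sn (((0, 1) : Site), 0) ((i, j), (i', j')) = 1 := by
    intro i j i' j' hh
    refine sn_ne ?_
    intro h0
    simp only [Prod.ext_iff, Prod.fst_zero, Prod.snd_zero] at h0
    lia
  have z0 : ∀ i j i' j' : ℤ, ¬ (i' = 0 ∧ j' = 0 ∧ i = 0 ∧ j = 0) →
      sn (((0, 0) : Site), 0) ((i, j), (i', j')) = 1 := by
    intro i j i' j' hh
    refine sn_ne ?_
    intro h0
    simp only [Prod.ext_iff, Prod.fst_zero, Prod.snd_zero] at h0
    lia
  have z2 : ∀ i j : ℤ, sn (((0, 1) : Site), 0) ((i, j + 1), (i, j)) =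
      sn (((0, 0) : Site), 0) ((i, -j), (i, -j)) := by
    intro i j
    unfold sn
    congr 1
    simp only [Prod.ext_iff, Prod.fst_zero, Prod.snd_zero, eq_iff_iff]
    lia
  refine ⟨by simp [AL.mem_cnr], ?_, ?_, ?_, ?_, by simp, by simp, ?_, by simp,
    asyn qC_asy fun p => (phy p).1,
    asyp qE_asy fun p => (phy p).2.1, asyn qA_asy fun p => (phy p).2.2.1,
    asyp qB_asy fun p => (phy p).2.2.2⟩
  · intro i j
    have h1 := h.V1 i (-j - 1)
    have h2 := h.V2 i (-j - 1)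
    rw [sub_add_cancel] at h1 h2
    rw [z0 _ _ _ _ (by lia), z0 (i + 1) _ _ _ (by lia)] at h1
    rw [z0 (i + 1) (-j) i (-j - 1) (by lia), z0 (i + 1) (-j) i (-j) (by lia)] at h2
    rw [z2, z1 _ _ _ _ (by lia), z1 _ _ _ _ (by lia)]
    simp only [ry, Equiv.coe_fn_mk]
    rw [show -(j + 1) = -j - 1 by ring]
    linear_combination √2 * h1 + h2 + (sn (((0, 0) : Site), 0) ((i, -j), (i, -j)) * qA (i, -j)) * s2
  · intro i j
    have h1 := h.V1 i (-j - 1)
    have h2 := h.V2 i (-j - 1)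
    rw [sub_add_cancel] at h1 h2
    rw [z0 _ _ _ _ (by lia), z0 (i + 1) _ _ _ (by lia)] at h1
    rw [z0 (i + 1) (-j) i (-j - 1) (by lia), z0 (i + 1) (-j) i (-j) (by lia)] at h2
    rw [z1 _ _ _ _ (by lia), z1 _ _ _ _ (by lia), z1 _ _ _ _ (by lia)]
    simp only [ry, Equiv.coe_fn_mk]
    rw [show -(j + 1) = -j - 1 by ring]
    linear_combination (-h1) - √2 * h2 - qB (i, -j) * s2
  · intro i j
    have h2 := h.H2 i (-j)
    simp only [ry, Equiv.coe_fn_mk]
    linear_combination h2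
  · intro i j
    have h1 := h.H1 i (-j)
    simp only [ry, Equiv.coe_fn_mk]
    linear_combination h1
  · intro _
    have := h.sA rfl
    simp only [ry, Equiv.coe_fn_mk, neg_zero]
    rw [this]

/-- Existence of the kernels. -/
theorem exists_ker (v0 : Site) (hv : v0 ∈ AL.cnr 0) : ∃ QA QB QC QE κ, PKr v0 QA QB QC QE κ := by
  rw [AL.mem_cnr] at hv
  rcases hv with rfl | rfl | rfl | rfl
  · exact ⟨_, _, _, _, _, pkA⟩
  · have := pkA.xref
    exact ⟨_, _, _, _, _, this⟩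
  · exact ⟨_, _, _, _, _, pkC⟩
  · have := pkC.xref
    exact ⟨_, _, _, _, _, this⟩

end Vale.Agent.P144.H135
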