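import Vale.Agent.P144.H135.Cut
import Vale.Agent.P144.U.AL.Mass
import Vale.Agent.P144.H170.Spin
import Vale.Agent.P144.H436.Ker

/-!
Masses and `ℓ²` bounds of a spinor outside a box that contains its source.
-/

namespace Vale.Agent.P144.H135

open Finset
open Vale.Agent.P144.H170 (Pt bx D lap mem_bx bx_mono)

section

variable {N : ℕ} {τ θ A B C E Hs Hf : Site → ℝ} {P R G : Finset Site}
  (h : AL.Spr (dia N) τ θ A B C E) (hH : AL.IsH (dia N) A B C E Hs Hf) (hE : AL.Exc N τ θ P R G)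
  {c : Site} {n : ℕ} {L : ℝ}

include h hH hE

/-- Masses of the cut-off `H`-function. -/
theorem mass_cut (hn : 0 < n) (hL0 : 0 ≤ L) (hP : P ⊆ bx c n) (hRG : R \ G ⊆ bx c n)
    (hG : ∀ f ∈ G, f ∉ bx c (8 * n)) (hin : ∀ x ∈ bx c (8 * n + 1), x ∈ dia N)
    (hLs : ∀ x ∈ bx c (8 * n), x ∉ bx c (n - 1) → |Hs x| ≤ L)
    (hLf : ∀ x ∈ bx c (8 * n), x ∉ bx c (n - 1) → |Hf x| ≤ L) (T : Finset Site) :
    ∑ x ∈ T, |lap (fun x => (1 - CT c (2 * n) x) * Hs x) x| +
      ∑ x ∈ T, |lap (fun x => (1 - CT c (2 * n) x) * Hf x) x| ≤ 80000 * L := by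
  classical
  have hout : ∀ x ∉ dia N, Hf x = 0 := fun x hx =>
    h.Hf_zero hH (v := x) (by simp [AL.mem_cnr]) hx
  obtain ⟨M, hM⟩ : ∃ M : ℕ, dia N ∪ R ⊆ box M := (H436.subset_box (dia N ∪ R)).exists
  have hs1 : ∀ x ∉ box (M + 1), lap Hs x = 0 := fun x hx => by
    rw [← H170.lap_AL]
    exact AL.supp_lap (fun y hy => hH.out y fun h' => hy (hM (mem_union_left _ h'))) x hx
  have hs2 : ∀ x ∉ box (M + 1), lap Hf x = 0 := fun x hx => by
    rw [← H170.lap_AL]
    exact AL.supp_lap (fun y hy => hout y fun h' => hy (hM (mem_union_left _ h'))) x hx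
  have nn : ∀ v, v ∉ P → 0 ≤ lap Hs v := fun v hv => by
    rw [← H170.lap_AL]; exact h.lap_nn hH hE hv
  have k1 := cutoff (c := c) hn (h := Hs) (L := L) (M := 0) hL0 (Λ := dia N) (S := box (M + 1))
    (fun x hx => hH.out x hx) hs1 hLs
    (fun x _ hx => nn x fun h' => hx (hP h')) (by
      refine le_of_eq (sum_eq_zero fun x hx => ?_)
      rw [mem_filter] at hx
      exact max_eq_left (by linarith [nn x fun h' => hx.2 (hP h')]))
  -- the faces
  have f1 : ∀ x, x ∉ bx c n → x ∈ bx c (8 * n) → lap Hf x ≤ 0 := by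
    intro x hx hx'
    have hxR : x ∉ R := by
      intro hR
      by_cases hxG : x ∈ G
      · exact hG x hxG hx'
      · exact hx (hRG (mem_sdiff.2 ⟨hR, hxG⟩))
    obtain ⟨i, j⟩ := x
    have mem : ∀ y : Site, (y.1 = i ∨ y.1 = i + 1) → (y.2 = j ∨ y.2 = j + 1) → y ∈ dia N := by
      intro y h1 h2
      refine hin y ?_
      rw [mem_bx] at hx' ⊢
      push_cast at hx' ⊢
      lia
    rw [← H170.lap_AL]
    exact h.lapf_nonpos hH (mem (i, j) (by simp) (by simp)) (mem (i + 1, j) (by simp) (by simp))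
      (mem (i, j + 1) (by simp) (by simp)) (mem (i + 1, j + 1) (by simp) (by simp))
      (hE.τc i j hxR)
  have f2 : ∀ x, x ∉ bx c n → x ∉ bx c (8 * n) →
      max 0 (lap Hf x) ≤ 4 * ∑ v ∈ AL.cnr x, |lap Hs v| := by
    intro x hx hx'
    have h0 : 0 ≤ ∑ v ∈ AL.cnr x, |lap Hs v| := sum_nonneg fun _ _ => abs_nonneg _
    have e : ∑ v ∈ AL.cnr x, |lap Hs v| = ∑ v ∈ AL.cnr x, |AL.lap Hs v| :=
      sum_congr rfl fun v _ => by rw [H170.lap_AL]
    by_cases hin' : ∃ u ∈ AL.cnr x, u ∉ dia N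
    · obtain ⟨u, hu, hΛ⟩ := hin'
      refine max_le (by positivity) ?_
      have h1 := h.lapf_outer hH hu hΛ
      rw [H170.lap_AL] at h1
      refine h1.trans (mul_le_mul_of_nonneg_left ?_ (by norm_num))
      rw [e]
      exact (sum_le_sum fun v _ => le_abs_self _).trans
        (sum_le_sum_of_subset_of_nonneg (filter_subset _ _) fun _ _ _ => abs_nonneg _)
    · push Not at hin'
      by_cases hxR : x ∈ R
      · have hxG : x ∈ G := by
          by_contra hxG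
          exact hx (hRG (mem_sdiff.2 ⟨hxR, hxG⟩))
        have h1 := h.lapf_G hH hE hxG
        rw [H170.lap_AL, ← e] at h1
        linarith
      · obtain ⟨i, j⟩ := x
        have h1 := h.lapf_nonpos hH (hin' (i, j) (by simp [AL.mem_cnr]))
          (hin' (i + 1, j) (by simp [AL.mem_cnr])) (hin' (i, j + 1) (by simp [AL.mem_cnr]))
          (hin' (i + 1, j + 1) (by simp [AL.mem_cnr])) (hE.τc i j hxR)
        rw [H170.lap_AL] at h1
        rw [max_eq_left h1]
        positivity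
  have k2 : ∑ x ∈ (box (M + 1)).filter (fun x => x ∉ bx c n), max 0 (lap Hf x) ≤ 33600 * L := by
    set u : Site → ℝ := fun v => (1 - CT c (2 * n) v) * |lap Hs v| with hu
    have hu0 : ∀ v, 0 ≤ u v := fun v => mul_nonneg (by linarith [CT_le_one c (2 * n) v])
      (abs_nonneg _)
    have g1 : ∀ x ∈ (box (M + 1)).filter (fun x => x ∉ bx c n),
        max 0 (lap Hf x) ≤ 4 * ∑ v ∈ AL.cnr x, u v := by
      intro x hx
      rw [mem_filter] at hx
      by_cases hx8 : x ∈ bx c (8 * n)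
      · rw [max_eq_left (f1 x hx.2 hx8)]
        exact mul_nonneg (by norm_num) (sum_nonneg fun v _ => hu0 v)
      · refine (f2 x hx.2 hx8).trans (le_of_eq ?_)
        congr 1
        refine sum_congr rfl fun v hv => ?_
        have : v ∉ bx c (2 * (2 * n) - 1) := by
          intro hv'
          apply hx8
          rw [AL.mem_cnr'] at hv
          rw [mem_bx] at hv' ⊢
          have e : ((2 * (2 * n) - 1 : ℕ) : ℤ) = 4 * (n:ℤ) - 1 := by
            push_cast [Nat.cast_sub (show 1 ≤ 2 * (2 * n) by lia)]; ring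
          rw [e] at hv'
          push_cast
          rcases hv with rfl | rfl | rfl | rfl <;> lia
        simp only [hu]
        rw [CT_zero (by lia) this, sub_zero, one_mul]
    have g2 := AL.sum_sum_cnr (u := u) hu0 (T := (box (M + 1)).filter (fun x => x ∉ bx c n))
      (S := box (M + 1)) (fun v hv => by simp only [hu]; rw [hs1 v hv, abs_zero, mul_zero])
    calc _ ≤ ∑ x ∈ (box (M + 1)).filter (fun x => x ∉ bx c n), 4 * ∑ v ∈ AL.cnr x, u v :=
          sum_le_sum g1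
      _ = 4 * ∑ x ∈ (box (M + 1)).filter (fun x => x ∉ bx c n), ∑ v ∈ AL.cnr x, u v := by
          rw [mul_sum]
      _ ≤ 4 * (4 * ∑ v ∈ box (M + 1), u v) := by linarith
      _ ≤ _ := by linarith [k1.1]
  have neg : ∀ x, lap (fun y => -Hf y) x = -lap Hf x := fun x => by unfold lap; ring
  have k3 := cutoff (c := c) hn (h := fun y => -Hf y) (L := L) (M := 33600 * L) hL0 (Λ := dia N)
    (S := box (M + 1)) (fun x hx => by simp only [hout x hx, neg_zero])
    (fun x hx => by rw [neg, hs2 x hx, neg_zero])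
    (fun x hx hx' => by rw [abs_neg]; exact hLf x hx hx')
    (fun x hx hx' => by rw [neg]; linarith [f1 x hx' hx]) (by
      refine le_trans (le_of_eq (sum_congr rfl fun x _ => ?_)) k2
      rw [neg, neg_neg])
  have k4 := k1.2 T
  have k5 := k3.2 T
  have e : ∀ x, |lap (fun x => (1 - CT c (2 * n) x) * -Hf x) x| =
      |lap (fun x => (1 - CT c (2 * n) x) * Hf x) x| := fun x => by
    rw [← abs_neg]; congr 1; unfold lap; ring
  rw [sum_congr rfl fun x _ => e x] at k5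
  linarith

omit hE in
/-- Local `ℓ²` bound by the masses of functions which agree with the `H`-function outside the
box. -/
theorem sum_sq_out {m : ℕ} {U W : Site → ℝ} (hU0 : ∀ x ∉ dia N, U x = 0)
    (hW0 : ∀ x ∉ dia N, W x = 0) (hU : ∀ x ∉ bx c m, U x = Hs x)
    (hW : ∀ x ∉ bx c m, W x = Hf x) {M : ℝ} (hM1 : ∀ T : Finset Site, ∑ w ∈ T, |lap U w| ≤ M)
    (hM2 : ∀ T : Finset Site, ∑ w ∈ T, |lap W w| ≤ M) (c' : Site) (r : ℕ) (T : Finset Site)
    (hT : ∀ x ∈ T, x ∈ bx c' r ∧ x ∉ bx c (m + 2)) :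
    ∑ x ∈ T, (A x ^ 2 + B x ^ 2 + C x ^ 2 + E x ^ 2) ≤ 1152 * M * (r + 2) := by
  have DU : ∀ e : Pt, (e = (1, 0) ∨ e = (0, 1)) → ∀ x, x ∉ bx c (m + 1) →
      D e Hs x = D e U x ∧ D e Hf x = D e W x := by
    intro e he x hx
    have h1 : x ∉ bx c m := fun h' => hx (bx_mono (by lia) h')
    have h2 : x + e ∉ bx c m := fun h' => hx (bx_step' he h')
    unfold D
    rw [hU _ h1, hU _ h2, hW _ h1, hW _ h2]
    exact ⟨rfl, rfl⟩
  have hs : ∀ x ∈ T, x ∉ bx c (m + 1) ∧ x - (0, 1) ∉ bx c (m + 1) ∧ x + (0, 1) ∉ bx c (m + 1) := by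
    intro x hx
    have h1 := (hT x hx).2
    exact ⟨fun h' => h1 (bx_mono (by lia) h'), fun h' => h1 (bx_step'' (Or.inr rfl) h'),
      fun h' => h1 (bx_step' (Or.inr rfl) h')⟩
  have k1 : ∀ x ∈ T, A x ^ 2 + B x ^ 2 ≤ 3 * (|D (0, 1) W (x - (0, 1))| + |D (1, 0) U x|) := by
    rintro ⟨i, j⟩ hx
    obtain ⟨a1, a2, a3⟩ := hs _ hx
    rw [← (DU (0, 1) (Or.inr rfl) _ a2).2, ← (DU (1, 0) (Or.inl rfl) _ a1).1]
    have := (H170.sqV h hH i (j - 1)).1
    rw [sub_add_cancel] at this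
    unfold D
    simpa using this
  have k2 : ∀ x ∈ T, C x ^ 2 + E x ^ 2 ≤ 3 * (|D (0, 1) W x| + |D (1, 0) U (x + (0, 1))|) := by
    rintro ⟨i, j⟩ hx
    obtain ⟨a1, a2, a3⟩ := hs _ hx
    rw [← (DU (0, 1) (Or.inr rfl) _ a1).2, ← (DU (1, 0) (Or.inl rfl) _ a3).1]
    have := (H170.sqV h hH i j).2
    unfold D
    simpa using this
  have s0 : ∀ F : Site → ℝ, (∀ x, 0 ≤ F x) → ∀ e : Pt, (e = (0, 1) ∨ e = 0 ∨ e = -(0, 1)) →
      ∑ x ∈ T, F (x + e) ≤ ∑ x ∈ bx c' (r + 1), F x := by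
    intro F hF e he
    have e1 : ∑ x ∈ T, F (x + e) = ∑ x ∈ T.image (fun x => x + e), F x := by
      rw [sum_image fun x _ y _ hxy => by simpa using hxy]
    rw [e1]
    refine sum_le_sum_of_subset_of_nonneg ?_ fun _ _ _ => hF _
    intro x hx
    obtain ⟨y, hy, rfl⟩ := mem_image.1 hx
    have := (hT y hy).1
    rw [mem_bx] at this ⊢
    rcases he with rfl | rfl | rfl <;> simp <;> lia
  have aux : ∀ (u : Site → ℝ), (∀ x ∉ dia N, u x = 0) →
      (∀ T : Finset Site, ∑ w ∈ T, |lap u w| ≤ M) → ∀ e : Site, (e = (1, 0) ∨ e = (0, 1)) →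
      ∑ x ∈ bx c' (r + 1), |D e u x| ≤ 96 * ((r:ℝ) + 2) * M := by
    intro u hu hT e he
    obtain ⟨K, hK⟩ : ∃ K : ℕ, dia N ⊆ box K := (H436.subset_box (dia N)).exists
    have hs := AL.supp_lap (u := u) (M := K) fun x hx => hu x fun h => hx (hK h)
    have := H436.grad_sum (u := u) (Λ := dia N) (S := box (K + 1)) hu
      (fun x hx => by rw [H170.lap_eq, ← H170.lap_AL]; exact hs x hx) c' (r + 1) he
    have h3 : ∑ w ∈ box (K + 1), |H436.lap u w| ≤ M := by
      have := hT (box (K + 1))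
      simp only [H170.lap_eq]
      exact this
    calc ∑ x ∈ bx c' (r + 1), |D e u x| ≤ 96 * (((r + 1 : ℕ) : ℝ) + 1) * ∑ w ∈ box (K + 1),
          |H436.lap u w| := this
      _ ≤ 96 * (((r + 1 : ℕ) : ℝ) + 1) * M := mul_le_mul_of_nonneg_left h3 (by positivity)
      _ = _ := by push_cast; ring
  have h1 := aux U hU0 hM1 (1, 0) (Or.inl rfl)
  have h2 := aux W hW0 hM2 (0, 1) (Or.inr rfl)
  have t1 := s0 (fun x => |D (0, 1) W x|) (fun _ => abs_nonneg _) (-(0, 1)) (by simp)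
  have t2 := s0 (fun x => |D (1, 0) U x|) (fun _ => abs_nonneg _) 0 (by simp)
  have t3 := s0 (fun x => |D (0, 1) W x|) (fun _ => abs_nonneg _) 0 (by simp)
  have t4 := s0 (fun x => |D (1, 0) U x|) (fun _ => abs_nonneg _) (0, 1) (by simp)
  simp only [add_zero] at t2 t3
  calc _ ≤ ∑ x ∈ T, (3 * (|D (0, 1) W (x + -(0, 1))| + |D (1, 0) U x|) +
        3 * (|D (0, 1) W x| + |D (1, 0) U (x + (0, 1))|)) := by
        refine sum_le_sum fun x hx => ?_
        have := k1 x hx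
        have := k2 x hx
        rw [← sub_eq_add_neg]
        linarith
    _ = 3 * (∑ x ∈ T, |D (0, 1) W (x + -(0, 1))| + ∑ x ∈ T, |D (1, 0) U x|) +
        3 * (∑ x ∈ T, |D (0, 1) W x| + ∑ x ∈ T, |D (1, 0) U (x + (0, 1))|) := by
        rw [sum_add_distrib, ← mul_sum, sum_add_distrib, ← mul_sum, sum_add_distrib]
    _ ≤ _ := by linarith

end

end Vale.Agent.P144.H135
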