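import Vale.Agent.P144.U.Half
import Vale.Agent.P144.H436.Ker
import Vale.Agent.P144.H170.Comp
import Mathlib.Analysis.Analytic.Uniqueness

/-!
The fermion kernel of the plane with source at the lower left corner of the face `(0, 0)`.
`PL`, `PR` are the values at lower left corners as seen from above/left and from below/right (they
differ only at the source), `PD` the values at the upper right corners.
-/

namespace Vale.Agent.P144.H135

open Finset Vale.Agent.P144 Filter Topology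

noncomputable def PL (i j : ℤ) : ℝ :=
  if i ≤ j then - a0 i (j - i).toNat else a0 j (i - j).toNat

noncomputable def PR (i j : ℤ) : ℝ :=
  if j ≤ i then a0 j (i - j).toNat else - a0 i (j - i).toNat

noncomputable def PD (i j : ℤ) : ℝ :=
  if i ≤ j then - d0 i (j - i).toNat else - d0 j (i - j).toNat

theorem PL_up (i : ℤ) (k : ℕ) : PL i (i + k) = - a0 i k := by
  unfold PL
  rw [if_pos (by lia)]
  congr 2; lia

theorem PL_dn (j : ℤ) (k : ℕ) : PL (j + (k + 1 : ℕ)) j = a0 j (k + 1) := by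
  unfold PL
  rw [if_neg (by lia)]
  congr 1; lia

theorem PR_up (i : ℤ) (k : ℕ) : PR i (i + (k + 1 : ℕ)) = - a0 i (k + 1) := by
  unfold PR
  rw [if_neg (by lia)]
  congr 2; lia

theorem PR_dn (j : ℤ) (k : ℕ) : PR (j + k) j = a0 j k := by
  unfold PR
  rw [if_pos (by lia)]
  congr 1; lia

theorem PD_up (i : ℤ) (k : ℕ) : PD i (i + k) = - d0 i k := by
  unfold PD
  rw [if_pos (by lia)]
  congr 2; lia

theorem PD_dn (j : ℤ) (k : ℕ) : PD (j + k) j = - d0 j k := by
  unfold PD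
  split_ifs with h
  · have : k = 0 := by lia
    subst this
    simp
  · congr 2; lia

theorem P_CR1 (i j : ℤ) : PD i j - PD i (j + 1) = PL (i + 1) (j + 1) - PR i (j + 1) := by
  rcases le_or_gt i j with h | h
  · obtain ⟨k, rfl⟩ : ∃ k : ℕ, j = i + k := ⟨(j - i).toNat, by lia⟩
    have e1 : PD i (i + k + 1) = - d0 i (k + 1) := by
      rw [← PD_up]; congr 1; push_cast; ring
    have e2 : PL (i + 1) (i + k + 1) = - a0 (i + 1) k := by
      rw [← PL_up]; congr 1; ring
    have e3 : PR i (i + k + 1) = - a0 i (k + 1) := by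
      rw [← PR_up]; congr 1; push_cast; ring
    rw [PD_up, e1, e2, e3]
    linarith [ad_CR1 i k]
  · obtain ⟨k, rfl⟩ : ∃ k : ℕ, i = j + 1 + k := ⟨(i - j - 1).toNat, by lia⟩
    have e0 : PD (j + 1 + k) j = - d0 j (k + 1) := by
      rw [← PD_dn]; congr 1; push_cast; ring
    have e2 : PL (j + 1 + k + 1) (j + 1) = a0 (j + 1) (k + 1) := by
      rw [← PL_dn]; congr 1; push_cast; ring
    rw [PD_dn, e0, e2, PR_dn]
    linarith [ad_CR2 j k]

theorem P_CR2 (i j : ℤ) : PD (i + 1) j - PD i j = PR (i + 1) (j + 1) - PL (i + 1) j := by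
  rcases le_or_gt (i + 1) j with h | h
  · obtain ⟨k, rfl⟩ : ∃ k : ℕ, j = i + 1 + k := ⟨(j - i - 1).toNat, by lia⟩
    have e1 : PD i (i + 1 + k) = - d0 i (k + 1) := by
      rw [← PD_up]; congr 1; push_cast; ring
    have e2 : PR (i + 1) (i + 1 + k + 1) = - a0 (i + 1) (k + 1) := by
      rw [← PR_up]; congr 1; push_cast; ring
    rw [PD_up, e1, e2, PL_up]
    linarith [ad_CR2 i k]
  · obtain ⟨k, rfl⟩ : ∃ k : ℕ, i = j + k := ⟨(i - j).toNat, by lia⟩
    have e1 : PD (j + k + 1) j = - d0 j (k + 1) := by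
      rw [← PD_dn]; congr 1; push_cast; ring
    have e2 : PL (j + k + 1) j = a0 j (k + 1) := by
      rw [← PL_dn]; congr 1; push_cast; ring
    have e3 : PR (j + k + 1) (j + 1) = a0 (j + 1) k := by
      rw [← PR_dn]; congr 1; ring
    rw [PD_dn, e1, e2, e3]
    linarith [ad_CR1 j k]

theorem PL_PR (i j : ℤ) : PR i j = PL i j + if i = 0 ∧ j = 0 then 2 else 0 := by
  rcases lt_trichotomy i j with h | h | h
  · rw [if_neg (by lia)]
    unfold PL PR
    rw [if_pos h.le, if_neg (not_le.2 h), add_zero]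
  · subst h
    unfold PL PR
    simp only [le_refl, if_true, sub_self, Int.toNat_zero, and_self]
    rw [a0_zero]
    split_ifs <;> norm_num
  · rw [if_neg (by lia)]
    unfold PL PR
    rw [if_pos h.le, if_neg (not_le.2 h), add_zero]

theorem PL_zero : PL 0 0 = -1 := by
  have := PL_up 0 0
  simpa [a0_zero] using this

theorem PR_zero : PR 0 0 = 1 := by
  have := PR_dn 0 0
  simpa [a0_zero] using this

/-- The lower left corner component with value `0` at the source. -/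
noncomputable def PA (i j : ℤ) : ℝ := (PL i j + PR i j) / 2

theorem PA_zero : PA 0 0 = 0 := by unfold PA; rw [PL_zero, PR_zero]; norm_num

theorem PL_eq (i j : ℤ) : PL i j = PA i j - if i = 0 ∧ j = 0 then 1 else 0 := by
  unfold PA
  rw [PL_PR]
  split_ifs <;> ring

theorem PR_eq (i j : ℤ) : PR i j = PA i j + if i = 0 ∧ j = 0 then 1 else 0 := by
  unfold PA
  rw [PL_PR]
  split_ifs <;> ring

theorem PA_swap (i j : ℤ) : PA j i = - PA i j := by
  unfold PA PL PR
  rcases lt_trichotomy i j with h | h | h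
  · rw [if_neg (not_le.2 h), if_pos h.le, if_pos h.le, if_neg (not_le.2 h)]; ring
  · subst h; simp
  · rw [if_neg (not_le.2 h), if_pos h.le, if_pos h.le, if_neg (not_le.2 h)]; ring

theorem PL_bound (i j : ℤ) : |PL i j| ≤ 1 := by
  unfold PL
  split_ifs
  · rw [abs_neg]; exact a0_bound _ _
  · exact a0_bound _ _

theorem PR_bound (i j : ℤ) : |PR i j| ≤ 1 := by
  unfold PR
  split_ifs
  · exact a0_bound _ _
  · rw [abs_neg]; exact a0_bound _ _

theorem PA_bound1 (i j : ℤ) : |PA i j| ≤ 1 := by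
  unfold PA
  have h1 := abs_le.1 (PL_bound i j)
  have h2 := abs_le.1 (PR_bound i j)
  rw [abs_le]; constructor <;> linarith

theorem PD_bound1 (i j : ℤ) : |PD i j| ≤ 1 := by
  unfold PD
  split_ifs
  · rw [abs_neg]; exact d0_bound _ _
  · rw [abs_neg]; exact d0_bound _ _

theorem PD_diag (i : ℤ) : PD i i = 1 / Real.pi * (1 / (i + 1 / 2)) := by
  have := PD_up i 0
  simp only [Nat.cast_zero, add_zero] at this
  rw [this, d0_zero, neg_neg]

/-! ### comparison with the potential kernel -/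



noncomputable def KA (i j : ℤ) : ℝ :=
  H436.ker (i + 1, j) + H436.ker (i, j - 1) - H436.ker (i - 1, j) - H436.ker (i, j + 1)

noncomputable def KD (i j : ℤ) : ℝ := 2 * (H436.ker (i + 1, j + 1) - H436.ker (i, j))

theorem lap_ker' (i j : ℤ) : H436.ker (i + 1, j) + H436.ker (i - 1, j) + H436.ker (i, j + 1) + H436.ker (i, j - 1) -
    4 * H436.ker (i, j) = if i = 0 ∧ j = 0 then 1 else 0 := by
  have h := H436.lap_ker (i, j)
  unfold H436.lap at h
  simp only [Prod.mk_add_mk, add_zero, ← sub_eq_add_neg, Prod.mk_eq_zero] at h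
  linarith

theorem K_CR1 (i j : ℤ) : KD i j - KD i (j + 1) =
    (KA (i + 1) (j + 1) - if i + 1 = 0 ∧ j + 1 = 0 then 1 else 0) -
      (KA i (j + 1) + if i = 0 ∧ j + 1 = 0 then 1 else 0) := by
  have h1 := lap_ker' (i + 1) (j + 1)
  have h2 := lap_ker' i (j + 1)
  unfold KA KD
  rw [add_sub_cancel_right] at h1
  rw [add_sub_cancel_right] at h1 h2
  rw [add_sub_cancel_right, add_sub_cancel_right]
  linarith

theorem K_CR2 (i j : ℤ) : KD (i + 1) j - KD i j =
    (KA (i + 1) (j + 1) + if i + 1 = 0 ∧ j + 1 = 0 then 1 else 0) -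
      (KA (i + 1) j - if i + 1 = 0 ∧ j = 0 then 1 else 0) := by
  have h1 := lap_ker' (i + 1) (j + 1)
  have h2 := lap_ker' (i + 1) j
  unfold KA KD
  rw [add_sub_cancel_right] at h1
  rw [add_sub_cancel_right] at h1 h2
  rw [add_sub_cancel_right, add_sub_cancel_right]
  linarith

theorem ker_swap' (i j : ℤ) : H436.ker (i, j) = H436.ker (j, i) := H436.ker_swap i j

theorem KA_swap (i j : ℤ) : KA j i = - KA i j := by
  unfold KA
  rw [ker_swap' (j + 1) i, ker_swap' j (i - 1), ker_swap' (j - 1) i, ker_swap' j (i + 1)]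
  ring

theorem gx (i j : ℤ) : |H436.ker (i + 1, j) - H436.ker (i, j)| ≤ 16 / (1 + |(i:ℝ)| + |(j:ℝ)|) :=
  (H436.ker_grad_x i j).trans (by gcongr; norm_num)

theorem gx' (i j : ℤ) : |H436.ker (i, j) - H436.ker (i - 1, j)| ≤ 16 / (1 + |(i:ℝ)| + |(j:ℝ)|) := by
  have h := H436.ker_grad_x (i - 1) j
  rw [sub_add_cancel] at h
  refine h.trans ?_
  rw [div_le_div_iff₀ (by positivity) (by positivity)]
  have h1 : |(i:ℝ)| ≤ |((i - 1 : ℤ) : ℝ)| + 1 := by
    have := abs_add_le ((i - 1 : ℤ) : ℝ) 1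
    rw [abs_one] at this
    push_cast at this ⊢
    rwa [sub_add_cancel] at this
  have h2 := abs_nonneg ((i - 1 : ℤ) : ℝ)
  have h3 := abs_nonneg (j:ℝ)
  nlinarith

theorem gy (i j : ℤ) : |H436.ker (i, j + 1) - H436.ker (i, j)| ≤ 16 / (1 + |(i:ℝ)| + |(j:ℝ)|) :=
  (H436.ker_grad_y i j).trans (by gcongr; norm_num)

theorem gy' (i j : ℤ) : |H436.ker (i, j) - H436.ker (i, j - 1)| ≤ 16 / (1 + |(i:ℝ)| + |(j:ℝ)|) := by
  have h := gx' j i
  rw [ker_swap' j i, ker_swap' (j - 1) i] at h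
  refine h.trans (le_of_eq ?_)
  ring

theorem KA_bound (i j : ℤ) : |KA i j| ≤ 64 / (1 + |(i:ℝ)| + |(j:ℝ)|) := by
  have h1 := abs_le.1 (gx i j)
  have h2 := abs_le.1 (gx' i j)
  have h3 := abs_le.1 (gy i j)
  have h4 := abs_le.1 (gy' i j)
  have e : 64 / (1 + |(i:ℝ)| + |(j:ℝ)|) = 4 * (16 / (1 + |(i:ℝ)| + |(j:ℝ)|)) := by ring
  rw [e]
  unfold KA
  rw [abs_le]; constructor <;> linarith

theorem KD_bound (i j : ℤ) : |KD i j| ≤ 96 / (1 + |(i:ℝ)| + |(j:ℝ)|) := by
  have h1 := abs_le.1 (gx i j)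
  have h3 : |H436.ker (i + 1, j + 1) - H436.ker (i + 1, j)| ≤ 32 / (1 + |(i:ℝ)| + |(j:ℝ)|) := by
    have h := gy (i + 1) j
    refine h.trans ?_
    rw [div_le_div_iff₀ (by positivity) (by positivity)]
    have h1 : |(i:ℝ)| ≤ |((i + 1 : ℤ) : ℝ)| + 1 := by
      have := abs_sub ((i + 1 : ℤ) : ℝ) 1
      rw [abs_one] at this
      push_cast at this ⊢
      rwa [add_sub_cancel_right] at this
    have h2 := abs_nonneg ((i + 1 : ℤ) : ℝ)
    have h3 := abs_nonneg (j:ℝ)
    nlinarith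
  have h3 := abs_le.1 h3
  have e : 96 / (1 + |(i:ℝ)| + |(j:ℝ)|) = 2 * (16 / (1 + |(i:ℝ)| + |(j:ℝ)|)) +
    2 * (32 / (1 + |(i:ℝ)| + |(j:ℝ)|)) := by ring
  rw [e]
  unfold KD
  rw [abs_le]; constructor <;> linarith

theorem harm_of_CR {E F : ℤ → ℤ → ℝ}
    (h1 : ∀ i j, F i j - F i (j + 1) = E (i + 1) (j + 1) - E i (j + 1))
    (h2 : ∀ i j, F (i + 1) j - F i j = E (i + 1) (j + 1) - E (i + 1) j) (i j : ℤ) :
    E (i + 1) j + E (i - 1) j + E i (j + 1) + E i (j - 1) = 4 * E i j := by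
  have a1 := h1 i (j - 1)
  have a2 := h1 (i - 1) (j - 1)
  have a3 := h2 (i - 1) j
  have a4 := h2 (i - 1) (j - 1)
  rw [sub_add_cancel] at a1 a2 a3 a4
  rw [sub_add_cancel] at a2 a4
  linarith

theorem PA_PD_eq : (∀ i j, PA i j = KA i j) ∧ ∀ i j, PD i j = KD i j := by
  set E : ℤ → ℤ → ℝ := fun i j => PA i j - KA i j with hE
  set F : ℤ → ℤ → ℝ := fun i j => PD i j - KD i j with hF
  have h1 : ∀ i j, F i j - F i (j + 1) = E (i + 1) (j + 1) - E i (j + 1) := by
    intro i j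
    have e1 := P_CR1 i j
    have e2 := K_CR1 i j
    rw [PL_eq, PR_eq] at e1
    simp only [hE, hF]
    linarith
  have h2 : ∀ i j, F (i + 1) j - F i j = E (i + 1) (j + 1) - E (i + 1) j := by
    intro i j
    have e1 := P_CR2 i j
    have e2 := K_CR2 i j
    rw [PL_eq, PR_eq] at e1
    simp only [hE, hF]
    linarith
  have hb : ∀ i j, |E i j| ≤ 65 := by
    intro i j
    have b1 := abs_le.1 (PA_bound1 i j)
    have b2 : |KA i j| ≤ 64 := (KA_bound i j).trans (by
      rw [div_le_iff₀ (by positivity)]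
      nlinarith [abs_nonneg (i:ℝ), abs_nonneg (j:ℝ)])
    have b2 := abs_le.1 b2
    simp only [hE]
    rw [abs_le]; constructor <;> linarith
  have hc := liouville hb (harm_of_CR h1 h2)
  have hE0 : ∀ i j, E i j = 0 := by
    intro i j
    rw [hc]
    have : E 0 0 = - E 0 0 := by
      simp only [hE]
      have a := PA_swap 0 0
      have b := KA_swap 0 0
      linarith
    linarith
  have f1 : ∀ i j, F i (j + 1) = F i j := by
    intro i j
    have := h1 i j
    rw [hE0, hE0] at this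
    linarith
  have f2 : ∀ i j, F (i + 1) j = F i j := by
    intro i j
    have := h2 i j
    rw [hE0, hE0] at this
    linarith
  have g1 : ∀ i j, F i j = F i 0 := by
    intro i j
    induction j using Int.induction_on with
    | zero => rfl
    | succ j ih => rw [f1]; exact ih
    | pred j ih => rw [← ih, ← f1 i (-(j:ℤ) - 1), sub_add_cancel]
  have g2 : ∀ i, F i 0 = F 0 0 := by
    intro i
    induction i using Int.induction_on with
    | zero => rfl
    | succ j ih => rw [f2]; exact ih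
    | pred j ih => rw [← ih, ← f2 (-(j:ℤ) - 1) 0, sub_add_cancel]
  have g3 : ∀ n : ℕ, |F 0 0| ≤ 97 / (n + 1) := by
    intro n
    rw [← g2 n, ← g1 n n]
    simp only [hF]
    have b1 := KD_bound n n
    rw [PD_diag]
    have hn : (0:ℝ) ≤ (n:ℤ) := by positivity
    rw [abs_of_nonneg hn] at b1
    have b2 : (96:ℝ) / (1 + (n:ℤ) + (n:ℤ)) ≤ 96 / (n + 1) := by
      push_cast
      refine div_le_div_of_nonneg_left (by norm_num) (by positivity) ?_
      linarith [show (0:ℝ) ≤ n from by positivity]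
    have b3 : (0:ℝ) ≤ 1 / Real.pi * (1 / ((n:ℤ) + 1 / 2)) := by positivity
    have b4 : 1 / Real.pi * (1 / (((n:ℤ):ℝ) + 1 / 2)) ≤ 1 / (n + 1) := by
      have hp := Real.two_le_pi
      have h0 : (0:ℝ) ≤ n := Nat.cast_nonneg n
      have h2 : 1 / (((n:ℤ):ℝ) + 1 / 2) ≤ 2 / (n + 1) := by
        push_cast
        rw [div_le_div_iff₀ (by positivity) (by positivity)]
        linarith
      have h3 : 1 / Real.pi ≤ 1 / 2 := by
        rw [div_le_div_iff₀ (by positivity) (by positivity)]; linarith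
      calc 1 / Real.pi * (1 / (((n:ℤ):ℝ) + 1 / 2)) ≤ 1 / 2 * (2 / (n + 1)) := by gcongr
        _ = 1 / (n + 1) := by ring
    have b5 := abs_le.1 (b1.trans b2)
    have e : (97:ℝ) / (n + 1) = 96 / (n + 1) + 1 / (n + 1) := by ring
    rw [e, abs_le]; constructor <;> linarith
  have g4 : F 0 0 = 0 := by
    by_contra hne
    have hpos : 0 < |F 0 0| := abs_pos.2 hne
    obtain ⟨n, hn⟩ := exists_nat_gt (97 / |F 0 0|)
    have := g3 n
    rw [div_lt_iff₀ hpos] at hn
    rw [le_div_iff₀ (by positivity)] at this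
    nlinarith
  refine ⟨fun i j => ?_, fun i j => ?_⟩
  · have := hE0 i j
    simp only [hE] at this
    linarith
  · have : F i j = 0 := by rw [g1, g2, g4]
    simp only [hF] at this
    linarith

theorem PA_bound (i j : ℤ) : |PA i j| ≤ 64 / (1 + |(i:ℝ)| + |(j:ℝ)|) := by
  rw [PA_PD_eq.1]; exact KA_bound i j

theorem PD_bound (i j : ℤ) : |PD i j| ≤ 96 / (1 + |(i:ℝ)| + |(j:ℝ)|) := by
  rw [PA_PD_eq.2]; exact KD_bound i j

theorem PA_lap (i j : ℤ) : PA (i + 1) j + PA (i - 1) j + PA i (j + 1) + PA i (j - 1) - 4 * PA i j =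
    (if i = -1 ∧ j = 0 then 1 else 0) + (if i = 0 ∧ j = 1 then 1 else 0)
      - (if i = 1 ∧ j = 0 then 1 else 0) - (if i = 0 ∧ j = -1 then 1 else 0) := by
  have a1 := P_CR1 i (j - 1)
  have a2 := P_CR1 (i - 1) (j - 1)
  have a3 := P_CR2 (i - 1) j
  have a4 := P_CR2 (i - 1) (j - 1)
  rw [sub_add_cancel] at a1 a2 a3 a4
  rw [sub_add_cancel] at a2 a4
  rw [PL_eq, PR_eq] at a1 a2 a3 a4
  have e1 : (i + 1 = 0 ∧ j = 0) ↔ (i = -1 ∧ j = 0) := by lia
  have e2 : (i - 1 = 0 ∧ j = 0) ↔ (i = 1 ∧ j = 0) := by lia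
  have e3 : (i = 0 ∧ j + 1 = 0) ↔ (i = 0 ∧ j = -1) := by lia
  have e4 : (i = 0 ∧ j - 1 = 0) ↔ (i = 0 ∧ j = 1) := by lia
  simp only [e1, e2, e3, e4] at a1 a2 a3 a4
  linarith

theorem PD_lap (i j : ℤ) : PD (i + 1) j + PD (i - 1) j + PD i (j + 1) + PD i (j - 1) - 4 * PD i j =
    (if i = -1 ∧ j = -1 then 2 else 0) - (if i = 0 ∧ j = 0 then 2 else 0) := by
  have a1 := P_CR1 i j
  have a2 := P_CR1 i (j - 1)
  have a3 := P_CR2 i j
  have a4 := P_CR2 (i - 1) j
  rw [sub_add_cancel] at a2 a4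
  rw [PL_eq, PR_eq] at a1 a2 a3 a4
  have e1 : (i + 1 = 0 ∧ j + 1 = 0) ↔ (i = -1 ∧ j = -1) := by lia
  simp only [e1] at a1 a2 a3 a4
  split_ifs at * <;> linarith

end Vale.Agent.P144.H135
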