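import Vale.Agent.P144.H135.PKer
import Mathlib.Analysis.Complex.CauchyIntegral
import Mathlib.Analysis.Normed.Module.Connected

/-!
Scaling limit of the fermion kernel of the plane.
-/

namespace Vale.Agent.P144.H135

open Finset Vale.Agent.P144 Filter Topology
open Vale.Agent.P144.H170 (Pt pt LocB LocCR CConv exists_cconv holo)

variable {ι : Type*} {a : ι → ℝ}

theorem far {a : ℝ} (ha : 0 < a) {z : ℂ} {x : Pt} (h : ‖pt a x - z‖ ≤ ‖z‖ / 2) :
    ‖z‖ / 2 ≤ a * (|(x.1:ℝ)| + |(x.2:ℝ)|) := by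
  have h1 : ‖z‖ / 2 ≤ ‖pt a x‖ := by
    have := norm_sub_norm_le z (pt a x)
    rw [norm_sub_rev] at this
    linarith
  refine h1.trans ((Complex.norm_le_abs_re_add_abs_im _).trans (le_of_eq ?_))
  simp only [pt, abs_mul, abs_of_pos ha]
  ring

theorem far_ne {a : ℝ} (ha : 0 < a) {z : ℂ} (hz : a < ‖z‖ / 8) {x : Pt}
    (h : ‖pt a x - z‖ ≤ ‖z‖ / 2) : 4 < |x.1| + |x.2| := by
  have h1 := far ha h
  have h2 : a * 4 < a * (|(x.1:ℝ)| + |(x.2:ℝ)|) := by linarith
  have h3 := lt_of_mul_lt_mul_left h2 ha.le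
  exact_mod_cast h3

theorem ev_small {l : Filter ι} (ha : Tendsto a l (𝓝[>] 0)) {c : ℝ} (hc : 0 < c) :
    ∀ᶠ k in l, 0 < a k ∧ a k < c :=
  (ha.eventually self_mem_nhdsWithin).and
    ((ha.mono_right nhdsWithin_le_nhds).eventually (gt_mem_nhds hc))

theorem PA_locB {l : Filter ι} (ha : Tendsto a l (𝓝[>] 0)) :
    LocB l a {0}ᶜ (fun k x => (a k)⁻¹ * PA x.1 x.2) := by
  intro z hz
  have hz0 : 0 < ‖z‖ := norm_pos_iff.2 hz
  refine ⟨‖z‖ / 2, by positivity, 128 / ‖z‖, ?_⟩
  filter_upwards [ev_small ha (by positivity : 0 < ‖z‖ / 8)] with k ⟨k0, k1⟩ x hx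
  have h4 := far_ne k0 k1 hx
  have h5 := far k0 hx
  constructor
  · have h := PA_lap x.1 x.2
    rw [if_neg (by rintro ⟨h1, h2⟩; rw [h1, h2] at h4; norm_num at h4),
      if_neg (by rintro ⟨h1, h2⟩; rw [h1, h2] at h4; norm_num at h4),
      if_neg (by rintro ⟨h1, h2⟩; rw [h1, h2] at h4; norm_num at h4),
      if_neg (by rintro ⟨h1, h2⟩; rw [h1, h2] at h4; norm_num at h4)] at h
    unfold H170.lap
    simp only [Prod.fst_add, Prod.snd_add, Prod.fst_sub, Prod.snd_sub, add_zero, sub_zero]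
    linear_combination (a k)⁻¹ * h
  · rw [abs_mul, abs_inv, abs_of_pos k0]
    have hb := PA_bound x.1 x.2
    calc (a k)⁻¹ * |PA x.1 x.2| ≤ (a k)⁻¹ * (64 / (1 + |(x.1:ℝ)| + |(x.2:ℝ)|)) := by gcongr
      _ ≤ 128 / ‖z‖ := by
        rw [inv_mul_le_iff₀ k0, mul_div_assoc', div_le_div_iff₀ (by positivity) (by positivity)]
        nlinarith

theorem PD_locB {l : Filter ι} (ha : Tendsto a l (𝓝[>] 0)) :
    LocB l a {0}ᶜ (fun k x => (a k)⁻¹ * PD x.1 x.2) := by
  intro z hz
  have hz0 : 0 < ‖z‖ := norm_pos_iff.2 hz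
  refine ⟨‖z‖ / 2, by positivity, 192 / ‖z‖, ?_⟩
  filter_upwards [ev_small ha (by positivity : 0 < ‖z‖ / 8)] with k ⟨k0, k1⟩ x hx
  have h4 := far_ne k0 k1 hx
  have h5 := far k0 hx
  constructor
  · have h := PD_lap x.1 x.2
    rw [if_neg (by rintro ⟨h1, h2⟩; rw [h1, h2] at h4; norm_num at h4),
      if_neg (by rintro ⟨h1, h2⟩; rw [h1, h2] at h4; norm_num at h4)] at h
    unfold H170.lap
    simp only [Prod.fst_add, Prod.snd_add, Prod.fst_sub, Prod.snd_sub, add_zero, sub_zero]
    linear_combination (a k)⁻¹ * h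
  · rw [abs_mul, abs_inv, abs_of_pos k0]
    have hb := PD_bound x.1 x.2
    calc (a k)⁻¹ * |PD x.1 x.2| ≤ (a k)⁻¹ * (96 / (1 + |(x.1:ℝ)| + |(x.2:ℝ)|)) := by gcongr
      _ ≤ 192 / ‖z‖ := by
        rw [inv_mul_le_iff₀ k0, mul_div_assoc', div_le_div_iff₀ (by positivity) (by positivity)]
        nlinarith

theorem P_locCR {l : Filter ι} (ha : Tendsto a l (𝓝[>] 0)) :
    LocCR l a {0}ᶜ (fun k x => (a k)⁻¹ * PA x.1 x.2) (fun k x => (a k)⁻¹ * PD x.1 x.2) := by
  intro z hz
  have hz0 : 0 < ‖z‖ := norm_pos_iff.2 hz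
  refine ⟨‖z‖ / 2, by positivity, ?_⟩
  filter_upwards [ev_small ha (by positivity : 0 < ‖z‖ / 8)] with k ⟨k0, k1⟩ x hx
  have h4 := far_ne k0 k1 hx
  have h1 := P_CR1 x.1 x.2
  have h2 := P_CR2 x.1 x.2
  rw [PL_eq, PR_eq, if_neg (by rintro ⟨h1, h2⟩
                               rw [show x.1 = -1 by lia, show x.2 = -1 by lia] at h4
                               norm_num at h4),
    if_neg (by rintro ⟨h1, h2⟩
               rw [show x.1 = 0 by lia, show x.2 = -1 by lia] at h4
               norm_num at h4)] at h1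
  rw [PL_eq, PR_eq, if_neg (by rintro ⟨h1, h2⟩
                               rw [show x.1 = -1 by lia, show x.2 = -1 by lia] at h4
                               norm_num at h4),
    if_neg (by rintro ⟨h1, h2⟩
               rw [show x.1 = -1 by lia, show x.2 = 0 by lia] at h4
               norm_num at h4)] at h2
  simp only [Prod.fst_add, Prod.snd_add, add_zero]
  constructor
  · linear_combination (a k)⁻¹ * h1
  · linear_combination (a k)⁻¹ * h2

/-- The residue of the kernel. -/
noncomputable def kap : ℂ := (1 - Complex.I) / Real.pi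

theorem isPreconnected_punct : IsPreconnected ({0}ᶜ : Set ℂ) :=
  (isConnected_compl_singleton_of_one_lt_rank (by
    rw [Complex.rank_real_complex]; exact Cardinal.one_lt_two) 0).isPreconnected

/-- The scaling limit of the plane kernel. -/
theorem P_lim {l : Ultrafilter ι} (ha : Tendsto a l (𝓝[>] 0)) :
    CConv l a {0}ᶜ (fun k x => (a k)⁻¹ * PA x.1 x.2) (fun z => (kap / z).re) ∧
    CConv l a {0}ᶜ (fun k x => (a k)⁻¹ * PD x.1 x.2) (fun z => -(kap / z).im) := by
  obtain ⟨HA, cA⟩ := exists_cconv ha (PA_locB ha)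
  obtain ⟨HD, cD⟩ := exists_cconv ha (PD_locB ha)
  have hU : IsOpen ({0}ᶜ : Set ℂ) := isOpen_compl_singleton
  have hol := holo ha hU (PA_locB ha) (PD_locB ha) (P_locCR ha) cA cD
  have ha0 : ∀ᶠ k in (l : Filter ι), 0 < a k := ha.eventually self_mem_nhdsWithin
  -- values on the diagonal
  have hdA : ∀ t : ℝ, 0 < t → HA ⟨t, t⟩ = 0 := by
    intro t ht
    have hz : (⟨t, t⟩ : ℂ) ∈ ({0}ᶜ : Set ℂ) := by
      intro h
      have := congrArg Complex.re h
      simp only [Complex.zero_re] at this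
      exact ht.ne' this
    refine tendsto_nhds_unique (cA.at ha hz) ?_
    refine tendsto_const_nhds.congr fun k => ?_
    simp only [fl]
    have : PA ⌊t / a k⌋ ⌊t / a k⌋ = 0 := by
      have := PA_swap ⌊t / a k⌋ ⌊t / a k⌋
      linarith
    rw [this, mul_zero]
  have hdD : ∀ t : ℝ, 0 < t → HD ⟨t, t⟩ = 1 / (Real.pi * t) := by
    intro t ht
    have hz : (⟨t, t⟩ : ℂ) ∈ ({0}ᶜ : Set ℂ) := by
      intro h
      have := congrArg Complex.re h
      simp only [Complex.zero_re] at this
      exact ht.ne' this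
    refine tendsto_nhds_unique (cD.at ha hz) ?_
    have h1 : Tendsto (fun k => a k * ((⌊t / a k⌋ : ℝ) + 1 / 2)) l (𝓝 t) := by
      have ha' : Tendsto a l (𝓝 0) := ha.mono_right nhdsWithin_le_nhds
      have hlo : Tendsto (fun k => t - 1 / 2 * a k) l (𝓝 t) := by
        have := (ha'.const_mul (1 / 2)).const_sub t
        simpa using this
      have hhi : Tendsto (fun k => t + 1 / 2 * a k) l (𝓝 t) := by
        have := (ha'.const_mul (1 / 2)).const_add t
        simpa using this
      refine tendsto_of_tendsto_of_tendsto_of_le_of_le' hlo hhi ?_ ?_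
      · filter_upwards [ha0] with k hk
        have h1 := Int.lt_floor_add_one (t / a k)
        have h2 : a k * (t / a k) = t := by field_simp
        nlinarith
      · filter_upwards [ha0] with k hk
        have h1 := Int.floor_le (t / a k)
        have h2 : a k * (t / a k) = t := by field_simp
        nlinarith
    have h2 : Tendsto (fun k => 1 / (Real.pi * (a k * ((⌊t / a k⌋ : ℝ) + 1 / 2)))) l
        (𝓝 (1 / (Real.pi * t))) :=
      tendsto_const_nhds.div (h1.const_mul Real.pi) (by have := Real.pi_pos; positivity)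
    refine h2.congr' ?_
    filter_upwards [ha0] with k hk
    simp only [fl]
    rw [PD_diag]
    have hfl : (0:ℝ) ≤ ⌊t / a k⌋ := by
      exact_mod_cast Int.floor_nonneg.2 (by positivity)
    have : (⌊t / a k⌋ : ℝ) + 1 / 2 ≠ 0 := by positivity
    have hpi := Real.pi_pos
    field_simp
  -- identity theorem
  have hanal : AnalyticOnNhd ℂ (fun z => (HA z : ℂ) - HD z * Complex.I) {0}ᶜ :=
    hol.analyticOnNhd hU
  have hanal2 : AnalyticOnNhd ℂ (fun z => kap / z) {0}ᶜ := by
    refine DifferentiableOn.analyticOnNhd ?_ hU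
    intro z hz
    exact (DifferentiableAt.div (differentiableAt_const _) differentiableAt_id
      (show (id z : ℂ) ≠ 0 from hz)).differentiableWithinAt
  have hz1 : (⟨1, 1⟩ : ℂ) ∈ ({0}ᶜ : Set ℂ) := by
    intro h
    have := congrArg Complex.re h
    simp at this
  have hfreq : ∃ᶠ z in 𝓝[≠] (⟨1, 1⟩ : ℂ), (HA z : ℂ) - HD z * Complex.I = kap / z := by
    have htend : Tendsto (fun n : ℕ => (⟨1 + 1 / (n + 1), 1 + 1 / (n + 1)⟩ : ℂ)) atTop
        (𝓝[≠] (⟨1, 1⟩ : ℂ)) := by
      rw [tendsto_nhdsWithin_iff]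
      constructor
      · have h0 : Tendsto (fun n : ℕ => (1:ℝ) + 1 / (n + 1)) atTop (𝓝 1) := by
          have := (tendsto_one_div_add_atTop_nhds_zero_nat (𝕜 := ℝ)).const_add 1
          simpa using this
        have h1 : Tendsto (fun n : ℕ => (((1:ℝ) + 1 / (n + 1) : ℝ) : ℂ) * (1 + Complex.I)) atTop
            (𝓝 (((1:ℝ):ℂ) * (1 + Complex.I))) :=
          ((Complex.continuous_ofReal.tendsto _).comp h0).mul_const _
        have e1 : (((1:ℝ):ℂ) * (1 + Complex.I)) = (⟨1, 1⟩ : ℂ) := by
          apply Complex.ext <;> simp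
        rw [e1] at h1
        refine h1.congr fun n => ?_
        apply Complex.ext
        · rw [Complex.re_ofReal_mul]; simp
        · rw [Complex.im_ofReal_mul]; simp
      · refine Eventually.of_forall fun n => ?_
        intro h
        have h2 := congrArg Complex.re h
        have : (0:ℝ) < 1 / (n + 1) := by positivity
        simp only at h2
        linarith
    refine htend.frequently (Eventually.frequently (Eventually.of_forall fun n => ?_))
    set t : ℝ := 1 + 1 / (n + 1) with ht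
    have ht0 : 0 < t := by positivity
    show (HA ⟨t, t⟩ : ℂ) - HD ⟨t, t⟩ * Complex.I = kap / ⟨t, t⟩
    rw [hdA t ht0, hdD t ht0]
    have hpi := Real.pi_pos
    have e : (⟨t, t⟩ : ℂ) = t * (1 + Complex.I) := by
      apply Complex.ext <;> simp
    have hne : (t:ℂ) * (1 + Complex.I) ≠ 0 := by
      rw [← e]
      intro h
      have := congrArg Complex.re h
      simp only [Complex.zero_re] at this
      exact ht0.ne' this
    rw [e, eq_div_iff hne, kap]
    push_cast
    have htc : (t:ℂ) ≠ 0 := by exact_mod_cast ht0.ne'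
    have hpc : (Real.pi:ℂ) ≠ 0 := by exact_mod_cast hpi.ne'
    field_simp
    linear_combination (-1 : ℂ) * Complex.I_sq
  have heq : Set.EqOn (fun z => (HA z : ℂ) - HD z * Complex.I) (fun z => kap / z) {0}ᶜ :=
    hanal.eqOn_of_preconnected_of_frequently_eq hanal2 isPreconnected_punct hz1 hfreq
  have hre : ∀ z ∈ ({0}ᶜ : Set ℂ), (kap / z).re = HA z := by
    intro z hz
    have := heq hz
    simp only at this
    rw [← this]; simp
  have him : ∀ z ∈ ({0}ᶜ : Set ℂ), -(kap / z).im = HD z := by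
    intro z hz
    have := heq hz
    simp only at this
    rw [← this]; simp
  constructor
  · intro z hz ε hε
    simp only [hre z hz]
    exact cA z hz ε hε
  · intro z hz ε hε
    simp only [him z hz]
    exact cD z hz ε hε

end Vale.Agent.P144.H135
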